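import Crest.Agent.PVb.R288.Geo
import Crest.Agent.PVb.R288.RTa

-- ▼ part PVb/R288/PlanA
section

/-!
# R288: what every plan satisfies
-/

set_option autoImplicit false

namespace Crest.Agent.R288

variable {P : Par}

theorem plana_kx (hP : Good P) : 2 ≤ P.kx := by
  have := hP.big
  rw [Par.kx.eq_1, Par.ka.eq_1]
  omega

theorem plana_even (Zs : List ℤ) (tabs : List Tab) (e : ℤ × ℤ) (d p : ℕ) :
    zp P Zs tabs e (d + 1) (2 * p) = ((zp P Zs tabs e d p).1,
      midz P Zs tabs (P.L - d - 1) p (zp P Zs tabs e d p).1 (zp P Zs tabs e d p).2) := by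
  rw [zp, if_pos (by omega), show 2 * p / 2 = p by omega]

theorem plana_odd (Zs : List ℤ) (tabs : List Tab) (e : ℤ × ℤ) (d p : ℕ) :
    zp P Zs tabs e (d + 1) (2 * p + 1) = (midz P Zs tabs (P.L - d - 1) p (zp P Zs tabs e d p).1
      (zp P Zs tabs e d p).2, (zp P Zs tabs e d p).2) := by
  rw [zp, if_neg (by omega), show (2 * p + 1) / 2 = p by omega]

theorem plana_fst (Zs : List ℤ) (tabs : List Tab) (e : ℤ × ℤ) (d p k : ℕ) :
    (zp P Zs tabs e (d + k) (p * 2 ^ k)).1 = (zp P Zs tabs e d p).1 := by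
  induction k with
  | zero => simp
  | succ k ih => rw [← add_assoc, show p * 2 ^ (k + 1) = 2 * (p * 2 ^ k) by ring, plana_even, ih]

theorem plana_snd (Zs : List ℤ) (tabs : List Tab) (e : ℤ × ℤ) (d p : ℕ) :
    (p + 1 < 2 ^ d → (zp P Zs tabs e d p).2 = (zp P Zs tabs e d (p + 1)).1) ∧
      (p + 1 = 2 ^ d → (zp P Zs tabs e d p).2 = e.2) := by
  induction d generalizing p with
  | zero => exact ⟨fun h => by omega, fun _ => rfl⟩
  | succ d ih =>
    rw [pow_succ]
    obtain ⟨q, rfl | rfl⟩ := Nat.even_or_odd' p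
    · exact ⟨fun _ => by rw [plana_even, plana_odd], fun h => by omega⟩
    · refine ⟨fun h => ?_, fun h => ?_⟩
      · rw [plana_odd, show 2 * q + 1 + 1 = 2 * (q + 1) by ring, plana_even]
        exact (ih q).1 (by omega)
      · rw [plana_odd]
        exact (ih q).2 (by omega)

theorem plana_get (α γ : ℤ) (σ : ℕ) (tabs : List Tab) {j : ℕ} (hj : j < P.b) :
    (czs P α γ σ tabs).getD j 0 = (zp P (zgrid P α σ) tabs (rdn (gsp P σ) α, rdn (gsp P σ) γ) P.L j).1 := by
  rw [czs, List.getD_append _ _ _ _ (by simpa using hj), List.getD_eq_getElem _ _ (by simpa using hj)]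
  simp

theorem plana_last (α γ : ℤ) (σ : ℕ) (tabs : List Tab) : (czs P α γ σ tabs).getD P.b 0 = rdn (gsp P σ) γ := by
  rw [czs, List.getD_append_right _ _ _ _ (by simp)]
  simp

/-- The planned ends of a node are consecutive entries of `czs` (neighbouring nodes share their ends). -/
theorem zp_czs (hP : Good P) (α γ : ℤ) (σ : ℕ) (tabs : List Tab) {d p : ℕ} (hd : d ≤ P.L) (hp : p < 2 ^ d) :
    zp P (zgrid P α σ) tabs (rdn (gsp P σ) α, rdn (gsp P σ) γ) d p =
      ((czs P α γ σ tabs).getD (p * 2 ^ (P.L - d)) 0,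
        (czs P α γ σ tabs).getD ((p + 1) * 2 ^ (P.L - d)) 0) := by
  have hb : P.b = 2 ^ d * 2 ^ (P.L - d) := by rw [hP.b_eq, ← pow_add, Nat.add_sub_cancel' hd]
  have key : ∀ q < 2 ^ d, (czs P α γ σ tabs).getD (q * 2 ^ (P.L - d)) 0 =
      (zp P (zgrid P α σ) tabs (rdn (gsp P σ) α, rdn (gsp P σ) γ) d q).1 := by
    intro q hq
    rw [plana_get _ _ _ _ (by rw [hb]; exact Nat.mul_lt_mul_of_pos_right hq (by positivity)),
      ← plana_fst _ _ _ d q (P.L - d), Nat.add_sub_cancel' hd]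
  refine Prod.ext (key p hp).symm ?_
  rcases Nat.lt_or_ge (p + 1) (2 ^ d) with h | h
  · rw [(plana_snd _ _ _ d p).1 h]
    exact (key _ h).symm
  · have h1 : p + 1 = 2 ^ d := by omega
    rw [(plana_snd _ _ _ d p).2 h1, h1, ← hb]
    exact (plana_last _ _ _ _).symm

theorem midz_btw (P : Par) (Zs : List ℤ) (tabs : List Tab) (hb p : ℕ) (zl zr : ℤ) :
    min zl zr ≤ midz P Zs tabs hb p zl zr ∧ midz P Zs tabs hb p zl zr ≤ max zl zr ∧
      (midz P Zs tabs hb p zl zr ∈ Zs ∨ midz P Zs tabs hb p zl zr = zl) := by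
  rw [midz]
  cases h : (Zs.filter fun z => decide (min zl zr ≤ z ∧ z ≤ max zl zr)).argmin
      fun z => |psi P Zs tabs hb p zl zr z| with
  | none => exact ⟨min_le_left _ _, le_max_left _ _, Or.inr rfl⟩
  | some m =>
    have h1 := List.mem_filter.1 (List.argmin_mem h)
    have h2 := of_decide_eq_true h1.2
    exact ⟨h2.1, h2.2, Or.inl h1.1⟩

/-- Planned boundaries below a node lie between its planned ends. -/
theorem czs_btw (hP : Good P) (α γ : ℤ) (σ : ℕ) (tabs : List Tab) {hb p j : ℕ} (hhb : hb ≤ P.L)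
    (hp : p < 2 ^ (P.L - hb)) (h1 : p * 2 ^ hb ≤ j) (h2 : j ≤ (p + 1) * 2 ^ hb) :
    min ((czs P α γ σ tabs).getD (p * 2 ^ hb) 0) ((czs P α γ σ tabs).getD ((p + 1) * 2 ^ hb) 0) ≤
        (czs P α γ σ tabs).getD j 0 ∧
      (czs P α γ σ tabs).getD j 0 ≤
        max ((czs P α γ σ tabs).getD (p * 2 ^ hb) 0) ((czs P α γ σ tabs).getD ((p + 1) * 2 ^ hb) 0) := by
  induction hb generalizing p with
  | zero =>
    simp only [pow_zero, mul_one] at h1 h2 ⊢
    rcases (show j = p ∨ j = p + 1 by omega) with rfl | rfl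
    · exact ⟨min_le_left _ _, le_max_left _ _⟩
    · exact ⟨min_le_right _ _, le_max_right _ _⟩
  | succ hb ih =>
    have hp2 : 2 * p + 1 < 2 ^ (P.L - hb) := by
      rw [show P.L - hb = P.L - (hb + 1) + 1 by omega, pow_succ]
      omega
    have e1 := zp_czs hP α γ σ tabs (d := P.L - (hb + 1)) (p := p) (by omega) hp
    have e2 := zp_czs hP α γ σ tabs (d := P.L - (hb + 1) + 1) (p := 2 * p) (by omega) (by
      rw [pow_succ]; omega)
    rw [plana_even, e1, show P.L - (P.L - (hb + 1)) = hb + 1 by omega,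
      show P.L - (P.L - (hb + 1) + 1) = hb by omega] at e2
    have e3 := midz_btw P (zgrid P α σ) tabs (hb + 1 - 1) p ((czs P α γ σ tabs).getD (p * 2 ^ (hb + 1)) 0)
      ((czs P α γ σ tabs).getD ((p + 1) * 2 ^ (hb + 1)) 0)
    have e4 := (Prod.ext_iff.1 e2).2
    dsimp only at e4
    rw [e4] at e3
    have i1 : p * 2 ^ (hb + 1) = 2 * p * 2 ^ hb := by ring
    have i2 : (p + 1) * 2 ^ (hb + 1) = (2 * p + 1 + 1) * 2 ^ hb := by ring
    rw [i1, i2] at e3 ⊢
    rw [i1] at h1
    rw [i2] at h2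
    rcases le_total j ((2 * p + 1) * 2 ^ hb) with h | h
    · have := ih (p := 2 * p) (by omega) (by omega) h1 h
      omega
    · have := ih (p := 2 * p + 1) (by omega) hp2 h h2
      omega

theorem czs_zero (hP : Good P) (α γ : ℤ) (σ : ℕ) (tabs : List Tab) :
    (czs P α γ σ tabs).getD 0 0 = rdn (gsp P σ) α ∧ (czs P α γ σ tabs).getD P.b 0 = rdn (gsp P σ) γ := by
  refine ⟨?_, plana_last _ _ _ _⟩
  have := zp_czs hP α γ σ tabs (d := 0) (p := 0) (by omega) (by simp)
  rw [zero_mul] at this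
  exact (Prod.ext_iff.1 this).1.symm

theorem czs_dvd (hP : Good P) (α γ : ℤ) (σ : ℕ) (tabs : List Tab) (j : ℕ) :
    (gsp P σ : ℤ) ∣ (czs P α γ σ tabs).getD j 0 := by
  have key : ∀ d p, (gsp P σ : ℤ) ∣ (zp P (zgrid P α σ) tabs (rdn (gsp P σ) α, rdn (gsp P σ) γ) d p).1 ∧
      (gsp P σ : ℤ) ∣ (zp P (zgrid P α σ) tabs (rdn (gsp P σ) α, rdn (gsp P σ) γ) d p).2 := by
    intro d
    induction d with
    | zero => exact fun _ => ⟨rdn_dvd _ _, rdn_dvd _ _⟩
    | succ d ih =>
      intro p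
      have hm : ∀ hb q, (gsp P σ : ℤ) ∣ midz P (zgrid P α σ) tabs hb q
          (zp P (zgrid P α σ) tabs (rdn (gsp P σ) α, rdn (gsp P σ) γ) d q).1
          (zp P (zgrid P α σ) tabs (rdn (gsp P σ) α, rdn (gsp P σ) γ) d q).2 := by
        intro hb q
        rcases (midz_btw P (zgrid P α σ) tabs hb q _ _).2.2 with h | h
        · exact dvd_of_mem_zgrid h
        · rw [h]; exact (ih q).1
      obtain ⟨q, rfl | rfl⟩ := Nat.even_or_odd' p
      · rw [plana_even]; exact ⟨(ih q).1, hm _ _⟩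
      · rw [plana_odd]; exact ⟨hm _ _, (ih q).2⟩
  rcases lt_trichotomy j P.b with h | rfl | h
  · rw [plana_get _ _ _ _ h]; exact (key _ _).1
  · rw [(czs_zero hP α γ σ tabs).2]; exact rdn_dvd _ _
  · rw [List.getD_eq_default _ _ (by simp [czs]; omega)]; exact dvd_zero _

theorem plana_fm {β : Type} {n : ℕ} {g : ℕ → Option β} {f : ℕ → β} (h : ∀ j < n, g j = some (f j)) :
    ((List.range n).map g).filterMap id = (List.range n).map f := by
  rw [List.map_congr_left (g := fun j => some (f j)) fun j hj => h j (List.mem_range.1 hj), List.filterMap_map]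
  exact congrFun (List.filterMap_eq_map (f := f)) _

/-- Unfolding `planOf`. -/
theorem planOf_some (hP : Good P) {α γ : ℤ} {σ : ℕ} {tabs : List Tab} {pl : Plan}
    (h : planOf P α γ σ tabs = some pl) :
    (γ - α).natAbs ≤ σ ∧ pl.1 = czs P α γ σ tabs ∧
      (∀ j < P.b, ctxOf P (zgrid P α σ) σ tabs (czs P α γ σ tabs) j = some (pc pl j)) ∧
      ((List.range P.b).map fun j => cap P (pc pl j)).sum ≤ σ := by
  have _ := hP
  rw [planOf, planOf'] at h
  split_ifs at h with hc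
  obtain ⟨h1, h2, h3⟩ := hc
  have h4 : ∀ j, ∃ c : Ctx, j < P.b → ctxOf P (zgrid P α σ) σ tabs (czs P α γ σ tabs) j = some c := by
    intro j
    by_cases hj : j < P.b
    · obtain ⟨c, hc⟩ := Option.isSome_iff_exists.1
        (List.all_eq_true.1 h2 _ (List.mem_map_of_mem (List.mem_range.2 hj)))
      exact ⟨c, fun _ => hc⟩
    · exact ⟨(0, 0, 0, ⟨0⟩), fun h' => absurd h' hj⟩
  choose f hf using h4
  rw [plana_fm hf] at h h3
  obtain rfl := Option.some.inj h
  have h5 : ∀ j < P.b, pc (czs P α γ σ tabs, (List.range P.b).map f) j = f j := fun j hj => by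
    rw [pc, List.getD_eq_getElem _ _ (by simpa using hj)]
    simp
  refine ⟨h1, rfl, fun j hj => by rw [h5 j hj, hf j hj], ?_⟩
  rw [List.map_map] at h3
  rw [List.map_congr_left (g := cap P ∘ f) fun j hj => by rw [h5 j (List.mem_range.1 hj)]; rfl]
  exact h3

/-- Conversely. -/
theorem planOf_eq_some (hP : Good P) {α γ : ℤ} {σ : ℕ} {tabs : List Tab} {cs : ℕ → Ctx}
    (h1 : (γ - α).natAbs ≤ σ)
    (h2 : ∀ j < P.b, ctxOf P (zgrid P α σ) σ tabs (czs P α γ σ tabs) j = some (cs j))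
    (h3 : ((List.range P.b).map fun j => cap P (cs j)).sum ≤ σ) :
    ∃ pl, planOf P α γ σ tabs = some pl := by
  have _ := hP
  rw [planOf, planOf']
  rw [if_pos]
  · exact ⟨_, rfl⟩
  · refine ⟨h1, List.all_eq_true.2 fun o ho => ?_, ?_⟩
    · obtain ⟨j, hj, rfl⟩ := List.mem_map.1 ho
      rw [h2 j (List.mem_range.1 hj)]
      rfl
    · rw [plana_fm h2, List.map_map]
      exact h3

namespace Model

variable {M : Model}

theorem plana_lip (hF : FOk M.F) (r i : ℕ) (s s' : ℤ × ℤ) : M.Fr P r i s ≤ M.Fr P r i s' + dist1 s s' := by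
  have := hF.lip (r * P.L) i s.1 s.2 s'.1 s'.2
  rw [Fr, Fr, dist1]
  omega

/-- If the tables are upper bounds for the costs, a plan is valid.  Certificate: some `s' ∈ om c` has
`T0 · F s' + 8 w T0 ≤ cap · T0`, and `dist1 s s' ≤ 8 w`. -/
theorem planOk_of (hP : Good P) (hF : FOk M.F) {r i : ℕ} {s : ℤ × ℤ} {σ : ℕ} {tabs : List Tab}
    (hl : tabs.length = P.T0)
    (ht : ∀ tab ∈ tabs, TabRel (zgrid P s.1 σ) P.b
      (fun j z1 z2 v => M.Fr P (r - 1) (i * P.b + j) (z1, z2) ≤ v) tab)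
    {pl : Plan} (h : planOf P s.1 s.2 σ tabs = some pl) : M.PlanOk P r i s σ pl := by
  obtain ⟨h1, h2, h3, h4⟩ := planOf_some hP h
  have hz : ∀ j, pz pl j = (czs P s.1 s.2 σ tabs).getD j 0 := fun j => by rw [pz, h2]
  have hg := geo_par hP
  have hx := plana_kx hP
  have hctx : ∀ j < P.b, ∃ lv < P.nw, pc pl j = ctxAt P σ lv (pz pl j) (pz pl (j + 1)) := by
    intro j hj
    obtain ⟨lv, hlv, e⟩ := List.mem_map.1 (List.mem_of_find?_eq_some (h3 j hj))
    exact ⟨lv, List.mem_range.1 hlv, by rw [hz, hz, e]⟩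
  have hcert : ∀ j < P.b, certOk P (zgrid P s.1 σ) tabs j (pc pl j) = true := fun j hj =>
    List.find?_some (h3 j hj)
  have hgrid : ∀ j < P.b, ∀ s' ∈ om (pc pl j), s'.1 ∈ zgrid P s.1 σ ∧ s'.2 ∈ zgrid P s.1 σ := by
    intro j hj s' hs'
    have := hcert j hj
    rw [certOk, Bool.and_eq_true] at this
    simpa using List.all_eq_true.1 this.1 s' hs'
  refine ⟨h1, by rw [hz, (czs_zero hP _ _ _ _).1], by rw [hz, (czs_zero hP _ _ _ _).2],
    fun j _ => by rw [hz]; exact czs_dvd hP _ _ _ _ _, fun j hj => ?_, hctx, fun j hj => ?_, hgrid, h4⟩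
  · have := czs_btw hP s.1 s.2 σ tabs (hb := P.L) (p := 0) (j := j) le_rfl (by simp) (by simp)
      (by rwa [zero_add, one_mul, ← hP.b_eq])
    rwa [zero_mul, zero_add, one_mul, ← hP.b_eq, ← hz, ← hz, ← hz] at this
  · have hn : ∃ q, (pc pl j).2.2.2.n = 2 ^ (q + 1) ∧ q + 1 ≤ P.kg := by
      obtain ⟨lv, hlv, e⟩ := hctx j hj
      refine ⟨P.kg - P.kd + lv, ?_, by omega⟩
      rw [e]
      exact hP.p2_eq (by omega)
    refine ⟨hn, fun s' hs' => ?_⟩
    have h5 := hcert j hj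
    rw [certOk, Bool.and_eq_true, decide_eq_true_eq] at h5
    obtain ⟨s0, hs0, e⟩ := List.mem_map.1 (mn_mem (l := (om (pc pl j)).map fun s' =>
      (tabs.map fun tab => tget (zgrid P s.1 σ) tab j s'.1 s'.2).sum) (by simpa using om_ne_nil _))
    have h6 : M.Fr P (r - 1) (i * P.b + j) s0 * P.T0 ≤
        (tabs.map fun tab => tget (zgrid P s.1 σ) tab j s0.1 s0.2).sum := by
      have := List.card_nsmul_le_sum (tabs.map fun tab => tget (zgrid P s.1 σ) tab j s0.1 s0.2)
        (M.Fr P (r - 1) (i * P.b + j) s0) fun v hv => by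
          obtain ⟨tab, htab, rfl⟩ := List.mem_map.1 hv
          exact (ht tab htab).tget hj (hgrid j hj s0 hs0).1 (hgrid j hj s0 hs0).2
      rwa [List.length_map, hl, smul_eq_mul, mul_comm] at this
    have h7 : M.Fr P (r - 1) (i * P.b + j) s0 + 8 * cw (pc pl j) ≤ cap P (pc pl j) := by
      refine Nat.le_of_mul_le_mul_right (c := P.T0) ?_ (by have := hP.two_le_T0; omega)
      have := h5.2
      rw [← e] at this
      rw [add_mul]
      omega
    have h8 := plana_lip (P := P) hF (r - 1) (i * P.b + j) s' s0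
    obtain ⟨q, hq, -⟩ := hn
    have h9 := dist1_om (c := pc pl j) (by rw [hq]; exact dvd_pow_self 2 (by omega)) hs' hs0
    omega

theorem Cert.two_dvd {r i : ℕ} {c : Ctx} (h : M.Cert P r i c) : 2 ∣ c.2.2.2.n := by
  obtain ⟨⟨q, hq, -⟩, -⟩ := h
  rw [hq]
  exact dvd_pow_self 2 (by omega)

theorem Cert.radc_le (hP : Good P) {r i : ℕ} {c : Ctx} (h : M.Cert P r i c) : radc (some c) ≤ P.F0 := by
  obtain ⟨⟨q, hq, h1⟩, -⟩ := h
  rw [hP.F0_eq]
  exact hq.trans_le (Nat.pow_le_pow_right two_pos h1)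

theorem Cert.length_om (hP : Good P) {r i : ℕ} {c : Ctx} (h : M.Cert P r i c) :
    (om c).length ≤ 2 ^ (2 * P.kg + 4) := by
  have h1 : c.2.2.2.n ≤ 2 ^ P.kg := hP.F0_eq ▸ h.radc_le hP
  have h2 : 0 < 2 ^ P.kg := by positivity
  rw [R288.length_om, show 2 * P.kg + 4 = (P.kg + 2) * 2 by ring, pow_mul]
  refine Nat.pow_le_pow_left ?_ 2
  rw [pow_add]
  omega

theorem Nice.cw_pow {r i : ℕ} {c : Ctx} (h : M.Nice P r i c) : ∃ a, cw c = 2 ^ a := by
  obtain ⟨⟨⟨q, hq, -⟩, -⟩, m, hm⟩ := h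
  refine ⟨m + q, ?_⟩
  rw [cw, hq, hm, pow_succ, ← mul_assoc, Nat.mul_div_cancel _ two_pos, pow_add]

theorem Fr_lip (hF : FOk M.F) (r i : ℕ) (s s' : ℤ × ℤ) : M.Fr P r i s ≤ M.Fr P r i s' + dist1 s s' := plana_lip hF r i s s'

namespace PlanOk

variable {r i : ℕ} {s : ℤ × ℤ} {σ : ℕ} {pl : Plan}

theorem gsp_eq (hP : Good P) (h : M.PlanOk P r i s σ pl) {j : ℕ} (hj : j < P.b) :
    (pc pl j).2.2.1 = gsp P σ := by
  have _ := hP
  obtain ⟨lv, -, e⟩ := h.ctx j hj
  rw [e]
  rfl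

theorem wlv_le_cw (hP : Good P) (h : M.PlanOk P r i s σ pl) {j : ℕ} (hj : j < P.b) :
    wlv P σ 0 ≤ cw (pc pl j) := by
  obtain ⟨lv, hlv, e⟩ := h.ctx j hj
  rw [e, cw_ctxAt hP σ hlv]
  exact wlv_mono hP σ (Nat.zero_le _) hlv

theorem mem_om (hP : Good P) (h : M.PlanOk P r i s σ pl) {j : ℕ} (hj : j < P.b) {s' : ℤ × ℤ}
    (h1 : InW P σ pl j s'.1) (h2 : InW P σ pl (j + 1) s'.2) : s' ∈ om (pc pl j) := by
  obtain ⟨lv, hlv, e⟩ := h.ctx j hj
  rw [e]
  exact mem_om_ctxAt hP σ hlv h1.1 h2.1 (h.dvd j hj.le) (h.dvd (j + 1) hj) h1.2 h2.2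

theorem inW_pz (h : M.PlanOk P r i s σ pl) {j : ℕ} (hj : j ≤ P.b) : InW P σ pl j (pz pl j) := ⟨h.dvd j hj, by simp⟩

theorem inW_optz (hP : Good P) (h : M.PlanOk P r i s σ pl) {hb p k0 : ℕ} (h1 : 1 ≤ hb) (hhb : hb ≤ P.L)
    (hp : p < 2 ^ (P.L - hb)) (hk : k0 < 2 ^ P.mb) :
    InW P σ pl ((2 * p + 1) * 2 ^ (hb - 1)) (optz P pl hb p k0) := by
  have hg := geo_par hP
  have hm := hP.mb_add
  obtain ⟨hb, rfl⟩ : ∃ k, hb = k + 1 := ⟨hb - 1, by omega⟩
  have hb0 : 0 < P.b := by rw [hP.b_eq]; positivity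
  have hi : (2 * p + 1) * 2 ^ hb ≤ P.b := by
    rw [hP.b_eq, show P.L = P.L - (hb + 1) + 1 + hb by omega, pow_add, pow_succ]
    exact Nat.mul_le_mul_right _ (by omega)
  have e : optz P pl (hb + 1) p k0 = pz pl ((2 * p + 1) * 2 ^ hb) +
      (gsp P σ : ℤ) * ((k0 : ℤ) - (2 ^ (P.kg - P.kd) : ℕ)) := by
    rw [optz, h.gsp_eq hP hb0, Nat.add_sub_cancel, hP.p2_eq (by omega), hP.p2_eq (by omega), hP.p2_eq (by omega),
      show P.mb - 1 = P.kg - P.kd by omega, show p * 2 ^ (hb + 1) + 2 ^ hb = (2 * p + 1) * 2 ^ hb by ring]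
  rw [Nat.add_sub_cancel, InW, e]
  refine ⟨(h.dvd _ hi).add (dvd_mul_right _ _), ?_⟩
  rw [add_sub_cancel_left, Int.natAbs_mul, Int.natAbs_natCast, wlv, hP.p2_eq (by omega), add_zero]
  refine Nat.mul_le_mul_left _ ?_
  rw [show P.mb = P.kg - P.kd + 1 by omega, pow_succ] at hk
  omega

theorem center_near (hP : Good P) (h : M.PlanOk P r i s σ pl) {j : ℕ} (hj : j < P.b) :
    ((pc pl j).1 - pz pl j).natAbs ≤ cw (pc pl j) ∧
      ((pc pl j).2.1 - pz pl (j + 1)).natAbs ≤ cw (pc pl j) := by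
  obtain ⟨lv, hlv, e⟩ := h.ctx j hj
  have key : ∀ z : ℤ, (gsp P σ : ℤ) ∣ z → (rdn (wlv P σ lv) z - z).natAbs ≤ wlv P σ lv := by
    intro z e
    have h3 := geo_rdn (w := wlv P σ lv) (z := z) fun hw => by
      rwa [(Nat.mul_eq_zero.1 hw).resolve_right (hP.p2_pos _).ne', Nat.cast_zero, zero_dvd_iff] at e
    omega
  rw [e, cw_ctxAt hP σ hlv]
  exact ⟨key _ (h.dvd j hj.le), key _ (h.dvd (j + 1) hj)⟩

theorem junc_le (h : M.PlanOk P r i s σ pl) (hσ : 0 < gsp P σ) : junc P pl s.1 s.2 ≤ 2 * gsp P σ := by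
  have h1 := natAbs_sub_rdn_lt hσ s.1
  have h2 := natAbs_sub_rdn_lt hσ s.2
  rw [junc, dist1, h.z0, h.zb]
  dsimp only
  omega

theorem sum_cw (hP : Good P) (h : M.PlanOk P r i s σ pl) :
    ((List.range P.b).map fun j => cw (pc pl j)).sum * 2 ^ P.kx ≤ σ := by
  have := h.caps
  simp only [cap_eq hP] at this
  rwa [List.sum_map_mul_right] at this

theorem omg_le (hP : Good P) (h : M.PlanOk P r i s σ pl) {hb p : ℕ} (hhb : hb ≤ P.L)
    (hp : p < 2 ^ (P.L - hb)) : omg P pl hb p * 2 ^ P.kx ≤ σ := by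
  refine le_trans (Nat.mul_le_mul_right _ ?_) (h.sum_cw hP)
  rw [omg, blkP_eq hP hhb, hP.b_eq, range_eq_blk hhb hp, List.map_append, List.map_append, List.sum_append,
    List.sum_append]
  omega

/-- The path through the centres costs little more than the values at the centres. -/
theorem cjunc_le (hP : Good P) (h : M.PlanOk P r i s σ pl) (hσ : 0 < gsp P σ) (s' : ℤ × ℤ) :
    cjunc P pl + dist1 s' (cends P pl) ≤
      dist1 s' s + 2 * gsp P σ + 2 * ((List.range P.b).map fun j => cw (pc pl j)).sum := by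
  obtain ⟨n, hn⟩ : ∃ n, P.b = n + 1 := ⟨P.b - 1, by
    have : 0 < P.b := by rw [hP.b_eq]; positivity
    omega⟩
  have h1 : cjunc P pl ≤ ((List.range n).map fun j => cw (pc pl j)).sum +
      ((List.range n).map fun j => cw (pc pl (j + 1))).sum := by
    rw [cjunc, hn, Nat.add_sub_cancel, ← List.sum_map_add]
    refine List.sum_le_sum fun j hj => ?_
    have hj' := List.mem_range.1 hj
    have a1 := (h.center_near hP (j := j) (by omega)).2
    have a2 := (h.center_near hP (j := j + 1) (by omega)).1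
    omega
  have h2 := List.sum_range_succ (fun j => cw (pc pl j)) n
  have h3 := List.sum_range_succ' (fun j => cw (pc pl j)) n
  have h4 := h.junc_le hσ
  have h5 := (h.center_near hP (j := 0) (by omega)).1
  have h6 := (h.center_near hP (j := n) (by omega)).2
  simp only [Nat.succ_eq_add_one] at h2 h3
  simp only [junc, dist1, cends] at h4 ⊢
  rw [hn] at h4
  rw [hn, Nat.add_sub_cancel]
  omega

theorem nice (hP : Good P) {m : ℕ} (hm : P.kg ≤ m) (h : M.PlanOk P r i s (2 ^ m) pl) {j : ℕ}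
    (hj : j < P.b) : M.Nice P (r - 1) (i * P.b + j) (pc pl j) := ⟨h.cert j hj, m - P.kg, by rw [h.gsp_eq hP hj, gsp_pow hP hm]⟩

/-- The table of a hint contains the contexts of every valid plan: `|pz j - c.1| ≤ σ + g + 2w`, `w ≤ σ`,
the centre of a certified context has displacement `≤ cap = wlv · 2^kx`. -/
theorem usable (hP : Good P) (hF : FOk M.F) {c : Ctx} (hc : M.Cert P r i c) (hs : s ∈ om c) {j m : ℕ}
    (hm : P.kg ≤ m) (hj : sclC P c j = 2 ^ m) (h : M.PlanOk P r i s (2 ^ m) pl) :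
    R288.usable P c j pl = true := by
  have hg := geo_par hP
  have hx := plana_kx hP
  rw [R288.usable, Bool.or_eq_true, decide_eq_true_eq]
  refine (lt_or_ge j P.kg).imp_right fun hjk => List.all_eq_true.2 fun k hk => ?_
  have hk' := List.mem_range.1 hk
  obtain ⟨lv, hlv, e⟩ := h.ctx k hk'
  refine List.any_eq_true.2 ⟨lv, List.mem_range.2 hlv, decide_eq_true ?_⟩
  have hw := wlv_pow hP hm hlv
  have hw0 : 0 < wlv P (2 ^ m) lv := by rw [hw]; positivity
  have hg0 : 0 < gsp P (2 ^ m) := by rw [gsp_pow hP hm]; positivity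
  have b1 : 4 * wlv P (2 ^ m) lv ≤ 2 ^ m := by
    rw [hw, show 4 = 2 ^ 2 from rfl, ← pow_add]
    exact Nat.pow_le_pow_right two_pos (by omega)
  have b2 : 2 * gsp P (2 ^ m) ≤ 2 ^ m := by
    rw [gsp_pow hP hm, ← pow_succ']
    exact Nat.pow_le_pow_right two_pos (by omega)
  have b3 : wlv P (2 ^ m) lv * 2 ^ (P.kd + 2 - lv) = 4 * 2 ^ m := by
    rw [hw, ← pow_add, show m - P.kd + lv + (P.kd + 2 - lv) = m + 2 by omega]
    ring
  have b4 := le_sclC hP c hjk
  have b5 := (om_near hc.two_dvd hs).1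
  have b6 := h.btw k hk'.le
  have b7 := natAbs_sub_rdn_lt hg0 s.1
  have b8 := natAbs_sub_rdn_lt hg0 s.2
  have b9 := h.disp
  have c1 := natAbs_sub_rdn_lt hw0 (pz pl k)
  have c2 := natAbs_sub_rdn_lt hw0 c.1
  rw [h.z0, h.zb] at b6
  rw [hj] at b4
  obtain ⟨a1, ha1, e1⟩ := geo_aux (g := wlv P (2 ^ m) lv) (n := 2 ^ (P.kd + 2 - lv)) (c := rdn (wlv P (2 ^ m) lv) c.1)
    (s := rdn (wlv P (2 ^ m) lv) (pz pl k)) ((rdn_dvd _ _).sub (rdn_dvd _ _)) (by omega)
  have d1 := (h.cert k hk').2 _ (center_mem_om _)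
  have d2 := hF.disp ((r - 1) * P.L) (i * P.b + k) (pc pl k).1 (pc pl k).2.1
  have d3 : ((pc pl k).2.1 - (pc pl k).1).natAbs ≤ cap P (pc pl k) := d2.trans d1
  rw [cap_eq hP, e, cw_ctxAt hP _ hlv] at d3
  obtain ⟨a2, ha2, e2⟩ := geo_aux (g := wlv P (2 ^ m) lv) (n := 2 ^ P.kx) (c := rdn (wlv P (2 ^ m) lv) (pz pl k))
    (s := rdn (wlv P (2 ^ m) lv) (pz pl (k + 1))) ((rdn_dvd _ _).sub (rdn_dvd _ _)) d3
  rw [hj, e, tabKeys, hP.p2_eq (e := P.kd + 2 - lv) (by omega), hP.p2_eq (e := P.kx) (by omega)]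
  refine List.mem_flatMap.2 ⟨(a1 + (2 ^ (P.kd + 2 - lv) : ℕ)).toNat, List.mem_range.2 (by omega),
    List.mem_map.2 ⟨(a2 + (2 ^ P.kx : ℕ)).toNat, List.mem_range.2 (by omega), ?_⟩⟩
  rw [Int.toNat_of_nonneg (by omega), Int.toNat_of_nonneg (by omega), add_sub_cancel_right, add_sub_cancel_right,
    ← e1, ← e2]
  rfl

/-- Reachable boundaries. -/
theorem reach_mem (hP : Good P) (h : M.PlanOk P r i s σ pl) {z : ℕ → ℤ} (hz : Reach P σ (pz pl) z)
    (hd : ∀ j, (gsp P σ : ℤ) ∣ z j) {j : ℕ} (hj : j < P.b) : (z j, z (j + 1)) ∈ om (pc pl j) := by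
  have h1 := hz j hj.le
  have h2 := hz (j + 1) hj
  exact h.mem_om hP hj ⟨hd _, by dsimp only; omega⟩ ⟨hd _, by dsimp only; omega⟩

end PlanOk

theorem plana_path (W : ℕ → ℤ → ℤ → ℝ) (A B : ℕ → ℤ) (n a : ℕ) (zl zr : ℤ) :
    pathCost W ((List.range' a (n + 1)).map fun j => (j, A j, B j)) zl zr =
      |((zl - A a : ℤ) : ℝ)| + ((List.range' a (n + 1)).map fun j => W j (A j) (B j)).sum +
        ((List.range' a n).map fun j => |((B j - A (j + 1) : ℤ) : ℝ)|).sum + |((B (a + n) - zr : ℤ) : ℝ)| := by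
  induction n generalizing a zl with
  | zero => simp [pathCost]
  | succ n ih =>
    rw [List.range'_succ, List.map_cons, pathCost, ih, List.map_cons, List.sum_cons,
      show a + 1 + n = a + (n + 1) by ring, List.range'_succ (s := a) (n := n), List.map_cons, List.sum_cons]
    ring

/-- The path through the centres of the contexts. -/
theorem Fr_le_cent (hP : Good P) (hF : FOk M.F) {r : ℕ} (hr : 1 ≤ r) (i : ℕ) (pl : Plan) (s : ℤ × ℤ) :
    M.Fr P r i s ≤ ((List.range P.b).map fun j =>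
      M.Fr P (r - 1) (i * P.b + j) ((pc pl j).1, (pc pl j).2.1)).sum + cjunc P pl +
        dist1 s (cends P pl) := by
  obtain ⟨n, hn⟩ : ∃ n, P.b = n + 1 := ⟨P.b - 1, by
    have : 0 < P.b := by rw [hP.b_eq]; positivity
    omega⟩
  have h1 := hF.le_pathCost ((r - 1) * P.L) P.L i (hb := P.L) (p := 0) le_rfl
    ((List.range' 0 (n + 1)).map fun j => (j, (pc pl j).1, (pc pl j).2.1)) (by
      rw [blk_top, ← hP.b_eq, hn, List.map_map, List.range_eq_range']
      exact List.map_id _) s.1 s.2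
  rw [plana_path, Nat.sub_self, pow_zero, mul_one, add_zero, zero_add, ← List.range_eq_range',
    ← List.range_eq_range', ← hP.b_eq,
    show (r - 1) * P.L + P.L = r * P.L by rw [← Nat.succ_mul]; congr 1; omega] at h1
  have e : ∀ z : ℤ, |(z : ℝ)| = (z.natAbs : ℝ) := fun z => by rw [Nat.cast_natAbs, Int.cast_abs]
  simp only [e] at h1
  refine (Nat.cast_le (α := ℝ)).1 ?_
  simp only [Fr, cjunc, cends, dist1]
  rw [Nat.cast_add, Nat.cast_add, Nat.cast_add, Nat.cast_list_sum, Nat.cast_list_sum, List.map_map, List.map_map,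
    show P.b - 1 = n by omega, ← Int.natAbs_neg (s.2 - _), neg_sub]
  rw [← hn] at h1
  simp only [Function.comp_def]
  linarith

end Model

theorem omg_zero (hP : Good P) (pl : Plan) (p : ℕ) : omg P pl 0 p = cw (pc pl p) := by
  rw [omg, blkP_eq hP (Nat.zero_le _), blk_zero]
  simp

theorem omg_succ (hP : Good P) (pl : Plan) {hb : ℕ} (hhb : hb < P.L) (p : ℕ) :
    omg P pl (hb + 1) p = omg P pl hb (2 * p) + omg P pl hb (2 * p + 1) := by
  rw [omg, omg, omg, blkP_eq hP hhb, blkP_eq hP hhb.le, blkP_eq hP hhb.le, blk_succ, List.map_append,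
    List.sum_append]


end Crest.Agent.R288
end

-- ▼ part PVb/R288/ValidA
section

/-!
# R288: validity of all values, step lemmas
-/

set_option autoImplicit false

namespace Crest.Agent.R288

open RT

namespace Model

variable (M : Model) (P : Par)

/-- Values without context are valid. -/
def VN (r t : ℕ) : Prop := ∀ i s, (M.top r i s none t).All fun v =>
  M.Fr P r i s ≤ v ∧ v ≤ 2 ^ P.kR * M.Fr P r i s

/-- Values in certified contexts are valid. -/
def VS (r t : ℕ) : Prop := ∀ i s c, M.Cert P r i c → s ∈ om c → (M.top r i s (some c) t).All fun v =>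
  M.Fr P r i s ≤ v ∧ v ≤ cap P c ∧ v ≤ 2 ^ P.kR * M.Fr P r i s

/-- What the time-independent data of a context satisfy. -/
def FixOk (r i : ℕ) (c : Ctx) (f : ℕ × List (List (Option Plan))) : Prop :=
  16 * cw c ≤ f.1 ∧ ∀ j < P.nC, M.PlsOk P r i c j (f.2.getD j [])

variable {M P}

theorem valida_getD {B : Type} {R : ℕ → B → Prop} {n : ℕ} {l : List B} (h : List.Forall₂ R (List.range n) l)
    {j : ℕ} (hj : j < n) (d : B) : R j (l.getD j d) := by
  have h1 := h.length_eq
  rw [List.length_range] at h1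
  have h2 := List.forall₂_iff_get.1 h |>.2 j (by simpa using hj) (h1 ▸ hj)
  rw [List.getD_eq_getElem _ _ (h1 ▸ hj)]
  simpa using h2

theorem valida_mem {A B : Type} {R : A → B → Prop} {l : List A} {m : List B} (h : List.Forall₂ R l m)
    {b : B} (hb : b ∈ m) : ∃ a ∈ l, R a b := by
  induction h with
  | nil => simp at hb
  | cons hab _ ih =>
    rcases List.mem_cons.1 hb with rfl | hb
    · exact ⟨_, List.mem_cons_self, hab⟩
    · obtain ⟨a, ha, h⟩ := ih hb
      exact ⟨a, List.mem_cons_of_mem _ ha, h⟩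

theorem valida_sum {A : Type} {f g : A → ℕ} {l : List A} {m : List ℕ}
    (h : List.Forall₂ (fun a v => f a ≤ v ∧ v ≤ g a) l m) : (l.map f).sum ≤ m.sum ∧ m.sum ≤ (l.map g).sum := by
  induction h with
  | nil => simp
  | cons hab _ ih =>
    simp only [List.map_cons, List.sum_cons]
    omega

theorem valida_L {r : ℕ} (hr : 1 ≤ r) : (r - 1) * P.L + P.L = r * P.L := by
  obtain ⟨r, rfl⟩ := Nat.exists_eq_add_of_le' hr
  rw [Nat.add_sub_cancel, add_mul, one_mul]

theorem tab_valid {r t : ℕ} (hv : M.VN P (r - 1) t) (i : ℕ) (Zs : List ℤ) :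
    (M.tab P r i Zs t).All (TabRel Zs P.b fun j z1 z2 v =>
      M.Fr P (r - 1) (i * P.b + j) (z1, z2) ≤ v) := by
  unfold tab TabRel
  refine All_seq_map _ _ _ fun j _ => All_seq_map _ _ _ fun z1 _ => All_seq_map _ _ _ fun z2 _ => ?_
  exact All_avg_ge ((hv _ _).mono fun v h => h.1) _

/-- `gR_le_gN`, `FOk.le_gR`. -/
theorem gval_valid (h : M.Ok P) {r t : ℕ} (hr : 1 ≤ r) (hv : M.VN P (r - 1) (t - 1)) (i : ℕ) (s : ℤ × ℤ)
    (σ : ℕ) : (M.gval P r i s σ t).All fun v => M.Fr P r i s ≤ v := by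
  unfold gval
  rw [All_map]
  refine (tab_valid hv i _).mono fun tb htb => ?_
  have h1 := gR_le_gN (W := fun j a c => (M.F ((r - 1) * P.L) (i * 2 ^ P.L + j) a c : ℝ))
    (htb.mono fun j _ z1 _ z2 _ v hv' => by
      rw [← h.good.b_eq]
      exact_mod_cast hv') (js := List.range P.b) (fun j hj => List.mem_range.1 hj) s.1 s.2
  have h2 := h.fok.le_gR (W := fun j a c => (M.F ((r - 1) * P.L) (i * 2 ^ P.L + j) a c : ℝ))
    (zgrid_ne_nil P s.1 σ) ((r - 1) * P.L) P.L i (hb := P.L) (p := 0) le_rfl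
    (fun _ _ _ _ _ _ => le_rfl) s.1 s.2
  rw [valida_L hr, Nat.sub_self, pow_zero, mul_one, add_zero, blk, zero_mul, ← List.range_eq_range',
    ← h.good.b_eq] at h2
  rw [← h.good.b_eq] at h1
  exact_mod_cast h2.trans h1

theorem plan_valid (h : M.Ok P) {r φ : ℕ} (hv : ∀ k < P.T0, M.VN P (r - 1) (wnd P φ k)) (i : ℕ)
    (s : ℤ × ℤ) (σ : ℕ) :
    (M.plan P r i s σ φ).All fun o => ∀ pl, o = some pl → M.PlanOk P r i s σ pl := by
  unfold plan tabs
  rw [All_map]
  refine (All_seq _ (TabRel (zgrid P s.1 σ) P.b fun j z1 z2 v =>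
      M.Fr P (r - 1) (i * P.b + j) (z1, z2) ≤ v) fun u hu => ?_).mono fun tb htb pl hpl => ?_
  · obtain ⟨k, hk, rfl⟩ := List.mem_map.1 hu
    exact tab_valid (hv k (List.mem_range.1 hk)) i _
  · exact planOk_of h.good h.fok (by simpa using htb.1) htb.2 hpl

/-- Induction on `hb`, then on `q`. -/
theorem sn_valid (h : M.Ok P) {r t : ℕ} (hr : 1 ≤ r) (hrH : r ≤ P.H) (ht : P.T0 < t)
    (hv : M.VS P (r - 1) t) {i : ℕ} {s : ℤ × ℤ} {σ : ℕ} {pl : Plan} (hpl : M.PlanOk P r i s σ pl)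
    {hb p : ℕ} (hhb : hb ≤ P.L) (hp : p < 2 ^ (P.L - hb)) {s' : ℤ × ℤ}
    (h1 : InW P σ pl (p * 2 ^ hb) s'.1) (h2 : InW P σ pl ((p + 1) * 2 ^ hb) s'.2) {k0 q : ℕ}
    (hq : q ≤ P.mb) (hk : k0 + 2 ^ q ≤ 2 ^ P.mb) :
    (M.sn r i pl hb p s' k0 q t).All fun v =>
      M.F ((r - 1) * P.L + hb) (i * 2 ^ (P.L - hb) + p) s'.1 s'.2 ≤ v ∧
        v ≤ omg P pl hb p * 2 ^ P.kx := by
  induction hb generalizing p s' k0 q with
  | zero =>
    rw [h.sn r hr hrH i pl 0 hhb p s' k0 q hq t ht, sn', if_pos rfl]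
    simp only [pow_zero, mul_one, Nat.sub_zero, add_zero] at hp h1 h2 ⊢
    rw [← h.good.b_eq] at hp ⊢
    refine (hv _ _ _ (hpl.cert p hp) (hpl.mem_om h.good hp h1 h2)).mono fun v hv' => ⟨hv'.1, ?_⟩
    rw [omg_zero h.good, ← cap_eq h.good]
    exact hv'.2.1
  | succ hb ih =>
    induction q generalizing k0 with
    | zero =>
      rw [h.sn r hr hrH i pl _ hhb p s' k0 0 hq t ht, sn', if_neg (Nat.succ_ne_zero hb), if_pos rfl,
        Nat.add_sub_cancel]
      have e : 2 ^ (P.L - hb) = 2 * 2 ^ (P.L - (hb + 1)) := by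
        rw [show P.L - hb = P.L - (hb + 1) + 1 by omega, pow_succ']
      have hm := hpl.inW_optz h.good (Nat.le_add_left 1 hb) hhb hp (k0 := k0) (by simpa using hk)
      rw [Nat.add_sub_cancel] at hm
      have a1 := ih (p := 2 * p) (s' := (s'.1, optz P pl (hb + 1) p k0)) (k0 := 0) (q := P.mb) (by omega)
        (by omega) (by rwa [show 2 * p * 2 ^ hb = p * 2 ^ (hb + 1) by ring]) hm le_rfl (by omega)
      have a2 := ih (p := 2 * p + 1) (s' := (optz P pl (hb + 1) p k0, s'.2)) (k0 := 0) (q := P.mb) (by omega)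
        (by omega) hm (by rwa [show (2 * p + 1 + 1) * 2 ^ hb = (p + 1) * 2 ^ (hb + 1) by ring]) le_rfl (by omega)
      rw [All_bind]
      refine a1.mono fun v1 b1 => ?_
      rw [All_map]
      refine a2.mono fun v2 b2 => ?_
      have b3 := h.fok.sub ((r - 1) * P.L + hb) (i * 2 ^ (P.L - (hb + 1)) + p) s'.1 s'.2 (optz P pl (hb + 1) p k0)
      rw [show 2 * (i * 2 ^ (P.L - (hb + 1)) + p) = i * 2 ^ (P.L - hb) + 2 * p by rw [e]; ring,
        add_assoc (i * _), add_assoc] at b3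
      rw [omg_succ h.good pl (by omega), add_mul]
      dsimp only at b1 b2
      omega
    | succ q ihq =>
      rw [h.sn r hr hrH i pl _ hhb p s' k0 _ hq t ht, sn', if_neg (Nat.succ_ne_zero hb),
        if_neg (Nat.succ_ne_zero q), All_bind]
      refine All_of_forall _ fun a1 => ?_
      rw [All_bind]
      refine All_of_forall _ fun a2 => ?_
      rw [All_bind]
      refine All_of_forall _ fun u => ?_
      rw [opt, Nat.add_sub_cancel]
      rw [pow_succ] at hk
      refine ihq (by omega) ?_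
      split_ifs <;> omega

theorem sroot_valid (h : M.Ok P) {r t : ℕ} (hr : 1 ≤ r) (hrH : r ≤ P.H) (ht : P.T0 < t)
    (hv : M.VS P (r - 1) t) {i : ℕ} {s : ℤ × ℤ} {σ : ℕ} {pl : Plan} (hpl : M.PlanOk P r i s σ pl) :
    (M.sroot P r i pl t).All fun v => v ≤ σ ∧ ∀ s', M.Fr P r i s' ≤ v + junc P pl s'.1 s'.2 := by
  have hp : 0 < 2 ^ (P.L - P.L) := by positivity
  have a := sn_valid h hr hrH ht hv hpl (hb := P.L) (p := 0) le_rfl hp (s' := (pz pl 0, pz pl P.b))
    (by rw [zero_mul]; exact hpl.inW_pz (Nat.zero_le _))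
    (by rw [zero_add, one_mul, ← h.good.b_eq]; exact hpl.inW_pz le_rfl) (k0 := 0) (q := P.mb) le_rfl (by omega)
  refine a.mono fun v hv' => ⟨hv'.2.trans (hpl.omg_le h.good le_rfl hp), fun s' => ?_⟩
  have b1 := hv'.1
  rw [valida_L hr, Nat.sub_self, pow_zero, mul_one, add_zero] at b1
  exact (Fr_lip h.fok r i s' (pz pl 0, pz pl P.b)).trans (Nat.add_le_add_right b1 _)

theorem fix_valid (h : M.Ok P) {r φ : ℕ} (hv : ∀ k < P.T0, M.VN P (r - 1) (wnd P φ k)) (i : ℕ)
    (c : Ctx) : (M.fix P r i c φ).All (M.FixOk P r i c) := by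
  unfold fix
  rw [All_bind]
  refine All_of_forall _ fun rows => ?_
  rw [All_map]
  refine (All_seq_map _ _ (fun j row => List.Forall₂ (fun s o => ∀ pl, o = some pl →
    M.PlanOk P r i s (sclC P c j) pl) (om c) row) fun j _ =>
      All_seq_map _ _ _ fun s _ => plan_valid h hv i s _).mono fun pls hpls => ?_
  refine ⟨Nat.le_add_left _ _, fun j hj pl hpl => ?_⟩
  have e : (fixOut P c rows pls).2.getD j [] = (pls.getD j []).map fun o =>
      o.bind fun pl => if usable P c j pl = true then some pl else none := by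
    simp [fixOut, List.getD_eq_getElem?_getD, hj]
  rw [e] at hpl
  obtain ⟨o, ho, e'⟩ := List.mem_map.1 hpl
  obtain ⟨s', hs', hok⟩ := valida_mem (valida_getD hpls hj []) ho
  cases o with
  | none => simp at e'
  | some pl' =>
    simp only [Option.bind_some] at e'
    split_ifs at e' with hu
    obtain rfl := Option.some.inj e'
    exact ⟨hu, s', hs', hok _ rfl⟩

theorem cent_valid (h : M.Ok P) {r t : ℕ} (hv : M.VS P (r - 1) t) {i : ℕ} {s : ℤ × ℤ} {σ : ℕ}
    {pl : Plan} (hpl : M.PlanOk P r i s σ pl) :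
    (M.cent P r i pl t).All fun v => ((List.range P.b).map fun j =>
      M.Fr P (r - 1) (i * P.b + j) ((pc pl j).1, (pc pl j).2.1)).sum ≤ v ∧ v ≤ σ := by
  unfold cent
  rw [All_map]
  refine (All_seq_map _ _ (fun j v => M.Fr P (r - 1) (i * P.b + j) ((pc pl j).1, (pc pl j).2.1) ≤ v ∧
    v ≤ cap P (pc pl j)) fun j hj => ?_).mono fun l hl => ?_
  · exact (hv _ _ _ (hpl.cert j (List.mem_range.1 hj)) (center_mem_om _)).mono fun v hv' => ⟨hv'.1, hv'.2.1⟩
  · exact ⟨(valida_sum hl).1, (valida_sum hl).2.trans hpl.caps⟩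

/-- A hint comes from one of the plans; it exists if there is a plan. -/
theorem hintj_valid (h : M.Ok P) {r t : ℕ} (hr : 1 ≤ r) (hv : M.VS P (r - 1) t) {i : ℕ} {c : Ctx} {j : ℕ}
    {pls : List (Option Plan)} (hp : M.PlsOk P r i c j pls) :
    (M.hintj P r i c j pls t).All fun oh => ((∃ pl, some pl ∈ pls) → oh ≠ none) ∧
      ∀ g, oh = some g → (∀ s, M.Fr P r i s ≤ hval s g) ∧
        ∃ pl, some pl ∈ pls ∧ g.2 = cends P pl ∧ g.1 ≤ sclC P c j + cjunc P pl := by
  have hmem : ∀ pl, pl ∈ pls.filterMap id ↔ some pl ∈ pls := fun pl => by simp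
  unfold hintj
  split_ifs with hj
  · rw [All_pure]
    refine ⟨fun ⟨pl, hpl⟩ h0 => ?_, fun g hg => ?_⟩
    · rw [statH, Option.map_eq_none_iff, List.head?_eq_none_iff] at h0
      have := (hmem pl).2 hpl
      rw [h0] at this
      simp at this
    · rw [statH, Option.map_eq_some_iff] at hg
      obtain ⟨pl, h1, rfl⟩ := hg
      have h2 := (hmem pl).1 (List.mem_of_mem_head? h1)
      obtain ⟨-, s', -, hok⟩ := hp pl h2
      refine ⟨fun s => (Fr_le_cent h.good h.fok hr i pl s).trans ?_, pl, h2, rfl, Nat.add_le_add_right hok.caps _⟩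
      refine Nat.add_le_add_right (Nat.add_le_add_right (List.sum_le_sum fun k hk => ?_) _) _
      exact (hok.cert k (List.mem_range.1 hk)).2 _ (center_mem_om _)
  · unfold hint
    rw [All_bind]
    refine All_of_forall _ fun ds => ?_
    cases hs : selP P c (sclC P c j) pls ds with
    | none =>
      rw [Option.elim_none, All_pure]
      refine ⟨fun ⟨pl, hpl⟩ _ => ?_, fun g hg => by simp at hg⟩
      rw [selP, List.argmin_eq_none] at hs
      have := (hmem pl).2 hpl
      rw [hs] at this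
      simp at this
    | some pl =>
      rw [Option.elim_some, All_map]
      have h2 := (hmem pl).1 (List.argmin_mem hs)
      obtain ⟨-, s', -, hok⟩ := hp pl h2
      refine (All_avg (cent_valid h hv hok) _).mono fun v hv' => ⟨fun _ => by simp, fun g hg => ?_⟩
      obtain rfl := Option.some.inj hg
      refine ⟨fun s => (Fr_le_cent h.good h.fok hr i pl s).trans ?_, pl, h2, rfl, Nat.add_le_add_right hv'.2 _⟩
      exact Nat.add_le_add_right (Nat.add_le_add_right hv'.1 _) _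

end Model

end Crest.Agent.R288
end

-- ▼ part PVb/R288/Valid
section

/-!
# R288: validity of all values
-/

set_option autoImplicit false

namespace Crest.Agent.R288

open RT

namespace Model

variable {M : Model} {P : Par}

theorem valid_R (h : M.Ok P) (n : ℕ) : n ≤ 2 ^ P.kR * n :=
  Nat.le_mul_of_pos_left _ (by positivity)

theorem valid_leaf (h : M.Ok P) {i : ℕ} {s : ℤ × ℤ} (hF : ¬ M.Fr P 0 i s ≤ P.F0) :
    M.Fr P 0 i s ≤ (s.2 - s.1).natAbs + 1 ∧ (s.2 - s.1).natAbs + 1 ≤ 2 ^ P.kR * M.Fr P 0 i s := by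
  have h1 := h.fok.up (0 * P.L) i s.1 s.2
  have h2 := h.fok.disp (0 * P.L) i s.1 s.2
  have h3 := h.good.ll_kR
  have h4 := h.good.aux_ll_ne
  have h5 : 2 ^ 1 ≤ 2 ^ P.kR := Nat.pow_le_pow_right (by norm_num) (by omega)
  have h6 := Nat.mul_le_mul_right (M.Fr P 0 i s) h5
  unfold Fr at *
  simp only [Nat.zero_mul, pow_zero] at *
  omega

theorem valid_wnd (h : M.Ok P) {t : ℕ} (ht : P.T0 < t) {k : ℕ} (hk : k < P.T0) : wnd P (phs P t) k < t := by
  obtain ⟨e, h1, -⟩ := eq_rd0 h.good ht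
  have h2 := wnd_le (P := P) h1 hk
  unfold rd0 at e
  omega

theorem valid_sroot (h : M.Ok P) {r t : ℕ} (hr : 1 ≤ r) (hrH : r ≤ P.H) (ht : P.T0 < t)
    (hv : M.VS P (r - 1) t) {i : ℕ} {s : ℤ × ℤ} {σ : ℕ} {pl : Plan} (hpl : M.PlanOk P r i s σ pl)
    (s' : ℤ × ℤ) (e : ℕ) :
    ((M.sroot P r i pl t).avg e).All fun v => M.Fr P r i s' ≤ v + junc P pl s'.1 s'.2 := by
  have h1 : (M.sroot P r i pl t).All fun v => M.Fr P r i s' - junc P pl s'.1 s'.2 ≤ v :=
    (sroot_valid h hr hrH ht hv hpl).mono fun v hv => by have := hv.2 s'; omega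
  exact (All_avg_ge h1 e).mono fun v hv => by omega

theorem valid_getD {α β : Type} {p : α → β → Prop} {l : List α} {l' : List β} (h : List.Forall₂ p l l')
    {k : ℕ} (hk : k < l.length) (d : β) : p l[k] (l'.getD k d) := by
  have h1 := h.length_eq
  rw [List.getD_eq_getElem _ _ (h1 ▸ hk)]
  exact List.Forall₂.get h hk (h1 ▸ hk)

theorem valid_range {β : Type} {p : ℕ → β → Prop} {n : ℕ} {l' : List β}
    (h : List.Forall₂ p (List.range n) l') {k : ℕ} (hk : k < n) (d : β) : p k (l'.getD k d) := by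
  have := valid_getD h (k := k) (by simpa using hk) d
  simpa using this

theorem valid_past (h : M.Ok P) {r t : ℕ} (ht : P.T0 < t) (h1 : M.VN P r (t - 1))
    (h1' : P.T0 < t - 1 → M.VS P r (t - 1)) {i : ℕ} {c : Ctx} (hc : M.Cert P r i c) :
    (M.past P r i c t).All fun zs => List.Forall₂
      (fun s v => M.Fr P r i s ≤ v ∧ v ≤ 2 ^ P.kR * M.Fr P r i s) (om c) zs := by
  rw [past, All_bind]
  refine (All_seq_map (om c) _ (fun s v => M.Fr P r i s ≤ v ∧ v ≤ 2 ^ P.kR * M.Fr P r i s)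
    fun s _ => All_avg (h1 i s) _).mono fun A hA => ?_
  rw [All_map]
  have hB : (seq (if nIn P t = 0 then [] else (om c).map fun s => M.est P r i s (some c) (t - 1))).All
      fun B => ∀ k (hk : k < (om c).length) d, M.Fr P r i (om c)[k] ≤ d → M.Fr P r i (om c)[k] ≤ B.getD k d := by
    split_ifs with h0
    · intro k hk d hd
      simpa using hd
    · obtain ⟨e, h2, -⟩ := eq_rd0 h.good ht
      have h3 : P.T0 ≤ phs P t * P.T0 := Nat.le_mul_of_pos_left _ h2
      have h4 : P.T0 < t - 1 := by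
        unfold rd0 at e
        omega
      refine (All_seq_map (om c) _ (fun s v => M.Fr P r i s ≤ v) fun s hs =>
        All_avg_ge ((h1' h4 i s c hc hs).mono fun v hv => hv.1) _).mono fun B hB k hk d _ => ?_
      exact valid_getD hB hk d
  refine hB.mono fun B hB => ?_
  have hl := hA.length_eq
  refine List.forall₂_of_length_eq_of_get (by simp [pastOut, hl]) fun k hk hk' => ?_
  have h2 := valid_getD hA hk 0
  have h3 := hB k hk _ h2.1
  simp only [pastOut, List.get_eq_getElem, List.getElem_map, List.getElem_range]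
  exact ⟨le_min h2.1 h3, (min_le_left _ _).trans h2.2⟩

theorem valid_zip {α : Type} {p : α → ℕ → Prop} {l : List α} {l' : List ℕ} (h : List.Forall₂ p l l')
    (g : α → ℕ → Option ℕ) :
    (∀ o ∈ List.zipWith g l l', ∃ a v, p a v ∧ o = g a v) ∧
      ∀ a ∈ l, ∃ v, p a v ∧ g a v ∈ List.zipWith g l l' := by
  induction h with
  | nil => simp
  | @cons a v l l' hav _ ih =>
    refine ⟨fun o ho => ?_, fun b hb => ?_⟩
    · rcases List.mem_cons.1 ho with rfl | ho
      · exact ⟨a, v, hav, rfl⟩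
      · exact ih.1 o ho
    · rcases List.mem_cons.1 hb with rfl | hb
      · exact ⟨v, hav, List.mem_cons_self⟩
      · obtain ⟨w, hw, hm⟩ := ih.2 b hb
        exact ⟨w, hw, List.mem_cons_of_mem _ hm⟩

/-- Cases of `Ok.top`; `wnd P (phs P t) k ≤ t - 1`. -/
theorem vn_step (h : M.Ok P) {r t : ℕ} (hrH : r ≤ P.H) (h1 : ∀ t' < t, ∀ r' ≤ P.H, M.VN P r' t')
    (h2 : 1 ≤ r → P.T0 < t → M.VS P (r - 1) t) : M.VN P r t := by
  intro i s
  rw [h.top r hrH i s none t (by simp) (by simp [radc])]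
  split_ifs with hF hr
  · exact ⟨le_rfl, valid_R h _⟩
  · subst hr
    exact valid_leaf h hF
  have hr1 : 1 ≤ r := Nat.one_le_iff_ne_zero.2 hr
  simp only [Option.elim, topN]
  by_cases ht : t = 0
  · rw [if_pos ht]
    exact (h.orc r hrH i s (by omega)).mono fun v hv => ⟨hv.1, hv.2.1⟩
  rw [if_neg ht, All_bind]
  refine (All_avg (h1 (t - 1) (by omega) r hrH i s) _).mono fun C hC => ?_
  rw [All_map]
  refine (All_seq _ (fun o => ∀ v, o = some v → M.Fr P r i s ≤ v) fun u hu => ?_).mono fun l hl =>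
    ⟨le_omin hC.1 fun v hv => hl.2 _ hv v rfl, (omin_le_init _ _).trans hC.2⟩
  rcases List.mem_append.1 hu with hu | hu
  · obtain ⟨j, -, rfl⟩ := List.mem_map.1 hu
    rw [All_map]
    refine (gval_valid h hr1 (h1 (t - 1) (by omega) (r - 1) (by omega)) i s _).mono fun v hv w e => ?_
    exact Option.some.inj e ▸ hv
  · split_ifs at hu with hT
    · obtain ⟨j, -, rfl⟩ := List.mem_map.1 hu
      rw [sval, All_bind]
      refine (plan_valid h (fun k hk => h1 _ (valid_wnd h hT hk) (r - 1) (by omega)) i s _).mono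
        fun o ho => ?_
      cases o with
      | none => intro v e; exact absurd e (by simp)
      | some pl =>
        simp only [Option.elim]
        rw [All_map]
        refine (valid_sroot h hr1 hrH hT (h2 hr1 hT) (ho pl rfl) s _).mono fun v hv w e => ?_
        exact Option.some.inj e ▸ hv
    · exact absurd hu (by simp)

/-- `comVal ≤ cap`, `comVal ≤` the past value of `s` itself; all entries of the minimum are `≥ F`. -/
theorem vs_step (h : M.Ok P) {r t : ℕ} (hrH : r ≤ P.H) (ht : P.T0 < t)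
    (h1 : ∀ t' < t, ∀ r' ≤ P.H, M.VN P r' t') (h1' : P.T0 < t - 1 → M.VS P r (t - 1))
    (h2 : 1 ≤ r → M.VS P (r - 1) t) : M.VS P r t := by
  intro i s c hc hs
  rw [h.top r hrH i s (some c) t (fun _ => ht) (hc.radc_le h.good)]
  have hcap := hc.2 s hs
  split_ifs with hF hr
  · exact ⟨le_rfl, hcap, valid_R h _⟩
  · subst hr
    have := valid_leaf h hF
    exact ⟨le_min this.1 hcap, min_le_right _ _, (min_le_left _ _).trans this.2⟩
  have hr1 : 1 ≤ r := Nat.one_le_iff_ne_zero.2 hr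
  simp only [Option.elim, topS, com]
  rw [All_bind, All_bind]
  refine (valid_past h ht (h1 (t - 1) (by omega) r hrH) h1' hc).mono fun zs hzs => ?_
  rw [All_bind]
  refine (fix_valid h (fun k hk => h1 _ (valid_wnd h ht hk) (r - 1) (by omega)) i c).mono fun f hf => ?_
  rw [All_map]
  refine (All_seq_map (List.range P.nC) _ (fun _ oh => ∀ g, oh = some g → M.Fr P r i s ≤ hval s g)
    fun j hj => (hintj_valid h hr1 (h2 hr1) (hf.2 j (List.mem_range.1 hj))).mono
      fun oh ho g e => (ho.2 g e).1 s).mono fun hs' hhs => ?_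
  rw [All_map]
  refine (All_seq_map (List.range P.nC) _
    (fun j x => ∀ pl, own c s (zs, f.1, f.2, hs') j = some pl → M.Fr P r i s ≤ x + junc P pl s.1 s.2)
    fun j hj => ?_).mono fun xs hxs => ?_
  · cases e : own c s (zs, f.1, f.2, hs') j with
    | none => intro pl e'; exact absurd e' (by simp)
    | some pl =>
      have hm : some pl ∈ f.2.getD j [] := by
        have e' : (f.2.getD j []).getD ((om c).idxOf s) none = some pl := e
        by_cases hk : (om c).idxOf s < (f.2.getD j []).length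
        · rw [List.getD_eq_getElem _ _ hk] at e'
          exact e' ▸ List.getElem_mem hk
        · rw [List.getD_eq_default _ _ (by omega)] at e'
          exact absurd e' (by simp)
      obtain ⟨-, s', -, hpl⟩ := hf.2 j (List.mem_range.1 hj) pl hm
      refine (valid_sroot h hr1 hrH ht (h2 hr1) hpl s _).mono fun v hv pl' e' => ?_
      exact Option.some.inj e' ▸ hv
  · obtain ⟨z1, z2⟩ := valid_zip hzs fun s' z => some (z + dist1 s s')
    refine ⟨le_omin (le_omin (le_omin hcap fun v hv => ?_) fun v hv => ?_) fun v hv => ?_,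
      (omin_le_init _ _).trans ((omin_le_init _ _).trans (omin_le_init _ _)), ?_⟩
    · obtain ⟨s', z, hz, e⟩ := z1 _ hv
      have h3 := Fr_lip (M := M) (P := P) h.fok r i s s'
      have h4 := Option.some.inj e
      omega
    · obtain ⟨oh, hm, e⟩ := List.mem_map.1 hv
      obtain ⟨g, e1, rfl⟩ := Option.map_eq_some_iff.1 e
      obtain ⟨k, hk, rfl⟩ := List.getElem_of_mem hm
      have h3 := valid_range hhs (k := k) (by simpa [← hhs.length_eq] using hk) none
      rw [List.getD_eq_getElem _ _ hk] at h3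
      exact h3 g e1
    · obtain ⟨j, hj, e⟩ := List.mem_map.1 hv
      obtain ⟨pl, e1, e2⟩ := Option.bind_eq_some_iff.1 e
      obtain ⟨g, -, rfl⟩ := Option.map_eq_some_iff.1 e2
      exact (valid_range hxs (List.mem_range.1 hj) 0 pl e1).trans (le_max_left _ _)
    · obtain ⟨z, hz, hm⟩ := z2 s hs
      refine (omin_le_init _ _).trans ((omin_le_init _ _).trans ((omin_le hm).trans ?_))
      rw [dist1_self, add_zero]
      exact hz.2

theorem valid (h : M.Ok P) (t : ℕ) : ∀ r ≤ P.H, M.VN P r t ∧ (P.T0 < t → M.VS P r t) := by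
  induction t using Nat.strong_induction_on with
  | _ t iht =>
    intro r
    induction r with
    | zero =>
      intro hr
      exact ⟨vn_step h hr (fun t' ht' r' hr' => (iht t' ht' r' hr').1) (fun h0 => absurd h0 (by omega)),
        fun ht => vs_step h hr ht (fun t' ht' r' hr' => (iht t' ht' r' hr').1)
          (iht (t - 1) (by omega) 0 hr).2 fun h0 => absurd h0 (by omega)⟩
    | succ r ihr =>
      intro hr
      have h0 := (ihr (by omega)).2
      exact ⟨vn_step h hr (fun t' ht' r' hr' => (iht t' ht' r' hr').1) (fun _ ht => h0 ht),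
        fun ht => vs_step h hr ht (fun t' ht' r' hr' => (iht t' ht' r' hr').1)
          (iht (t - 1) (by omega) _ hr).2 fun _ => h0 ht⟩

theorem vn (h : M.Ok P) {r : ℕ} (hr : r ≤ P.H) (t : ℕ) : M.VN P r t := (valid h t r hr).1

theorem vs (h : M.Ok P) {r : ℕ} (hr : r ≤ P.H) {t : ℕ} (ht : P.T0 < t) : M.VS P r t :=
  (valid h t r hr).2 ht

end Model

end Crest.Agent.R288
end

-- ▼ part PVb/R288/MonoA
section

/-!
# R288: monotonicity and Lipschitz properties of the annealed values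
-/

set_option autoImplicit false

namespace Crest.Agent.R288

open RT

namespace Model

variable {M : Model} {P : Par} {r i : ℕ} {s : ℤ × ℤ}

theorem W_cheap (h : M.Ok P) (hr : r ≤ P.H) {c : Option Ctx} {t : ℕ} (ht : c ≠ none → P.T0 < t)
    (hc : radc c ≤ P.F0) (hF : M.Fr P r i s ≤ P.F0) : M.W r i s c t = M.Fr P r i s := by
  rw [W, h.top r hr i s c t ht hc, if_pos hF]
  rfl

theorem W_none_bounds (h : M.Ok P) (hr : r ≤ P.H) (i : ℕ) (s : ℤ × ℤ) (t : ℕ) :
    (M.Fr P r i s : ℝ) ≤ M.W r i s none t ∧ M.W r i s none t ≤ 2 ^ P.kR * M.Fr P r i s := by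
  have hv := vn h hr t i s
  exact ⟨le_E (hv.mono fun v e => by exact_mod_cast e.1), E_le (hv.mono fun v e => by exact_mod_cast e.2)⟩

theorem W_some_bounds (h : M.Ok P) (hr : r ≤ P.H) {c : Ctx} (hc : M.Cert P r i c) (hs : s ∈ om c) {t : ℕ}
    (ht : P.T0 < t) : (M.Fr P r i s : ℝ) ≤ M.W r i s (some c) t ∧ M.W r i s (some c) t ≤ cap P c := by
  have hv := vs h hr ht i s c hc hs
  exact ⟨le_E (hv.mono fun v e => by exact_mod_cast e.1), E_le (hv.mono fun v e => by exact_mod_cast e.2.1)⟩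

/-- `omin C _ ≤ C`, `mean_avg_le`. -/
theorem W_none_succ (h : M.Ok P) (hr : r ≤ P.H) (i : ℕ) (s : ℤ × ℤ) (t : ℕ) :
    M.W r i s none (t + 1) ≤ M.W r i s none t := by
  have e1 := h.top r hr i s none (t + 1) (fun e => (e rfl).elim) (Nat.zero_le _)
  have e0 := h.top r hr i s none t (fun e => (e rfl).elim) (Nat.zero_le _)
  by_cases hF : M.Fr P r i s ≤ P.F0
  · rw [W, W, e1, e0, if_pos hF, if_pos hF]
  by_cases h0 : r = 0
  · rw [W, W, e1, e0, if_neg hF, if_neg hF, if_pos h0, if_pos h0]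
  rw [W, e1, if_neg hF, if_neg h0, Option.elim_none, topN, if_neg (Nat.succ_ne_zero t), Nat.add_sub_cancel]
  refine le_trans ?_ (mean_avg_le (M.top r i s none t) P.kP)
  rw [mean, E_bind]
  refine E_mono' _ fun C => ?_
  rw [E_map]
  exact E_le (All_of_forall _ fun l => by exact_mod_cast omin_le_init C l)

theorem W_none_anti (h : M.Ok P) (hr : r ≤ P.H) (i : ℕ) (s : ℤ × ℤ) {t t' : ℕ} (ht : t ≤ t') :
    M.W r i s none t' ≤ M.W r i s none t := by
  induction ht with
  | refl => exact le_rfl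
  | step _ ih => exact (W_none_succ h hr i s _).trans ih

theorem W_none_up (h : M.Ok P) (hr : r ≤ P.H) (i : ℕ) (s : ℤ × ℤ) (t : ℕ) :
    M.W r i s none t ≤ (2 ^ (r * P.L) + (s.2 - s.1).natAbs : ℕ) := by
  refine (W_none_anti h hr i s (Nat.zero_le t)).trans ?_
  rw [W, h.top r hr i s none 0 (fun e => (e rfl).elim) (Nat.zero_le _)]
  split_ifs with hF h0
  · exact Nat.cast_le.2 (h.fok.up _ _ _ _)
  · subst h0
    refine Nat.cast_le.2 ?_
    simp only [capc, Option.elim_none, zero_mul, pow_zero]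
    omega
  · rw [Option.elim_none, topN, if_pos rfl]
    exact E_le ((h.orc r hr i s (by omega)).mono fun v e => Nat.cast_le.2 e.2.2)

theorem Ratio.mono (h : M.Ok P) {t t' : ℕ} {Λ Λ' : ℝ} (hR : M.Ratio P t Λ) (ht : t ≤ t') (hΛ : Λ ≤ Λ') :
    M.Ratio P t' Λ' := by
  intro r hr i s
  exact (W_none_anti h hr i s ht).trans ((hR r hr i s).trans
    (mul_le_mul_of_nonneg_right hΛ (Nat.cast_nonneg _)))

theorem ratio_zero (h : M.Ok P) : M.Ratio P 0 (2 ^ P.kR) := by
  exact fun r hr i s => (W_none_bounds h hr i s 0).2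

theorem Wt_bounds (h : M.Ok P) (hr : r ≤ P.H) (i : ℕ) (s : ℤ × ℤ) {φ : ℕ} {Λ : ℝ}
    (hR : M.Ratio P ((φ - 1) * P.T0) Λ) :
    (M.Fr P r i s : ℝ) ≤ M.Wt P r i s φ ∧ M.Wt P r i s φ ≤ Λ * M.Fr P r i s := by
  have h0 : (0 : ℝ) < P.T0 := by
    have := h.good.two_le_T0
    exact_mod_cast (by omega : 0 < P.T0)
  rw [Wt, le_div_iff₀ h0, div_le_iff₀ h0]
  constructor
  · have := Finset.card_nsmul_le_sum (Finset.range P.T0) (fun k => M.W r i s none (wnd P φ k))
      (M.Fr P r i s : ℝ) fun k _ => (W_none_bounds h hr i s _).1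
    rwa [Finset.card_range, nsmul_eq_mul, mul_comm] at this
  · have := Finset.sum_le_card_nsmul (Finset.range P.T0) (fun k => M.W r i s none (wnd P φ k))
      (Λ * M.Fr P r i s) fun k _ =>
        (W_none_anti h hr i s (by rw [wnd]; omega)).trans (hR r hr i s)
    rwa [Finset.card_range, nsmul_eq_mul, mul_comm] at this

theorem W_le_Wt (h : M.Ok P) (hr : r ≤ P.H) (i : ℕ) (s : ℤ × ℤ) {φ t : ℕ} (hφ : 1 ≤ φ)
    (ht : φ * P.T0 ≤ t) : M.W r i s none t ≤ M.Wt P r i s φ := by
  have h0 : (0 : ℝ) < P.T0 := by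
    have := h.good.two_le_T0
    exact_mod_cast (by omega : 0 < P.T0)
  rw [Wt, le_div_iff₀ h0]
  have := Finset.card_nsmul_le_sum (Finset.range P.T0) (fun k => M.W r i s none (wnd P φ k))
    (M.W r i s none t) fun k hk =>
      W_none_anti h hr i s ((wnd_le hφ (Finset.mem_range.1 hk)).trans ht)
  rwa [Finset.card_range, nsmul_eq_mul, mul_comm] at this

theorem mbar_le {c : Ctx} (hs : s ∈ om c) (φ : ℕ) : M.mbar P r i c φ ≤ M.Wt P r i s φ := by
  exact mn_le (List.mem_map.2 ⟨s, hs, rfl⟩)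

theorem mbar_nonneg (r i : ℕ) (c : Ctx) (φ : ℕ) : 0 ≤ M.mbar P r i c φ := by
  refine le_mn (fun e => om_ne_nil c (List.map_eq_nil_iff.1 e)) fun a ha => ?_
  obtain ⟨s, -, rfl⟩ := List.mem_map.1 ha
  exact div_nonneg (Finset.sum_nonneg fun k _ => mean_nonneg _) (Nat.cast_nonneg _)

theorem exists_mbar (r i : ℕ) (c : Ctx) (φ : ℕ) : ∃ s ∈ om c, M.Wt P r i s φ = M.mbar P r i c φ := by
  exact List.mem_map.1 (mn_mem (l := (om c).map fun s => M.Wt P r i s φ)
    fun e => om_ne_nil c (List.map_eq_nil_iff.1 e))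

theorem mono_radc (h : M.Ok P) {c : Ctx} (hc : M.Cert P r i c) : radc (some c) ≤ P.F0 := by
  obtain ⟨⟨q, e, hq⟩, -⟩ := hc
  rw [radc, Option.elim_some, e, h.good.F0_eq]
  exact Nat.pow_le_pow_right two_pos hq

theorem mono_lip (h : M.Ok P) (r i : ℕ) (s s' : ℤ × ℤ) :
    (M.Fr P r i s : ℝ) ≤ M.Fr P r i s' + dist1 s s' := by
  have := h.fok.lip (r * P.L) i s.1 s.2 s'.1 s'.2
  rw [← Nat.cast_add, Nat.cast_le, Fr, Fr, dist1]
  omega

/-- the value in a context is at most a past value plus the distance -/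
theorem mono_topS (M : Model) (P : Par) (r i : ℕ) (s : ℤ × ℤ) (c : Ctx) (t : ℕ) {k : ℕ}
    (hk : k < (om c).length) :
    (M.topS P r i s c t).mean ≤
      ((seq ((om c).map fun s => M.est P r i s none (t - 1))).E fun A =>
        (seq (if nIn P t = 0 then [] else (om c).map fun s => M.est P r i s (some c) (t - 1))).E fun B =>
          ((min (A.getD k 0) (B.getD k (A.getD k 0)) : ℕ) : ℝ)) + dist1 s (om c)[k] := by
  rw [topS, mean, E_bind, com, E_bind, past, E_bind]
  rw [← E_const (seq ((om c).map fun s => M.est P r i s none (t - 1))) (dist1 s (om c)[k] : ℝ), ← E_add]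
  refine E_mono ((All_seq_length _).mono fun A hA => ?_)
  rw [List.length_map] at hA
  rw [E_map, ← E_const (seq (if nIn P t = 0 then [] else
    (om c).map fun s => M.est P r i s (some c) (t - 1))) (dist1 s (om c)[k] : ℝ), ← E_add]
  refine E_mono' _ fun B => ?_
  rw [E_bind]
  refine E_le (All_of_forall _ fun f => ?_)
  rw [E_map]
  refine E_le (All_of_forall _ fun hs => ?_)
  rw [E_map]
  refine E_le (All_of_forall _ fun xs => ?_)
  rw [← Nat.cast_add, Nat.cast_le]
  refine (omin_le_init _ _).trans ((omin_le_init _ _).trans (omin_le ?_))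
  have hl : k < (List.zipWith (fun s' z => some (z + dist1 s s')) (om c) (pastOut A B)).length := by
    simp only [List.length_zipWith, pastOut, List.length_map, List.length_range, hA, min_self]
    exact hk
  convert List.getElem_mem hl using 1
  simp only [List.getElem_zipWith, pastOut, List.getElem_map, List.getElem_range]

theorem mono_none (M : Model) (P : Par) (r i : ℕ) (s : ℤ × ℤ) {c : Ctx} (t : ℕ) {s' : ℤ × ℤ}
    (hs' : s' ∈ om c) :
    (M.topS P r i s c t).mean ≤ M.W r i s' none (t - 1) + dist1 s s' := by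
  obtain ⟨k, hk, rfl⟩ := List.getElem_of_mem hs'
  refine (mono_topS M P r i s c t hk).trans (add_le_add_left ?_ _)
  refine le_trans ?_ (mean_avg_le (M.top r i (om c)[k] none (t - 1)) P.kP)
  have e := E_seq_getD ((om c).map fun s => M.est P r i s none (t - 1)) k (by rwa [List.length_map]) 0
    fun v => (v : ℝ)
  rw [List.getElem_map] at e
  refine le_trans (E_mono' _ fun A => E_le (All_of_forall _ fun B => ?_)) e.le
  exact Nat.cast_le.2 (min_le_left _ _)

theorem mono_some (M : Model) (P : Par) (r i : ℕ) (s : ℤ × ℤ) {c : Ctx} {t : ℕ} (ht : nIn P t ≠ 0)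
    {s' : ℤ × ℤ} (hs' : s' ∈ om c) :
    (M.topS P r i s c t).mean ≤ M.W r i s' (some c) (t - 1) + dist1 s s' := by
  obtain ⟨k, hk, rfl⟩ := List.getElem_of_mem hs'
  refine (mono_topS M P r i s c t hk).trans (add_le_add_left ?_ _)
  refine le_trans ?_ (mean_avg_le (M.top r i (om c)[k] (some c) (t - 1)) P.kP)
  refine E_le (All_of_forall _ fun A => ?_)
  rw [if_neg ht]
  have e := E_seq_getD ((om c).map fun s => M.est P r i s (some c) (t - 1)) k
    (by rwa [List.length_map]) (A.getD k 0) fun v => (v : ℝ)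
  rw [List.getElem_map] at e
  exact le_trans (E_mono' _ fun B => Nat.cast_le.2 (min_le_right _ _)) e.le

/-- the three cases of a value in a context -/
theorem mono_cases (h : M.Ok P) (hr : r ≤ P.H) {c : Ctx} (hc : M.Cert P r i c) (s : ℤ × ℤ) :
    (M.Fr P r i s ≤ P.F0 ∧ ∀ t, P.T0 < t → M.W r i s (some c) t = M.Fr P r i s) ∨
      (¬ M.Fr P r i s ≤ P.F0 ∧ r = 0 ∧ ∀ t, P.T0 < t →
        M.W r i s (some c) t = (min ((s.2 - s.1).natAbs + 1) (cap P c) : ℕ)) ∨
      ∀ t, P.T0 < t → M.W r i s (some c) t = (M.topS P r i s c t).mean := by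
  by_cases hF : M.Fr P r i s ≤ P.F0
  · exact Or.inl ⟨hF, fun t ht => W_cheap h hr (fun _ => ht) (mono_radc h hc) hF⟩
  by_cases h0 : r = 0
  · refine Or.inr (Or.inl ⟨hF, h0, fun t ht => ?_⟩)
    rw [W, h.top r hr i s _ t (fun _ => ht) (mono_radc h hc), if_neg hF, if_pos h0]
    rfl
  · refine Or.inr (Or.inr fun t ht => ?_)
    rw [W, h.top r hr i s _ t (fun _ => ht) (mono_radc h hc), if_neg hF, if_neg h0]
    rfl

theorem mono_leaf (h : M.Ok P) (r i : ℕ) (s : ℤ × ℤ) (c : Ctx) :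
    ((min ((s.2 - s.1).natAbs + 1) (cap P c) : ℕ) : ℝ) ≤ M.Fr P r i s + 1 := by
  have := h.fok.disp (r * P.L) i s.1 s.2
  rw [← Nat.cast_add_one, Nat.cast_le, Fr]
  omega

/-- The past values: `ctxOut ≤ comVal ≤ zs[k] + dist1 s s'` for `s' = (om c)[k]`. -/
theorem W_some_le_none (h : M.Ok P) (hr : r ≤ P.H) {c : Ctx} (hc : M.Cert P r i c) (hs : s ∈ om c)
    {s' : ℤ × ℤ} (hs' : s' ∈ om c) {t : ℕ} (ht : P.T0 < t) :
    M.W r i s (some c) t ≤ M.W r i s' none (t - 1) + dist1 s s' + 1 := by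
  have _ := hs
  have h1 := mono_lip h r i s s'
  have h2 := (W_none_bounds h hr i s' (t - 1)).1
  rcases mono_cases h hr hc s with ⟨-, e⟩ | ⟨-, -, e⟩ | e <;> rw [e t ht]
  · linarith
  · linarith [mono_leaf h r i s c]
  · linarith [mono_none M P r i s t hs']

theorem W_some_le_none_self (h : M.Ok P) (hr : r ≤ P.H) {c : Ctx} (hc : M.Cert P r i c) (hs : s ∈ om c)
    {t : ℕ} (ht : P.T0 < t) : M.W r i s (some c) t ≤ M.W r i s none (t - 1) := by
  rcases mono_cases h hr hc s with ⟨-, e⟩ | ⟨hF, h0, e⟩ | e <;> rw [e t ht]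
  · exact (W_none_bounds h hr i s (t - 1)).1
  · rw [W, h.top r hr i s none _ (fun e => (e rfl).elim) (Nat.zero_le _), if_neg hF, if_pos h0]
    exact Nat.cast_le.2 (min_le_left _ _)
  · have := mono_none M P r i s t hs
    rwa [dist1_self, Nat.cast_zero, add_zero] at this

theorem W_some_le_some (h : M.Ok P) (hr : r ≤ P.H) {c : Ctx} (hc : M.Cert P r i c) (hs : s ∈ om c)
    {s' : ℤ × ℤ} (hs' : s' ∈ om c) {φ k : ℕ} (hφ : 1 ≤ φ) (hk : k + 1 < P.T0) :
    M.W r i s (some c) (rd0 P φ (k + 1)) ≤ M.W r i s' (some c) (rd0 P φ k) + dist1 s s' + 1 := by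
  have _ := hs
  have h1 := mono_lip h r i s s'
  have h2 := (W_some_bounds h hr hc hs' (T0_lt_rd0 hφ k)).1
  rcases mono_cases h hr hc s with ⟨-, e⟩ | ⟨-, -, e⟩ | e <;> rw [e _ (T0_lt_rd0 hφ (k + 1))]
  · linarith
  · linarith [mono_leaf h r i s c]
  · have := mono_some M P r i s (t := rd0 P φ (k + 1)) (by rw [nIn_rd0 φ hk]; omega) hs'
    rw [show rd0 P φ (k + 1) - 1 = rd0 P φ k from rfl] at this
    linarith

theorem W_some_succ (h : M.Ok P) (hr : r ≤ P.H) {c : Ctx} (hc : M.Cert P r i c) (hs : s ∈ om c)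
    {φ k : ℕ} (hφ : 1 ≤ φ) (hk : k + 1 < P.T0) :
    M.W r i s (some c) (rd0 P φ (k + 1)) ≤ M.W r i s (some c) (rd0 P φ k) := by
  rcases mono_cases h hr hc s with ⟨-, e⟩ | ⟨-, -, e⟩ | e <;> rw [e _ (T0_lt_rd0 hφ (k + 1))]
  · rw [e _ (T0_lt_rd0 hφ k)]
  · rw [e _ (T0_lt_rd0 hφ k)]
  · have := mono_some M P r i s (t := rd0 P φ (k + 1)) (by rw [nIn_rd0 φ hk]; omega) hs
    rwa [show rd0 P φ (k + 1) - 1 = rd0 P φ k from rfl, dist1_self, Nat.cast_zero, add_zero] at this

theorem W_some_le_mbar (h : M.Ok P) (hr : r ≤ P.H) {c : Ctx} (hc : M.Cert P r i c) (hs : s ∈ om c)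
    {φ : ℕ} (hφ : 1 ≤ φ) (k : ℕ) :
    M.W r i s (some c) (rd0 P φ k) ≤ M.mbar P r i c φ + 8 * cw c + 1 := by
  obtain ⟨s', hs', e⟩ := exists_mbar (M := M) (P := P) r i c φ
  have h1 := W_some_le_none h hr hc hs hs' (T0_lt_rd0 hφ k)
  have h2 := W_le_Wt h hr i s' (t := rd0 P φ k - 1) hφ (by rw [rd0]; omega)
  have h3 : (dist1 s s' : ℝ) ≤ 8 * cw c := by
    obtain ⟨⟨q, hq, -⟩, -⟩ := hc
    exact_mod_cast dist1_om (by rw [hq]; exact dvd_pow_self 2 (Nat.succ_ne_zero q)) hs hs'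
  linarith

end Model

end Crest.Agent.R288
end

-- ▼ part PVb/R288/MonoB

/-!
# R288: upper bounds for the annealed values by the three modes, Lipschitz property in a context
-/

set_option autoImplicit false

namespace Crest.Agent.R288

open RT

namespace Model

variable {M : Model} {P : Par} {r i : ℕ} {s : ℤ × ℤ}

theorem monob_shape (M : Model) (P : Par) (r i : ℕ) (Zs : List ℤ) (t : ℕ) :
    (M.tab P r i Zs t).All (TabRel Zs P.b fun _ _ _ _ => True) := by
  refine All_seq_map _ _ _ fun j _ => All_seq_map _ _ _ fun z1 _ => All_seq_map _ _ _ fun z2 _ => ?_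
  exact All_of_forall _ fun _ => trivial

theorem monob_getD {α ι : Type} [BEq ι] [LawfulBEq ι] (l : List ι) (u : ι → RT α) {a : ι} (ha : a ∈ l) (d : α)
    (f : α → ℝ) : ((seq (l.map u)).E fun r => f (r.getD (l.idxOf a) d)) = (u a).E f := by
  have hk : l.idxOf a < l.length := List.idxOf_lt_length_iff.2 ha
  rw [E_seq_getD (l.map u) (l.idxOf a) (by rwa [List.length_map]) d f, List.getElem_map,
    List.getElem_idxOf hk]

theorem monob_range {α : Type} (n : ℕ) (u : ℕ → RT α) {j : ℕ} (hj : j < n) (d : α)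
    (f : α → ℝ) : ((seq ((List.range n).map u)).E fun r => f (r.getD j d)) = (u j).E f := by
  rw [E_seq_getD ((List.range n).map u) j (by rwa [List.length_map, List.length_range]) d f,
    List.getElem_map, List.getElem_range]

theorem monob_tget (M : Model) (P : Par) (r i : ℕ) {Zs : List ℤ} (t : ℕ) {j : ℕ} (hj : j < P.b)
    {z1 z2 : ℤ} (h1 : z1 ∈ Zs) (h2 : z2 ∈ Zs) :
    ((M.tab P r i Zs t).E fun tb => (tget Zs tb j z1 z2 : ℝ)) ≤ M.Wch P r i t j z1 z2 := by
  have e1 := monob_range P.b (fun j => seq (Zs.map fun z1 => seq (Zs.map fun z2 =>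
    M.est P (r - 1) (i * P.b + j) (z1, z2) none t))) hj []
    fun m => (((m.getD (Zs.idxOf z1) []).getD (Zs.idxOf z2) 0 : ℕ) : ℝ)
  have e2 := monob_getD Zs (fun z1 => seq (Zs.map fun z2 =>
    M.est P (r - 1) (i * P.b + j) (z1, z2) none t)) h1 []
    fun row => ((row.getD (Zs.idxOf z2) 0 : ℕ) : ℝ)
  have e3 := monob_getD Zs (fun z2 => M.est P (r - 1) (i * P.b + j) (z1, z2) none t) h2 0
    fun v => ((v : ℕ) : ℝ)
  exact (e1.trans (e2.trans e3)).le.trans (mean_avg_le _ _)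

theorem monob_path (M : Model) (P : Par) (r i : ℕ) {Zs : List ℤ} (t : ℕ) (l : List (ℕ × ℤ × ℤ))
    (hl : ∀ s ∈ l, s.1 < P.b ∧ s.2.1 ∈ Zs ∧ s.2.2 ∈ Zs) (zl zr : ℤ) :
    ((M.tab P r i Zs t).E fun tb => pathCost (fun j a c => (tget Zs tb j a c : ℝ)) l zl zr) ≤
      pathCost (M.Wch P r i t) l zl zr := by
  induction l generalizing zl with
  | nil => simp only [pathCost, E_const, le_refl]
  | cons a l ih =>
    simp only [pathCost, E_add, E_const]
    obtain ⟨h0, h1, h2⟩ := hl a List.mem_cons_self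
    have := monob_tget M P r i t h0 h1 h2
    have := ih (fun s hs => hl s (List.mem_cons_of_mem _ hs)) a.2.2
    linarith

/-- Take an optimal path (`gR_exists_path`), `gN_le_path`, and the expectation of every entry of the table is
at most the annealed value (`E_seq_getD`, `mean_avg_le`). -/
theorem mean_gval_le (h : M.Ok P) (r i : ℕ) (s : ℤ × ℤ) (σ t : ℕ) :
    (M.gval P r i s σ t).mean ≤
      gR (zgrid P s.1 σ) (M.Wch P r i (t - 1)) (List.range P.b) s.1 s.2 := by
  have _ := h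
  obtain ⟨l, hl, hz, hp⟩ := gR_exists_path (zgrid_ne_nil P s.1 σ) (M.Wch P r i (t - 1)) (List.range P.b) s.1 s.2
  refine le_trans ?_ hp
  refine le_trans ?_ (monob_path M P r i (t - 1) l (fun a ha => ⟨?_, hz a ha⟩) s.1 s.2)
  · rw [gval, mean, E_map]
    exact E_mono ((monob_shape M P r i _ _).mono fun tb htb =>
      gN_le_path htb (fun j hj => List.mem_range.1 hj) hl hz _ _)
  · exact List.mem_range.1 (hl ▸ List.mem_map_of_mem ha)

theorem monob_mem {α : Type} {l : List (Option α)} {j : ℕ} {v : α} (e : l.getD j none = some v) :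
    some v ∈ l := by
  by_cases hk : j < l.length
  · rw [List.getD_eq_getElem _ _ hk] at e
    exact e ▸ List.getElem_mem hk
  · rw [List.getD_eq_default _ _ (by omega)] at e
    exact absurd e (by simp)

theorem monob_seq (C : ℕ) (ts : List (RT (Option ℕ))) {u : RT (Option ℕ)} (hu : u ∈ ts) :
    ((seq ts).map (omin C)).mean ≤ u.E fun o => o.elim (C : ℝ) fun v => (v : ℝ) := by
  obtain ⟨k, hk, rfl⟩ := List.getElem_of_mem hu
  rw [← E_seq_getD ts k hk none, mean, E_map]
  refine E_mono' _ fun l => ?_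
  cases e : l.getD k none with
  | none => exact Nat.cast_le.2 (omin_le_init _ _)
  | some v => exact Nat.cast_le.2 (omin_le (monob_mem e))

theorem monob_topN (h : M.Ok P) (hr : 1 ≤ r) (hrH : r ≤ P.H) (hF : P.F0 < M.Fr P r i s) {m : ℕ}
    (h1 : M.Fr P r i s ≤ 2 ^ m) (h2 : 2 ^ m ≤ 32 * 2 ^ P.kR * M.Fr P r i s) {t : ℕ} (ht : t ≠ 0) {B : ℝ}
    (hB : ∀ C j, C ≤ 2 ^ P.kR * M.Fr P r i s → j < P.nS → sclS P C j = 2 ^ m →
      ((seq (((List.range P.nS).map fun j => (M.gval P r i s (sclS P C j) t).map some) ++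
        if P.T0 < t then (List.range P.nS).map fun j => M.sval P r i s (sclS P C j) t
        else [])).map (omin C)).mean ≤ B) :
    M.W r i s none t ≤ B := by
  rw [W, h.top r hrH i s none t (fun e => (e rfl).elim) (Nat.zero_le _), if_neg (by omega), if_neg (by omega),
    Option.elim_none, topN, if_neg ht, mean, E_bind]
  refine E_le ((All_avg (vn h hrH (t - 1) i s) _).mono fun C hC => ?_)
  obtain ⟨j, hj, e⟩ := sclS_cover h.good (by omega) hC.1 hC.2 h1 h2
  exact hB C j hC.2 hj e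

/-- `sclS_cover` (the index depends on the anchor `C`); cheap states by `FOk.le_gR`. -/
theorem W_none_le_gR (h : M.Ok P) (hr : 1 ≤ r) (hrH : r ≤ P.H) {m : ℕ} (h1 : M.Fr P r i s ≤ 2 ^ m)
    (h2 : 2 ^ m ≤ 32 * 2 ^ P.kR * M.Fr P r i s) (t : ℕ) :
    M.W r i s none (t + 1) ≤ gR (zgrid P s.1 (2 ^ m)) (M.Wch P r i t) (List.range P.b) s.1 s.2 := by
  by_cases hF : M.Fr P r i s ≤ P.F0
  · rw [W_cheap h hrH (fun e => (e rfl).elim) (Nat.zero_le _) hF]
    have := h.fok.le_gR (W := M.Wch P r i t) (zgrid_ne_nil P s.1 (2 ^ m)) ((r - 1) * P.L) P.L i (hb := P.L)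
      (p := 0) le_rfl (fun j _ z1 _ z2 _ => by
        rw [← h.good.b_eq]
        exact (W_none_bounds h (r := r - 1) (by omega) (i * P.b + j) (z1, z2) t).1) s.1 s.2
    rwa [valida_L hr, Nat.sub_self, pow_zero, mul_one, add_zero, blk_top, ← h.good.b_eq] at this
  refine monob_topN h hr hrH (by omega) h1 h2 (Nat.succ_ne_zero t) fun C j _ hj e => ?_
  refine (monob_seq C _ (List.mem_append_left _ (List.mem_map_of_mem (List.mem_range.2 hj)))).trans ?_
  rw [E_map, e]
  exact mean_gval_le h r i s (2 ^ m) (t + 1)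

theorem W_none_le_plan (h : M.Ok P) (hr : 1 ≤ r) (hrH : r ≤ P.H) (hF : P.F0 < M.Fr P r i s) {m : ℕ}
    (h1 : M.Fr P r i s ≤ 2 ^ m) (h2 : 2 ^ m ≤ 32 * 2 ^ P.kR * M.Fr P r i s) {t : ℕ} (ht : P.T0 < t) :
    M.W r i s none t ≤ (M.plan P r i s (2 ^ m) (phs P t)).E fun o =>
      o.elim (2 ^ P.kR * M.Fr P r i s) fun pl => (M.sroot P r i pl t).mean + junc P pl s.1 s.2 := by
  refine monob_topN h hr hrH hF h1 h2 (by omega) fun C j hC hj e => ?_
  rw [if_pos ht]
  refine (monob_seq C _ (List.mem_append_right _ (List.mem_map_of_mem (List.mem_range.2 hj)))).trans ?_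
  rw [e, sval, E_bind]
  refine E_mono' _ fun o => ?_
  cases o with
  | none =>
    simp only [Option.elim_none, E_pure]
    exact_mod_cast hC
  | some pl =>
    simp only [Option.elim_some, E_map, Nat.cast_add, E_add, E_const]
    exact add_le_add_left (mean_avg_le _ _) _

theorem monob_topS (h : M.Ok P) (hr : 1 ≤ r) (hrH : r ≤ P.H) (hF : P.F0 < M.Fr P r i s) {c : Ctx}
    (hc : M.Cert P r i c) {t : ℕ} (ht : P.T0 < t) :
    M.W r i s (some c) t = (M.topS P r i s c t).mean := by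
  rw [W, h.top r hrH i s _ t (fun _ => ht) (mono_radc h hc), if_neg (by omega), if_neg (by omega)]
  rfl

/-- If the own plan or the hint is missing use `comVal ≤` the past value `≤ R F`. -/
theorem W_some_le_fix (h : M.Ok P) (hr : 1 ≤ r) (hrH : r ≤ P.H) (hF : P.F0 < M.Fr P r i s) {c : Ctx}
    (hc : M.Cert P r i c) (hs : s ∈ om c) {j : ℕ} (hj : j < P.nC) {t : ℕ} (ht : P.T0 < t) :
    M.W r i s (some c) t ≤ (M.fix P r i c (phs P t)).E fun f =>
      ((f.2.getD j []).getD ((om c).idxOf s) none).elim (2 ^ P.kR * M.Fr P r i s) fun pl =>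
        M.infl P r i s c j f.1 (f.2.getD j []) pl t := by
  rw [monob_topS h hr hrH hF hc ht, topS, mean, E_bind, com, E_bind]
  refine E_le ((valid_past h ht (vn h hrH (t - 1)) (fun h' => vs h hrH h') hc).mono fun zs hzs => ?_)
  have hR : ∀ (y : ℕ) (pls : List (List (Option Plan))) (hs' : List (Option Hnt)) (xs : List ℕ),
      (ctxOut P c s (zs, y, pls, hs') xs : ℝ) ≤ 2 ^ P.kR * M.Fr P r i s := by
    intro y pls hs' xs
    obtain ⟨z, hz, hm⟩ := (valid_zip hzs fun s' z => some (z + dist1 s s')).2 s hs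
    have : ctxOut P c s (zs, y, pls, hs') xs ≤ 2 ^ P.kR * M.Fr P r i s := by
      refine (omin_le_init _ _).trans ((omin_le_init _ _).trans ((omin_le hm).trans ?_))
      rw [dist1_self, add_zero]
      exact hz.2
    exact_mod_cast this
  rw [E_bind]
  refine E_mono' _ fun f => ?_
  rw [E_map]
  cases e : (f.2.getD j []).getD ((om c).idxOf s) none with
  | none =>
    refine E_le (All_of_forall _ fun hs' => ?_)
    rw [E_map]
    exact E_le (All_of_forall _ fun xs => hR _ _ _ _)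
  | some pl =>
    rw [Option.elim_some, infl,
      ← monob_range P.nC (fun j => M.hintj P r i c j (f.2.getD j []) t) hj none]
    refine E_mono' _ fun hs' => ?_
    have e' : own c s (zs, f.1, f.2, hs') j = some pl := e
    have e2 := monob_range P.nC (fun j => (own c s (zs, f.1, f.2, hs') j).elim (.pure 0) fun pl =>
      (M.sroot P r i pl t).avg P.kK) hj 0 fun X =>
        (hs'.getD j none).elim (2 ^ P.kR * M.Fr P r i s : ℝ) fun h =>
          ((max (X + junc P pl s.1 s.2) (hval s h - f.1) : ℕ) : ℝ)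
    simp only [e', Option.elim_some] at e2
    rw [E_map, ← e2]
    refine E_mono' _ fun xs => ?_
    cases e3 : hs'.getD j none with
    | none => exact hR _ _ _ _
    | some g =>
      refine Nat.cast_le.2 (omin_le (List.mem_map.2 ⟨j, List.mem_range.2 hj, ?_⟩))
      rw [e']
      simp only [Option.bind_some, e3, Option.map_some]

theorem monob_omin_le {a a' d : ℕ} {l l' : List (Option ℕ)} (ha : a ≤ a' + d)
    (h : ∀ v', some v' ∈ l' → ∃ v, some v ∈ l ∧ v ≤ v' + d) : omin a l ≤ omin a' l' + d := by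
  rcases omin_mem a' l' with e | e
  · rw [e]
    exact (omin_le_init _ _).trans ha
  · obtain ⟨v, hv, hle⟩ := h _ e
    exact (omin_le hv).trans hle

theorem comVal_lip (P : Par) (c : Ctx) (s s' : ℤ × ℤ) (cm : Com) :
    comVal P c s cm ≤ comVal P c s' cm + dist1 s s' := by
  refine monob_omin_le (monob_omin_le (Nat.le_add_right _ _) fun v' hv => ?_) fun v' hv => ?_
  · obtain ⟨k, hk, e⟩ := List.getElem_of_mem hv
    have hk' : k < (List.zipWith (fun s' z => some (z + dist1 s s')) (om c) cm.1).length := by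
      rwa [List.length_zipWith] at hk ⊢
    have hm := List.getElem_mem hk'
    rw [List.getElem_zipWith] at e hm
    refine ⟨_, hm, ?_⟩
    rw [← Option.some.inj e, add_assoc, add_comm (dist1 s' _)]
    exact Nat.add_le_add_left (dist1_triangle _ _ _) _
  · obtain ⟨o, ho, e⟩ := List.mem_map.1 hv
    obtain ⟨g, rfl, rfl⟩ := Option.map_eq_some_iff.1 e
    refine ⟨hval s g, List.mem_map.2 ⟨_, ho, rfl⟩, ?_⟩
    rw [hval, hval, add_assoc, add_comm (dist1 s' _)]
    exact Nat.add_le_add_left (dist1_triangle _ _ _) _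

theorem comVal_le_ctxOut (P : Par) (c : Ctx) (s : ℤ × ℤ) (cm : Com) (xs : List ℕ) :
    ctxOut P c s cm xs ≤ comVal P c s cm ∧ comVal P c s cm ≤ ctxOut P c s cm xs + cm.2.1 := by
  refine ⟨omin_le_init _ _, ?_⟩
  refine le_trans ?_ (Nat.add_le_add_right (le_omin (c := comVal P c s cm - cm.2.1)
    (Nat.sub_le _ _) fun v hv => ?_) _)
  · omega
  · obtain ⟨j, -, e⟩ := List.mem_map.1 hv
    obtain ⟨pl, -, e2⟩ := Option.bind_eq_some_iff.1 e
    obtain ⟨g, e3, rfl⟩ := Option.map_eq_some_iff.1 e2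
    refine le_trans (Nat.sub_le_sub_right ?_ _) (le_max_right _ _)
    exact omin_le (List.mem_map.2 ⟨_, monob_mem e3, rfl⟩)

theorem E_fix_le (h : M.Ok P) (r i : ℕ) (c : Ctx) (φ : ℕ) :
    ((M.fix P r i c φ).E fun f => (f.1 : ℝ)) ≤ M.mbar P r i c φ / 2 ^ (2 * P.ka) + 16 * cw c := by
  obtain ⟨s, hs, e⟩ := exists_mbar (M := M) (P := P) r i c φ
  have hk : (om c).idxOf s < (om c).length := List.idxOf_lt_length_iff.2 hs
  have hp : P.p2 (2 * P.ka) = 2 ^ (2 * P.ka) := by
    have h1 := geo_par h.good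
    have h2 : P.kx = 4 * P.ka := by unfold Par.kx; rfl
    exact h.good.p2_eq (by omega)
  have h1 : ((M.fix P r i c φ).E fun f => (f.1 : ℝ)) ≤
      (seq ((List.range P.T0).map fun k =>
        seq ((om c).map fun s => M.est P r i s none (wnd P φ k)))).E fun rows =>
          (rows.map fun row => ((row.getD ((om c).idxOf s) 0 : ℕ) : ℝ)).sum / P.T0 / 2 ^ (2 * P.ka) +
            16 * cw c := by
    rw [fix, E_bind]
    refine E_mono' _ fun rows => ?_
    rw [E_map]
    refine E_le (All_of_forall _ fun pls => ?_)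
    simp only [fixOut, hp]
    rw [Nat.cast_add, Nat.cast_mul, Nat.cast_ofNat]
    refine add_le_add_left (Nat.cast_div_le.trans ?_) _
    rw [Nat.cast_pow, Nat.cast_ofNat]
    refine div_le_div_of_nonneg_right (Nat.cast_div_le.trans
      (div_le_div_of_nonneg_right ?_ (Nat.cast_nonneg _))) (by positivity)
    have h2 := mn_le (List.mem_map_of_mem (f := fun k => (rows.map fun row => row.getD k 0).sum)
      (List.mem_range.2 hk))
    refine (Nat.cast_le.2 h2).trans ?_
    rw [Nat.cast_list_sum, List.map_map]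
    rfl
  refine h1.trans ?_
  rw [E_add, E_const, E_div, E_div, E_seq_sum, ← e, Wt, List.map_map]
  refine add_le_add_left (div_le_div_of_nonneg_right
    (div_le_div_of_nonneg_right ?_ (Nat.cast_nonneg _)) (by positivity)) _
  change _ ≤ ((List.range P.T0).map fun k => M.W r i s none (wnd P φ k)).sum
  refine List.sum_le_sum fun k _ => ?_
  exact (monob_getD (om c) (fun s => M.est P r i s none (wnd P φ k)) hs 0 fun v => (v : ℝ)).le.trans
    (mean_avg_le _ _)

/-- Both states use the same distribution of common data. -/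
theorem W_some_lip (h : M.Ok P) (hr : r ≤ P.H) {c : Ctx} (hc : M.Cert P r i c) (hs : s ∈ om c)
    {s' : ℤ × ℤ} (hs' : s' ∈ om c) {t : ℕ} (ht : P.T0 < t) :
    M.W r i s (some c) t ≤ M.W r i s' (some c) t +
      (M.mbar P r i c (phs P t) / 2 ^ (2 * P.ka) + 24 * cw c + 1) := by
  have h0 : 0 ≤ M.mbar P r i c (phs P t) / 2 ^ (2 * P.ka) :=
    div_nonneg (mbar_nonneg r i c _) (by positivity)
  have h3 : (dist1 s s' : ℝ) ≤ 8 * cw c := by exact_mod_cast dist1_om hc.two_dvd hs hs'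
  have h4 : (0 : ℝ) ≤ cw c := Nat.cast_nonneg _
  have h5 := (W_some_bounds h hr hc hs' ht).1
  have h6 := mono_lip h r i s s'
  by_cases hF' : M.Fr P r i s' ≤ P.F0
  · have h7 := W_some_le_none h hr hc hs hs' ht
    rw [W_cheap h hr (c := none) (fun e => (e rfl).elim) (Nat.zero_le _) hF'] at h7
    linarith
  by_cases hF : M.Fr P r i s ≤ P.F0
  · rw [W_cheap h hr (fun _ => ht) (mono_radc h hc) hF]
    linarith
  by_cases hr0 : r = 0
  · have h7 : M.W r i s (some c) t = (min ((s.2 - s.1).natAbs + 1) (cap P c) : ℕ) := by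
      rw [W, h.top r hr i s _ t (fun _ => ht) (mono_radc h hc), if_neg hF, if_pos hr0]
      rfl
    have h8 := mono_leaf h r i s c
    linarith
  have h7 : ((M.com P r i c t).E fun cm => (cm.2.1 : ℝ)) =
      (M.fix P r i c (phs P t)).E fun f => (f.1 : ℝ) := by
    simp only [com, E_bind, E_map, E_const]
  have h8 := E_fix_le h r i c (phs P t)
  have h9 : M.W r i s (some c) t ≤ M.W r i s' (some c) t +
      ((M.com P r i c t).E fun cm => (cm.2.1 : ℝ)) + dist1 s s' := by
    rw [monob_topS h (by omega) hr (by omega) hc ht, monob_topS h (by omega) hr (by omega) hc ht,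
      topS, topS, mean, mean, E_bind, E_bind, ← E_add, ← E_const (M.com P r i c t) (dist1 s s' : ℝ), ← E_add]
    refine E_mono' _ fun cm => ?_
    rw [E_map, E_map]
    refine E_le (All_of_forall _ fun xs => ?_)
    have a1 : (ctxOut P c s cm xs : ℝ) ≤ comVal P c s cm := Nat.cast_le.2 (comVal_le_ctxOut P c s cm xs).1
    have a2 : (comVal P c s cm : ℝ) ≤ comVal P c s' cm + dist1 s s' := by
      exact_mod_cast comVal_lip P c s s' cm
    have a3 := le_E (All_of_forall (seq ((List.range P.nC).map fun j => (own c s' cm j).elim (.pure 0) fun pl =>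
      (M.sroot P r i pl t).avg P.kK)) (p := fun xs =>
        (comVal P c s' cm : ℝ) - cm.2.1 ≤ (ctxOut P c s' cm xs : ℝ)) fun xs => by
          rw [sub_le_iff_le_add]
          exact_mod_cast (comVal_le_ctxOut P c s' cm xs).2)
    linarith
  linarith

end Model

end Crest.Agent.R288
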