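import Crest.Agent.PVb.R309.RamAux2
import Crest.Prelude.Def_GraphRAM
import Crest.Agent.PVb.R288.Sch
import Crest.Agent.PVb.R309.RamProb
import Crest.Agent.PVb.R288.SchA
import Crest.Agent.PVb.R288.Pure
import Crest.Agent.PVb.R288.Alg

-- ▼ part PVb/R288/RamAux1
section

/-!
# R288: four-stack programs on the word RAM, stacks in the memory behind the input
(adapted from `R302/RamAux1`)
-/

set_option autoImplicit false

namespace Crest.Agent.R288.RamAux

open Crest.Agent.Lib.PT Crest.WordRAM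
open Crest.Agent.R309.RamAux (vec reg At at_cons at_append at_self get_set set_set length_get_le
  tot_pop Rch r_const r_copy r_add r_sub r_and r_shr r_load r_store r_jump r_jz r_jeq r_rand r_halt)

/-! ### The memory image of four stacks -/

/-- The cells of one stack: cell `0` is a sentinel, a bit `x` is stored as `x + 1`. -/
def cell : List Bool → ℕ → ℕ
  | [], _ => 0
  | x :: l, i => if i = l.length + 1 then x.toNat + 1 else cell l i

theorem cell_of_lt (l : List Bool) {i : ℕ} (h : l.length < i) : cell l i = 0 := by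
  induction l with
  | nil => rfl
  | cons x l ih =>
    rw [List.length_cons] at h
    rw [cell, if_neg (by omega), ih (by omega)]

/-- The number of a stack. -/
def idx : R → ℕ
  | .m => 0
  | .a => 1
  | .b => 2
  | .c => 3

/-- The stack with a given number. -/
def rOf (j : ℕ) : R := if j = 0 then .m else if j = 1 then .a else if j = 2 then .b else .c

theorem idx_lt (r : R) : idx r < 4 := by cases r <;> decide

theorem rOf_idx (r : R) : rOf (idx r) = r := by cases r <;> rfl

theorem idx_rOf {j : ℕ} (h : j < 4) : idx (rOf j) = j := by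
  interval_cases j <;> rfl

theorem get_set_ne (s : St) {r r' : R} (h : r' ≠ r) (l : List Bool) :
    (s.set r l).get r' = s.get r' := by
  cases r <;> cases r' <;> first | rfl | exact absurd rfl h

theorem set_get (s : St) (r : R) : s.set r (s.get r) = s := by cases r <;> rfl

/-- The memory: `M` below `H`, the stacks above. -/
def mem (H : ℕ) (M : ℕ → ℕ) (s : St) : ℕ → ℕ :=
  fun i => if i < H then M i else cell (s.get (rOf ((i - H) % 4))) ((i - H) / 4)

/-- The address of the top of a stack. -/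
def ptr (H : ℕ) (l : List Bool) (r : R) : ℕ := H + 4 * l.length + idx r

section mem
variable {H : ℕ} {M : ℕ → ℕ} {s : St}

theorem mem_low {a : ℕ} (h : a < H) : mem H M s a = M a := if_pos h


theorem mem_at (q : ℕ) (r : R) : mem H M s (H + 4 * q + idx r) = cell (s.get r) q := by
  have := idx_lt r
  rw [mem, if_neg (by omega), show (H + 4 * q + idx r - H) % 4 = idx r by omega,
    show (H + 4 * q + idx r - H) / 4 = q by omega, rOf_idx]

theorem mem_push (r : R) (x : Bool) :
    Function.update (mem H M s) (ptr H (x :: s.get r) r) (x.toNat + 1) =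
      mem H M (s.set r (x :: s.get r)) := by
  funext i
  by_cases hi : i = ptr H (x :: s.get r) r
  · subst hi
    rw [Function.update_self, ptr, mem_at, get_set, cell, if_pos (List.length_cons ..)]
  · rw [Function.update_of_ne hi, mem, mem]
    split_ifs with h
    · rfl
    · by_cases hr : rOf ((i - H) % 4) = r
      · have h1 := idx_rOf (Nat.mod_lt (i - H) (by omega : 0 < 4))
        rw [hr] at h1
        rw [hr, get_set, cell, if_neg]
        rw [ptr, List.length_cons] at hi
        omega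
      · rw [get_set_ne _ hr]

theorem mem_pop {r : R} {x : Bool} {l : List Bool} (hs : s.get r = x :: l) :
    Function.update (mem H M s) (ptr H (x :: l) r) 0 = mem H M (s.set r l) := by
  have h := mem_push (H := H) (M := M) (s := s.set r l) r x
  rw [get_set, set_set, ← hs, set_get, hs] at h
  rw [← h, Function.update_idem, Function.update_eq_self_iff, ptr, mem_at, get_set,
    cell_of_lt _ (by simp)]

theorem mem_ptr_nil {r : R} (hs : s.get r = []) : mem H M s (ptr H [] r) = 0 := by
  rw [ptr, mem_at, hs]; rfl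

theorem mem_ptr_cons {r : R} {x : Bool} {l : List Bool} (hs : s.get r = x :: l) :
    mem H M s (ptr H (x :: l) r) = x.toNat + 1 := by
  rw [ptr, mem_at, hs, cell, if_pos (List.length_cons ..)]

end mem

/-- The register file: `0` output length, `1` zero, `2` one, `3`-`6` the stack pointers,
`7` scratch, `8` four, `9` the number `H`, `10` address, `11` value. -/
def put (k H : ℕ) (s : St) (t X Y : ℕ) : Fin 12 → ℕ :=
  vec k (ptr H s.m .m) (ptr H s.a .a) (ptr H s.b .b) (ptr H s.c .c) t 4 H X Y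

section put
variable (k H : ℕ) (s : St) (t X Y : ℕ)

@[simp] theorem put_reg (r : R) : put k H s t X Y (reg r) = ptr H (s.get r) r := by
  cases r <;> rfl
@[simp] theorem put0 : put k H s t X Y 0 = k := rfl
@[simp] theorem put1 : put k H s t X Y 1 = 0 := rfl
@[simp] theorem put2 : put k H s t X Y 2 = 1 := rfl
@[simp] theorem put7 : put k H s t X Y 7 = t := rfl
@[simp] theorem put8 : put k H s t X Y 8 = 4 := rfl
@[simp] theorem put9 : put k H s t X Y 9 = H := rfl
@[simp] theorem put10 : put k H s t X Y 10 = X := rfl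
@[simp] theorem put11 : put k H s t X Y 11 = Y := rfl
@[simp] theorem wr_put0 (v : ℕ) : writeReg (put k H s t X Y) 0 v = put v H s t X Y :=
  R309.RamAux.wr0 ..
@[simp] theorem wr_put7 (v : ℕ) : writeReg (put k H s t X Y) 7 v = put k H s v X Y :=
  R309.RamAux.wr7 ..
@[simp] theorem wr_put10 (v : ℕ) : writeReg (put k H s t X Y) 10 v = put k H s t v Y :=
  R309.RamAux.wr10 ..
@[simp] theorem wr_put11 (v : ℕ) : writeReg (put k H s t X Y) 11 v = put k H s t X v :=
  R309.RamAux.wr11 ..

theorem wr_put (r : R) (l : List Bool) :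
    writeReg (put k H s t X Y) (reg r) (ptr H l r) = put k H (s.set r l) t X Y := by
  cases r <;> simp [put, reg]

end put

theorem ptr_cons (H : ℕ) (x : Bool) (l : List Bool) (r : R) :
    ptr H (x :: l) r = ptr H l r + 4 := by
  simp only [ptr, List.length_cons]; omega

/-! ### The compiled code -/

/-- Push the bit whose code is in the scratch register. -/
def pushT (r : R) : List (Instr 12) := [.add (reg r) (reg r) 8, .store 7 (reg r)]

/-- Pop a bit; jump to `e` if there is none and to `z` if it is `false`. -/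
def popI (r : R) (e z : ℕ) : List (Instr 12) :=
  [.load 7 (reg r), .jumpIfZero 7 e, .store 1 (reg r), .sub (reg r) (reg r) 8, .jumpIfEq 7 2 z]

/-- Length of the compiled code. -/
def len : Prog → ℕ
  | .skip => 0
  | .push _ _ => 3
  | .seq p q => len p + len q
  | .case _ pe pf pt => 5 + len pt + 1 + len pf + 1 + len pe
  | .loop _ pf pt => 5 + len pt + 1 + len pf + 1
  | .wh _ p => 5 + len p + 1

/-- The compiled code, placed at offset `o`. -/
def rcode : Prog → ℕ → List (Instr 12)
  | .skip, _ => []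
  | .push r x, _ => .const 7 (x.toNat + 1) :: pushT r
  | .seq p q, o => rcode p o ++ rcode q (o + len p)
  | .case r pe pf pt, o =>
      popI r (o + 5 + len pt + 1 + len pf + 1) (o + 5 + len pt + 1) ++ (rcode pt (o + 5) ++
          (.jump (o + 5 + len pt + 1 + len pf + 1 + len pe) :: (rcode pf (o + 5 + len pt + 1) ++
            (.jump (o + 5 + len pt + 1 + len pf + 1 + len pe) ::
              rcode pe (o + 5 + len pt + 1 + len pf + 1)))))
  | .loop r pf pt, o =>
      popI r (o + 5 + len pt + 1 + len pf + 1) (o + 5 + len pt + 1) ++ (rcode pt (o + 5) ++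
          (.jump o :: (rcode pf (o + 5 + len pt + 1) ++ [.jump o])))
  | .wh r p, o =>
      popI r (o + 5 + len p + 1) (o + 5 + len p + 1) ++ (rcode p (o + 5) ++ [.jump o])

@[simp] theorem length_popI (r : R) (e z : ℕ) : (popI r e z).length = 5 := rfl

@[simp] theorem length_pushT (r : R) : (pushT r).length = 2 := rfl

@[simp] theorem length_rcode (p : Prog) : ∀ o, (rcode p o).length = len p := by
  induction p with
  | skip => intro o; rfl
  | push r x => intro o; rfl
  | seq p q ihp ihq => intro o; simp [rcode, len, ihp, ihq]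
  | case r pe pf pt h1 h2 h3 => intro o; simp [rcode, len, h1, h2, h3]; omega
  | loop r pf pt h2 h3 => intro o; simp [rcode, len, h2, h3]; omega
  | wh r p h => intro o; simp [rcode, len, h]; omega

section run
variable {L : List (Instr 12)} {w : ℕ} {ρ : ℕ → ℕ} {o : ℕ} {M : ℕ → ℕ} {D : ℕ}

/-! ### Simulation of four-stack programs -/

/-- A configuration holding four stacks. -/
def cf (o k H : ℕ) (s : St) (t X Y : ℕ) (M : ℕ → ℕ) (D : ℕ) : Cfg 12 :=
  ⟨o, false, put k H s t X Y, mem H M s, D⟩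

variable {k H t X Y : ℕ}

theorem r_pushT {r : R} {s : St} {x : Bool} (h : At L o (pushT r))
    (hb : H + 4 * ((s.get r).length + 2) ≤ 2 ^ w) :
    Rch L w ρ 2 (cf o k H s (x.toNat + 1) X Y M D)
      (cf (o + 2) k H (s.set r (x :: s.get r)) (x.toNat + 1) X Y M D) := by
  obtain ⟨h1, h2, -⟩ := h
  have := idx_lt r
  refine ((r_add h1 ?_).trans (r_store h2)).congr ?_
  · simp only [put_reg, put8, ptr]; omega
  · simp only [put_reg, put8, ← ptr_cons H x, wr_put, get_set, put7, mem_push, cf]

theorem r_popE {r : R} {e z : ℕ} {s : St} (h : At L o (popI r e z)) (hs : s.get r = []) :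
    Rch L w ρ 2 (cf o k H s t X Y M D) (cf e k H s 0 X Y M D) := by
  obtain ⟨h1, h2, -⟩ := h
  refine ((r_load h1).trans (r_jz h2)).congr ?_
  simp only [put_reg, hs, mem_ptr_nil hs, wr_put7, put7, if_true, cf]

theorem r_pop {r : R} {e z : ℕ} {s : St} {x : Bool} {l : List Bool}
    (h : At L o (popI r e z)) (hs : s.get r = x :: l) :
    Rch L w ρ 5 (cf o k H s t X Y M D)
      (cf (if x then o + 5 else z) k H (s.set r l) (x.toNat + 1) X Y M D) := by
  obtain ⟨h1, h2, h3, h4, h5, -⟩ := h
  have r1 : Rch L w ρ (1 + 1) (cf o k H s t X Y M D)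
      (cf (o + 1 + 1) k H s (x.toNat + 1) X Y M D) := by
    refine ((r_load h1).trans (r_jz h2)).congr ?_
    simp only [put_reg, hs, mem_ptr_cons hs, wr_put7, put7, cf, Nat.add_eq_zero_iff, one_ne_zero,
      and_false, if_false]
  refine (r1.trans (((r_store h3).trans (r_sub h4)).trans (r_jeq h5))).congr ?_
  have e1 : ptr H (x :: l) r - 4 = ptr H l r := by rw [ptr_cons]; omega
  simp only [put_reg, hs, put1, put8, mem_pop hs, e1, wr_put, put7, put2, cf]
  cases x <;> simp

theorem r_jump' {z : ℕ} {s : St} (h : L[o]? = some (.jump z)) :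
    Rch L w ρ 1 (cf o k H s t X Y M D) (cf z k H s t X Y M D) := r_jump h

/-- Simulation of four-stack programs. -/
theorem rch_of_exec {p : Prog} {s s' : St} {m : ℕ} (h : Exec p s s' m) :
    ∀ (o t : ℕ), At L o (rcode p o) → H + 4 * (s.tot + m + 1) ≤ 2 ^ w →
      ∃ t', Rch L w ρ (6 * m) (cf o k H s t X Y M D) (cf (o + len p) k H s' t' X Y M D) := by
  induction h with
  | mono _ hn ih =>
    intro o t hA hb
    obtain ⟨t', h⟩ := ih o t hA (by omega)
    exact ⟨t', h.mono (by omega)⟩
  | skip s => exact fun o t _ _ => ⟨t, (R309.RamAux.Rch.refl _).mono (by omega)⟩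
  | push r x s =>
    intro o t hA hb
    have h2 := length_get_le s r
    have h3 : x.toNat ≤ 1 := Bool.toNat_le x
    have r1 : Rch L w ρ 1 (cf o k H s t X Y M D)
        (cf (o + 1) k H s (x.toNat + 1) X Y M D) :=
      (r_const hA.1 (by omega)).congr (by simp only [wr_put7, cf])
    exact ⟨_, (r1.trans (r_pushT hA.2 (by omega))).mono (by omega)⟩
  | seq h1 _ ih1 ih2 =>
    intro o t hA hb
    rw [rcode, at_append, length_rcode] at hA
    have := h1.tot_le
    obtain ⟨t1, r1⟩ := ih1 o t hA.1 (by omega)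
    obtain ⟨t2, r2⟩ := ih2 _ t1 hA.2 (by omega)
    exact ⟨t2, ((r1.trans r2).congr (by simp only [len, Nat.add_assoc])).mono (by omega)⟩
  | caseE hs _ ih =>
    intro o t hA hb
    simp only [rcode, at_cons, at_append, length_rcode, length_popI] at hA
    obtain ⟨a0, -, -, -, -, a6⟩ := hA
    obtain ⟨t1, r1⟩ := ih _ 0 a6 (by omega)
    exact ⟨t1, (((r_popE a0 hs).trans r1).congr (by simp only [len, ← Nat.add_assoc])).mono
      (by omega)⟩
  | caseF hs _ ih =>
    intro o t hA hb
    simp only [rcode, at_cons, at_append, length_rcode, length_popI] at hA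
    obtain ⟨a1, -, -, a4, a5, -⟩ := hA
    have := tot_pop hs
    obtain ⟨t1, r1⟩ := ih _ _ a4 (by omega)
    exact ⟨t1, ((((r_pop a1 hs).trans r1).trans (r_jump' a5)).congr
      (by simp only [len, Nat.add_assoc])).mono (by omega)⟩
  | caseT hs _ ih =>
    intro o t hA hb
    simp only [rcode, at_cons, at_append, length_rcode, length_popI] at hA
    obtain ⟨a1, a2, a3, -⟩ := hA
    have := tot_pop hs
    obtain ⟨t1, r1⟩ := ih _ _ a2 (by omega)
    exact ⟨t1, ((((r_pop a1 hs).trans r1).trans (r_jump' a3)).congr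
      (by simp only [len, Nat.add_assoc])).mono (by omega)⟩
  | loopE hs =>
    intro o t hA hb
    rw [rcode, at_append] at hA
    exact ⟨0, ((r_popE hA.1 hs).congr (by simp only [len, Nat.add_assoc])).mono (by omega)⟩
  | loopF hs h1 _ ih1 ih2 =>
    intro o t hA hb
    have hA' := hA
    simp only [rcode, at_cons, at_append, length_rcode, length_popI] at hA'
    obtain ⟨a1, -, -, a4, a5, -⟩ := hA'
    have := tot_pop hs
    have := h1.tot_le
    obtain ⟨t1, r1⟩ := ih1 _ _ a4 (by omega)
    obtain ⟨t2, r2⟩ := ih2 o t1 hA (by omega)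
    exact ⟨t2, ((((r_pop a1 hs).trans r1).trans (r_jump' a5)).trans r2).mono (by omega)⟩
  | loopT hs h1 _ ih1 ih2 =>
    intro o t hA hb
    have hA' := hA
    simp only [rcode, at_cons, at_append, length_rcode, length_popI] at hA'
    obtain ⟨a1, a2, a3, -⟩ := hA'
    have := tot_pop hs
    have := h1.tot_le
    obtain ⟨t1, r1⟩ := ih1 _ _ a2 (by omega)
    obtain ⟨t2, r2⟩ := ih2 o t1 hA (by omega)
    exact ⟨t2, ((((r_pop a1 hs).trans r1).trans (r_jump' a3)).trans r2).mono (by omega)⟩
  | whF hs =>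
    intro o t hA hb
    rw [rcode, at_append] at hA
    exact ⟨_, ((r_pop hA.1 hs).congr (by simp only [len, Nat.add_assoc]; rfl)).mono (by omega)⟩
  | whT hs h1 _ ih1 ih2 =>
    intro o t hA hb
    have hA' := hA
    simp only [rcode, at_cons, at_append, length_rcode, length_popI] at hA'
    obtain ⟨a1, a2, a3, -⟩ := hA'
    have := tot_pop hs
    have := h1.tot_le
    obtain ⟨t1, r1⟩ := ih1 _ _ a2 (by omega)
    obtain ⟨t2, r2⟩ := ih2 o t1 hA (by omega)
    exact ⟨t2, ((((r_pop a1 hs).trans r1).trans (r_jump' a3)).trans r2).mono (by omega)⟩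

end run

end Crest.Agent.R288.RamAux
private theorem rz_a73dfd4148 : type_of% @_root_.Crest.Agent.R288.RamAux.cell.eq_def := @_root_.Crest.Agent.R288.RamAux.cell.eq_def -- L19
private theorem rz_61f19b75fe : type_of% @_root_.Crest.Agent.R288.RamAux.cell.eq_1 := @_root_.Crest.Agent.R288.RamAux.cell.eq_1 -- L19
private theorem rz_4cb8e62ffc : type_of% @_root_.Crest.Agent.R288.RamAux.idx.eq_1 := @_root_.Crest.Agent.R288.RamAux.idx.eq_1 -- L31
private theorem rz_5496c385cd : type_of% @_root_.Crest.Agent.R288.RamAux.len.eq_def := @_root_.Crest.Agent.R288.RamAux.len.eq_def -- L158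
private theorem rz_6ef0d3c4df : type_of% @_root_.Crest.Agent.R288.RamAux.len.eq_1 := @_root_.Crest.Agent.R288.RamAux.len.eq_1 -- L158
private theorem rz_95fe9537e9 : type_of% @_root_.Crest.Agent.R288.RamAux.rcode.eq_def := @_root_.Crest.Agent.R288.RamAux.rcode.eq_def -- L167
private theorem rz_e6e8ed1208 : type_of% @_root_.Crest.Agent.R288.RamAux.rcode.eq_1 := @_root_.Crest.Agent.R288.RamAux.rcode.eq_1 -- L167
end

-- ▼ part PVb/R288/RamAux2
section

/-!
# R288: numbers between registers and stacks; calls; the main loop of the fast regime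
(adapted from `R302/RamAux2`)
-/

set_option autoImplicit false

namespace Crest.Agent.R288.RamAux

open Crest.Agent.Lib.PT Crest.WordRAM
open Crest.Agent.R309.RamAux (vec reg At at_cons at_append at_self get_set set_set length_get_le
  tot_pop Rch r_const r_copy r_add r_sub r_and r_shr r_load r_store r_jump r_jz r_jeq r_rand r_halt)

theorem exec_outW' (l : List Bool) (rest : List Bool) : ∀ a : List Bool,
    Exec outW ⟨(enc l).bits ++ rest, a, [], []⟩ ⟨rest, l.reverse ++ a, [], []⟩
      (7 * l.length + 1) := by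
  induction l with
  | nil => intro a; exact Exec.whF rfl
  | cons x l ih =>
    intro a
    rw [List.reverse_cons, List.append_assoc]
    cases x
    · refine Exec.mono (Exec.whT rfl (Exec.caseF rfl (Exec.push _ _ _)) (ih (false :: a))) ?_
      simp; omega
    · refine Exec.mono (Exec.whT rfl (Exec.caseT rfl
        (Exec.seq (Exec.caseF rfl (Exec.skip _)) (Exec.seq (Exec.caseF rfl (Exec.skip _))
          (Exec.push _ _ _)))) (ih (true :: a))) ?_
      simp; omega

/-- A number computed from the state is put on stack `a`; the state is kept. -/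
theorem exists_qcall {σ : Type} [Enc σ] {g : σ → ℕ} (hg : PT g) :
    ∃ (p : Prog) (c k : ℕ), ∀ s : σ,
      Exec p ⟨toBits s, [], [], []⟩ ⟨toBits s, (g s).bits.reverse, [], []⟩ (c * sz s ^ k) := by
  obtain ⟨T, hT, p, hp⟩ := id hg
  have h0 : PB fun s : σ => sz s := PB.sz_self
  obtain ⟨c, k, hck⟩ : PB fun s : σ => (12 * sz s + 6 + T s) + (7 * (g s).size + 1) := by
    fun_prop
  refine ⟨.seq (.seq dupP p) outW, c, k, fun s => Exec.mono ?_ (hck s)⟩
  have e1 := ((run_dup (enc s)).seq ((hp s).frame (enc s).bits)) []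
  have e2 := exec_outW' (g s).bits (toBits s) []
  simp only [List.append_nil, Nat.size_eq_bits_len] at e1 e2
  exact Exec.seq e1 e2

/-- The value of a stack, most significant bit on top. -/
def msb (l : List Bool) (v : ℕ) : ℕ := l.foldl (fun v b => 2 * v + b.toNat) v

theorem le_msb (l : List Bool) : ∀ v, v ≤ msb l v := by
  induction l with
  | nil => exact fun _ => le_rfl
  | cons x l ih => exact fun v => le_trans (by omega) (ih (2 * v + x.toNat))

theorem msb_bits (v : ℕ) : msb v.bits.reverse 0 = v := by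
  rw [msb, List.foldl_reverse]
  conv_rhs => rw [← ofBits_bits v, ofBits]
  congr 1
  funext b u
  exact (Nat.bit_val b u).symm

/-- Read stack `a` into register `11`. -/
def readNum (o : ℕ) : List (Instr 12) :=
  .const 11 0 :: (popI .a (o + 10) (o + 6) ++
    [.sub 7 7 2, .add 11 11 11, .add 11 11 7, .jump (o + 1)])

/-- Push register `11` on stack `a`. -/
def pushNum (o : ℕ) : List (Instr 12) :=
  .jumpIfZero 11 (o + 7) :: .and 7 11 2 :: .add 7 7 2 :: (pushT .a ++ [.shr 11 11 2, .jump o])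

/-- Call a four-stack program and read its result. -/
def qcall (p : Prog) (o : ℕ) (tl : List (Instr 12)) : List (Instr 12) :=
  rcode p o ++ (readNum (o + len p) ++ tl)

theorem length_readNum (o : ℕ) : (readNum o).length = 10 := rfl

theorem length_pushNum (o : ℕ) : (pushNum o).length = 7 := rfl

theorem length_qcall (p : Prog) (o : ℕ) (tl : List (Instr 12)) :
    (qcall p o tl).length = len p + 10 + tl.length := by
  simp [qcall, length_readNum, Nat.add_assoc]

variable {L : List (Instr 12)} {w : ℕ} {ρ : ℕ → ℕ}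
  {o k H X D : ℕ} {M : ℕ → ℕ}

theorem rch_readLoop (hA : At L o (readNum o)) (s0 : List Bool) (l : List Bool) :
    ∀ t v, msb l v < 2 ^ w → Rch L w ρ (9 * l.length + 2)
      (cf (o + 1) k H ⟨s0, l, [], []⟩ t X v M D)
      (cf (o + 10) k H ⟨s0, [], [], []⟩ 0 X (msb l v) M D) := by
  obtain ⟨-, hA⟩ := hA
  rw [at_append, length_popI] at hA
  obtain ⟨a1, a2, a3, a4, a5, -⟩ := hA
  induction l with
  | nil => exact fun t v _ => r_popE a1 rfl
  | cons x l ih =>
    intro t v hv
    have h1 : 2 * v + x.toNat < 2 ^ w := (le_msb l _).trans_lt hv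
    have r1 : Rch L w ρ 5 (cf (o + 1) k H ⟨s0, x :: l, [], []⟩ t X v M D)
        (cf (o + 1 + 5) k H ⟨s0, l, [], []⟩ (x.toNat + 1) X v M D) :=
      (r_pop a1 rfl).congr (by rw [show o + 6 = o + 1 + 5 by omega, ite_self]; rfl)
    have r2 : Rch L w ρ (1 + 1 + 1 + 1)
        (cf (o + 1 + 5) k H ⟨s0, l, [], []⟩ (x.toNat + 1) X v M D)
        (cf (o + 1) k H ⟨s0, l, [], []⟩ x.toNat X (2 * v + x.toNat) M D) := by
      refine ((((r_sub a2).trans (r_add a3 ?_)).trans (r_add a4 ?_)).trans (r_jump a5)).congr ?_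
      · simp only [put7, put2, wr_put7, put11]; omega
      · simp only [put7, put2, wr_put7, put11, wr_put11]; omega
      · simp only [put7, put2, wr_put7, put11, wr_put11, Nat.add_sub_cancel, two_mul, cf]
    exact ((r1.trans r2).trans (ih _ _ hv)).mono (by rw [List.length_cons]; omega)

theorem rch_readNum (hA : At L o (readNum o)) (s0 : List Bool) {v : ℕ} (hv : v < 2 ^ w)
    (t Y : ℕ) : Rch L w ρ (9 * v.bits.length + 3)
      (cf o k H ⟨s0, v.bits.reverse, [], []⟩ t X Y M D)
      (cf (o + 10) k H ⟨s0, [], [], []⟩ 0 X v M D) := by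
  have r1 : Rch L w ρ 1 (cf o k H ⟨s0, v.bits.reverse, [], []⟩ t X Y M D)
      (cf (o + 1) k H ⟨s0, v.bits.reverse, [], []⟩ t X 0 M D) :=
    (r_const hA.1 (Nat.two_pow_pos w)).congr (by simp only [wr_put11, cf])
  have r2 := rch_readLoop (ρ := ρ) (k := k) (H := H) (X := X) (D := D) (M := M) hA s0
    v.bits.reverse t 0 (by rwa [msb_bits])
  rw [msb_bits, List.length_reverse] at r2
  exact (r1.trans r2).mono (by omega)

theorem rch_pushNum (hw : 1 < w) (hA : At L o (pushNum o))
    (s0 : List Bool) (v : ℕ) : ∀ (a : List Bool) (t : ℕ),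
      H + 4 * (a.length + v.bits.length + 1) ≤ 2 ^ w → ∃ t', Rch L w ρ (7 * v.bits.length + 1)
      (cf o k H ⟨s0, a, [], []⟩ t X v M D)
      (cf (o + 7) k H ⟨s0, v.bits.reverse ++ a, [], []⟩ t' X 0 M D) := by
  obtain ⟨a1, a2, a3, hA⟩ := hA
  rw [at_append, length_pushT] at hA
  obtain ⟨a4, a5, a6, -⟩ := hA
  induction v using Nat.binaryRec' with
  | zero => exact fun a t _ => ⟨t, (r_jz a1).congr (by simp [cf])⟩
  | bit b u h ih =>
    intro a t hb
    have hne : Nat.bit b u ≠ 0 := Nat.bit_ne_zero_iff.2 h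
    rw [Nat.bits_append_bit _ _ h] at hb ⊢
    rw [List.length_cons] at hb ⊢
    have hb1 : b.toNat ≤ 1 := Bool.toNat_le b
    have e1 : Nat.bit b u &&& 1 = b.toNat := by
      rw [Nat.and_one_is_mod, Nat.bit_val]; omega
    have e2 : Nat.bit b u >>> 1 = u := by
      rw [Nat.shiftRight_one, Nat.bit_val]; omega
    have r1 : Rch L w ρ 1 (cf o k H ⟨s0, a, [], []⟩ t X (Nat.bit b u) M D)
        (cf (o + 1) k H ⟨s0, a, [], []⟩ t X (Nat.bit b u) M D) :=
      (r_jz a1).congr (by simp only [put11, hne, if_false, cf])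
    have r2 : Rch L w ρ (1 + 1) (cf (o + 1) k H ⟨s0, a, [], []⟩ t X (Nat.bit b u) M D)
        (cf (o + 1 + 1 + 1) k H ⟨s0, a, [], []⟩ (b.toNat + 1) X (Nat.bit b u) M D) := by
      refine ((r_and a2).trans (r_add a3 ?_)).congr ?_
      · simp only [put7, put2, wr_put7, put11, e1]; omega
      · simp only [put7, put2, wr_put7, put11, e1, cf]
    have r3 := r_pushT (w := w) (H := H) (ρ := ρ) (k := k) (X := X) (Y := Nat.bit b u) (D := D)
      (M := M)
      (s := ⟨s0, a, [], []⟩) (x := b) a4 (by simp only [St.get_a]; omega)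
    have r4 : Rch L w ρ (1 + 1)
        (cf (o + 1 + 1 + 1 + 2) k H ⟨s0, b :: a, [], []⟩ (b.toNat + 1) X (Nat.bit b u) M D)
        (cf o k H ⟨s0, b :: a, [], []⟩ (b.toNat + 1) X u M D) := by
      refine ((r_shr a5 (by simpa using hw)).trans (r_jump a6)).congr ?_
      simp only [put2, put11, e2, wr_put11, cf]
    obtain ⟨t', r5⟩ := ih (b :: a) (b.toNat + 1) (by rw [List.length_cons]; omega)
    refine ⟨t', (((((r1.trans r2).trans r3).trans r4).trans r5).congr ?_).mono (by omega)⟩
    rw [List.reverse_cons, List.append_assoc]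
    rfl

theorem rch_qcall {p : Prog} {s0 : List Bool} {v T : ℕ}
    {tl : List (Instr 12)} (h : Exec p ⟨s0, [], [], []⟩ ⟨s0, v.bits.reverse, [], []⟩ T)
    (hv : v < 2 ^ w) (hA : At L o (qcall p o tl)) (hb : H + 4 * (s0.length + T + 1) ≤ 2 ^ w)
    (k t X Y : ℕ) (M : ℕ → ℕ) (D : ℕ) :
    ∃ o', At L o' tl ∧ Rch L w ρ (15 * T + 3) (cf o k H ⟨s0, [], [], []⟩ t X Y M D)
      (cf o' k H ⟨s0, [], [], []⟩ 0 X v M D) := by
  rw [qcall, at_append, at_append, length_rcode, length_readNum] at hA
  obtain ⟨t', r⟩ := rch_of_exec (ρ := ρ) (M := M) (D := D) (k := k) (X := X) (Y := Y)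
    h o t hA.1 (by simpa [St.tot] using hb)
  have h1 := h.tot_le
  simp only [St.tot, List.length_nil, List.length_reverse] at h1
  exact ⟨_, hA.2.2, (r.trans (rch_readNum hA.2.1 s0 hv t' Y)).mono (by omega)⟩

/-- The code of the fast regime: initialisation at `f0`, halting test at `o1`, read at `o2`,
transition at `o4`, output at `o5`. -/
structure Layout (L : List (Instr 12)) (p0 p1 p2 p4 p5 : Prog) (f0 o1 o2 o4 o5 : ℕ) : Prop where
  b0 : At L f0 ([.const 8 4, .add 9 0 2, .copy 3 9, .add 4 3 2, .add 5 4 2, .add 6 5 2] ++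
    (rcode p0 (f0 + 6) ++ [.jump o1]))
  b1 : At L o1 (qcall p1 o1 [.jumpIfZero 11 o2, .jump o5])
  b2 : At L o2 (qcall p2 o2 [.load 11 11, .jump o4])
  b4 : At L o4 (pushNum o4 ++ ([.rand 7, .and 7 7 2, .add 7 7 2] ++ (pushT .a ++
    (rcode p4 (o4 + 7 + 3 + 2) ++ [.jump o1]))))
  b5 : At L o5 (qcall p5 o5 [.store 11 1, .copy 0 2, .halt])

/-- The code of the fast regime can be placed behind any code of known length. -/
theorem exists_layout (p0 p1 p2 p4 p5 : Prog) (pre : List (Instr 12)) :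
    ∃ L o1 o2 o4 o5, At L 0 pre ∧ Layout L p0 p1 p2 p4 p5 pre.length o1 o2 o4 o5 := by
  let f0 := pre.length
  let o1 := f0 + (6 + (len p0 + 1))
  let o2 := o1 + (len p1 + 10 + 2)
  let o4 := o2 + (len p2 + 10 + 2)
  let o5 := o4 + (7 + (3 + (2 + (len p4 + 1))))
  let c0 : List (Instr 12) := [.const 8 4, .add 9 0 2, .copy 3 9, .add 4 3 2, .add 5 4 2,
    .add 6 5 2] ++ (rcode p0 (f0 + 6) ++ [.jump o1])
  let c4 : List (Instr 12) := pushNum o4 ++ ([.rand 7, .and 7 7 2, .add 7 7 2] ++ (pushT .a ++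
    (rcode p4 (o4 + 7 + 3 + 2) ++ [.jump o1])))
  have l0 : c0.length = 6 + (len p0 + 1) := by
    simp only [c0, List.length_append, length_rcode]; rfl
  have l4 : c4.length = 7 + (3 + (2 + (len p4 + 1))) := by
    simp only [c4, List.length_append, length_rcode]; rfl
  have h := at_self (pre ++ (c0 ++
    (qcall p1 o1 [.jumpIfZero 11 o2, .jump o5] ++
    (qcall p2 o2 [.load 11 11, .jump o4] ++
    (c4 ++ qcall p5 o5 [.store 11 1, .copy 0 2, .halt])))))
  obtain ⟨hp, h⟩ := at_append.1 h
  obtain ⟨h0, h⟩ := at_append.1 h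
  obtain ⟨h1, h⟩ := at_append.1 h
  obtain ⟨h2, h⟩ := at_append.1 h
  obtain ⟨h4, h5⟩ := at_append.1 h
  simp only [length_qcall, l0, l4, Nat.zero_add] at h0 h1 h2 h4 h5
  exact ⟨_, o1, o2, o4, o5, hp, h0, h1, h2, h4, h5⟩

section main
variable {p0 p1 p2 p4 p5 : Prog} {f0 o1 o2 o4 o5 : ℕ}

theorem Layout.start (h : Layout L p0 p1 p2 p4 p5 f0 o1 o2 o4 o5) {s : List Bool} {T : ℕ}
    (e0 : Exec p0 ⟨[], [], [], []⟩ ⟨s, [], [], []⟩ T) (hb : k + 1 + 4 * (T + 1) ≤ 2 ^ w)
    (hM : ∀ i, k + 1 ≤ i → M i = 0) (m a b c t S U Y : ℕ) :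
    ∃ t', Rch L w ρ (6 * T + 7) ⟨f0, false, vec k m a b c t S U X Y, M, D⟩
      (cf o1 k (k + 1) ⟨s, [], [], []⟩ t' X Y M D) := by
  have hb0 := h.b0
  rw [at_append, at_append, length_rcode] at hb0
  obtain ⟨⟨a0, a1, a2, a3, a4, a5, -⟩, a6, a7, -⟩ := hb0
  have r1 : Rch L w ρ (1 + 1 + 1 + 1 + 1 + 1) ⟨f0, false, vec k m a b c t S U X Y, M, D⟩
      (cf (f0 + 6) k (k + 1) ⟨[], [], [], []⟩ t X Y M D) := by
    refine ((((((r_const a0 ?_).trans (r_add a1 ?_)).trans (r_copy a2)).trans
      (r_add a3 ?_)).trans (r_add a4 ?_)).trans (r_add a5 ?_)).congr ?_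
    · omega
    · simp; omega
    · simp; omega
    · simp; omega
    · simp; omega
    · unfold cf
      congr 1
      · simp [put, ptr, idx]
      · funext i
        rw [mem]
        split_ifs with hi
        · rfl
        · have : ∀ r, St.get ⟨[], [], [], []⟩ r = [] := fun r => by cases r <;> rfl
          rw [this, hM i (by omega)]
          rfl
  obtain ⟨t', r4⟩ := rch_of_exec (L := L) (w := w) (ρ := ρ) (M := M) (D := D) (H := k + 1)
    (k := k) (X := X) (Y := Y) e0 (f0 + 6) t a6 (by simpa [St.tot] using hb)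
  exact ⟨t', ((r1.trans r4).trans (r_jump' a7)).mono (by omega)⟩

theorem Layout.stop (h : Layout L p0 p1 p2 p4 p5 f0 o1 o2 o4 o5) {s : List Bool} {T v : ℕ}
    (e1 : Exec p1 ⟨s, [], [], []⟩ ⟨s, (1 : ℕ).bits.reverse, [], []⟩ T)
    (e5 : Exec p5 ⟨s, [], [], []⟩ ⟨s, v.bits.reverse, [], []⟩ T) (hv : v < 2 ^ w)
    (hb : H + 4 * (s.length + T + 1) ≤ 2 ^ w) (k t X Y : ℕ) (M : ℕ → ℕ) (D : ℕ) :
    ∃ c : Cfg 12, c.halted = true ∧ c.output = [v] ∧
      Rch L w ρ (30 * T + 11) (cf o1 k H ⟨s, [], [], []⟩ t X Y M D) c := by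
  obtain ⟨q1, ⟨a1, a2, -⟩, r1⟩ := rch_qcall (ρ := ρ) e1 (by omega) h.b1 hb k t X Y M D
  have r1' : Rch L w ρ 1 (cf q1 k H ⟨s, [], [], []⟩ 0 X 1 M D)
      (cf (q1 + 1) k H ⟨s, [], [], []⟩ 0 X 1 M D) := (r_jz a1).congr (by simp [cf])
  obtain ⟨q5, ⟨b1, b2, b3, -⟩, r5⟩ := rch_qcall (ρ := ρ) e5 hv h.b5 hb k 0 X 1 M D
  refine ⟨_, ?_, ?_, ((((((r1.trans r1').trans (r_jump' a2)).trans r5).trans (r_store b1)).trans
    (r_copy b2)).trans (r_halt b3)).mono (by omega)⟩
  · rfl
  · simp [Cfg.output, Cfg.reg]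

theorem Layout.iter (h : Layout L p0 p1 p2 p4 p5 f0 o1 o2 o4 o5) (hw : 1 < w)
    {s s' : List Bool} {T ra : ℕ}
    (e1 : Exec p1 ⟨s, [], [], []⟩ ⟨s, (0 : ℕ).bits.reverse, [], []⟩ T)
    (e2 : Exec p2 ⟨s, [], [], []⟩ ⟨s, ra.bits.reverse, [], []⟩ T)
    (e4 : Exec p4 ⟨s, (ρ D % 2 ^ w).bodd :: (M ra).bits.reverse, [], []⟩ ⟨s', [], [], []⟩ T)
    (hra : ra < H) (hv : M ra < 2 ^ w) (hb : H + 4 * (s.length + (w + 1) + T + 1) ≤ 2 ^ w)
    (t X Y : ℕ) :
    ∃ t' X' Y', Rch L w ρ (36 * T + 7 * w + 16) (cf o1 k H ⟨s, [], [], []⟩ t X Y M D)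
      (cf o1 k H ⟨s', [], [], []⟩ t' X' Y' M (D + 1)) := by
  obtain ⟨q1, ⟨a1, -⟩, r1⟩ :=
    rch_qcall (w := w) (H := H) (ρ := ρ) e1 (by omega) h.b1 (by omega) k t X Y M D
  have r1' : Rch L w ρ 1 (cf q1 k H ⟨s, [], [], []⟩ 0 X 0 M D)
      (cf o2 k H ⟨s, [], [], []⟩ 0 X 0 M D) := (r_jz a1).congr (by simp [cf])
  obtain ⟨q2, ⟨b1, b2, -⟩, r2⟩ :=
    rch_qcall (w := w) (H := H) (ρ := ρ) e2 (by omega) h.b2 (by omega) k 0 X 0 M D
  have r2' : Rch L w ρ (1 + 1) (cf q2 k H ⟨s, [], [], []⟩ 0 X ra M D)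
      (cf o4 k H ⟨s, [], [], []⟩ 0 X (M ra) M D) :=
    ((r_load b1).trans (r_jump b2)).congr (by simp only [put11, mem_low hra, wr_put11, cf])
  generalize M ra = v at *
  have hb4 := h.b4
  rw [at_append, at_append, at_append, at_append, length_pushNum, length_rcode] at hb4
  obtain ⟨d0, ⟨d1, d2, d3, -⟩, d4, d5, d6, -⟩ := hb4
  have hl : v.bits.length ≤ w := by rw [Nat.size_eq_bits_len]; exact Nat.size_le.2 hv
  obtain ⟨t4, r4⟩ := rch_pushNum (ρ := ρ) (k := k) (X := X) (D := D) (M := M) (H := H) hw d0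
    s v [] 0 (by simp only [List.length_nil]; omega)
  rw [List.append_nil] at r4
  have hbit : ρ D % 2 ^ w &&& 1 = (ρ D % 2 ^ w).bodd.toNat := by
    rw [Nat.and_one_is_mod, Nat.mod_two_of_bodd]
  have hb1 : (ρ D % 2 ^ w).bodd.toNat ≤ 1 := Bool.toNat_le _
  have r4a : Rch L w ρ (1 + 1 + 1)
      (cf (o4 + 7) k H ⟨s, v.bits.reverse, [], []⟩ t4 X 0 M D)
      (cf (o4 + 7 + 3) k H ⟨s, v.bits.reverse, [], []⟩ ((ρ D % 2 ^ w).bodd.toNat + 1) X 0 M
        (D + 1)) := by
    refine (((r_rand d1).trans (r_and d2)).trans (r_add d3 ?_)).congr ?_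
    · simp only [wr_put7, put7, put2, hbit]; omega
    · simp only [wr_put7, put7, put2, hbit, cf]
  have r4b := r_pushT (w := w) (ρ := ρ) (k := k) (X := X) (Y := 0) (D := D + 1) (M := M) (H := H)
    (s := ⟨s, v.bits.reverse, [], []⟩) (x := (ρ D % 2 ^ w).bodd) d4
    (by simp only [St.get_a, List.length_reverse]; omega)
  obtain ⟨t5, r4c⟩ := rch_of_exec (w := w) (ρ := ρ) (M := M) (D := D + 1) (k := k) (X := X)
    (H := H) (Y := 0) e4 _ ((ρ D % 2 ^ w).bodd.toNat + 1) d5
    (by simp only [St.tot, List.length_cons, List.length_reverse, List.length_nil]; omega)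
  exact ⟨_, _, _, ((((((((r1.trans r1').trans r2).trans r2').trans
    r4).trans r4a).trans r4b).trans r4c).trans (r_jump' d6)).mono (by omega)⟩

end main

end Crest.Agent.R288.RamAux
end

-- ▼ part PVb/R288/RamAux3
section

/-!
# R288: the dynamic programme for the edit distance on the word RAM
-/

set_option autoImplicit false

namespace Crest.Agent.R288.RamAux

open Crest.WordRAM Crest.GraphRAM
open Crest.Agent.R309.RamAux (vec At at_cons at_append at_self stp
  Rch r_const r_copy r_add r_sub r_and r_shr r_load r_store r_jump r_jz r_jeq r_rand r_halt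
  vec0 vec1 vec2 vec3 vec4 vec5 vec6 vec7 vec8 vec9 vec10 vec11
  wr0 wr3 wr4 wr5 wr6 wr7 wr8 wr9 wr10 wr11)

theorem editDist_nil_right (x : List ℕ) : editDist x [] = x.length := by
  cases x <;> rfl

theorem editDist_cons_cons (a b : ℕ) (x y : List ℕ) :
    editDist (a :: x) (b :: y) = min (editDist x y + if a = b then 0 else 1)
      (min (editDist (a :: x) y + 1) (editDist x (b :: y) + 1)) := rfl

theorem editDist_le (x y : List ℕ) : editDist x y ≤ x.length + y.length := by
  cases x with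
  | nil => exact Nat.le_add_left _ _
  | cons a x =>
    induction y with
    | nil => rw [editDist_nil_right]; omega
    | cons b y ih =>
      rw [editDist_cons_cons]
      simp only [List.length_cons] at ih ⊢
      omega

theorem at_get {L u : List (Instr 12)} : ∀ {o : ℕ}, At L o u → ∀ (i : ℕ) {x : Instr 12},
    u[i]? = some x → L[o + i]? = some x := by
  induction u with
  | nil => intro o _ i x hx; simp at hx
  | cons y u ih =>
    intro o h i x hx
    cases i with
    | zero =>
      obtain rfl : y = x := by simpa using hx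
      exact h.1
    | succ i =>
      have := ih h.2 i (x := x) (by simpa using hx)
      rwa [show o + 1 + i = o + (i + 1) by omega] at this

theorem r_xor {L : List (Instr 12)} {w : ℕ} {ρ : ℕ → ℕ} {o : ℕ} {Rg : Fin 12 → ℕ} {M : ℕ → ℕ}
    {D : ℕ} {d a b : Fin 12} (h : L[o]? = some (.xor d a b)) :
    Rch L w ρ 1 ⟨o, false, Rg, M, D⟩ ⟨o + 1, false, writeReg Rg d (Rg a ^^^ Rg b), M, D⟩ :=
  R309.RamAux.Rch.one (by simp [stp, step, h])

/-- Reachability within a number of steps that does not depend on the random words. -/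
def RU (L : List (Instr 12)) (w : ℕ) (c c' : Cfg 12) : Prop := ∃ n, ∀ ρ, Rch L w ρ n c c'

theorem RU.trans {L : List (Instr 12)} {w : ℕ} {c c' c'' : Cfg 12} (h : RU L w c c')
    (h' : RU L w c' c'') : RU L w c c'' := by
  obtain ⟨n, h⟩ := h
  obtain ⟨n', h'⟩ := h'
  exact ⟨n + n', fun ρ => (h ρ).trans (h' ρ)⟩

/-- The code of the dynamic programme.  Registers: `0` the address of the row, `3` the number of
symbols of `x` still to be processed, `4` the length of `y`, `5` the address of `y`, `6` the current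
symbol, `7` the column, `8` the old entry to the right, `9` the new entry to the right. -/
def dpCode (d : ℕ) : List (Instr 12) :=
  [.add 5 3 2, .add 5 5 2, .copy 7 4, .copy 9 1,
   .add 10 0 7, .store 9 10, .jumpIfZero 7 (d + 10), .sub 7 7 2, .add 9 9 2, .jump (d + 4),
   .jumpIfZero 3 (d + 38), .add 10 3 2, .load 6 10, .sub 3 3 2, .add 10 0 4, .load 8 10,
   .add 9 8 2, .store 9 10, .copy 7 4,
   .jumpIfZero 7 (d + 10), .sub 7 7 2, .add 10 5 7, .load 10 10, .xor 10 10 6, .sub 10 2 10,
   .sub 10 2 10, .add 8 8 10, .add 10 0 7, .load 11 10, .sub 10 9 11, .sub 9 9 10, .add 9 9 2,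
   .sub 10 9 8, .sub 9 9 10, .add 10 0 7, .store 9 10, .copy 8 11, .jump (d + 19),
   .load 10 0, .store 10 1, .copy 0 2, .halt]

theorem length_dpCode (d : ℕ) : (dpCode d).length = 42 := rfl

variable {L : List (Instr 12)} {w d k D : ℕ}

theorem one_sub_xor (a b : ℕ) : 1 - (1 - (b ^^^ a)) = if a = b then 0 else 1 := by
  split_ifs with h
  · subst h; simp
  · have : b ^^^ a ≠ 0 := fun e => h (Nat.xor_eq_zero_iff.1 e).symm
    omega

theorem inner_step (hA : At L d (dpCode d)) (ρ : ℕ → ℕ) {M : ℕ → ℕ} {i q yb a j dg pv X Y : ℕ}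
    (h1 : k + j < 2 ^ w) (h2 : yb + j < 2 ^ w) (h3 : dg + 1 < 2 ^ w) (h4 : pv + 1 < 2 ^ w) :
    Rch L w ρ 19 ⟨d + 19, false, vec k i q yb a (j + 1) dg pv X Y, M, D⟩
      ⟨d + 19, false, vec k i q yb a j (M (k + j))
        (min (dg + if a = M (yb + j) then 0 else 1) (min (pv + 1) (M (k + j) + 1))) (k + j)
        (M (k + j)), Function.update M (k + j)
        (min (dg + if a = M (yb + j) then 0 else 1) (min (pv + 1) (M (k + j) + 1))), D⟩ := by
  have hb : (if a = M (yb + j) then 0 else 1) ≤ 1 := by split_ifs <;> omega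
  have r0 : Rch L w ρ 1 ⟨d + 19, false, vec k i q yb a (j + 1) dg pv X Y, M, D⟩
      ⟨d + 20, false, vec k i q yb a (j + 1) dg pv X Y, M, D⟩ :=
    (r_jz (at_get hA 19 rfl)).congr (by simp)
  have r1 : Rch L w ρ (1 + 1 + 1 + 1 + 1 + 1 + 1)
      ⟨d + 20, false, vec k i q yb a (j + 1) dg pv X Y, M, D⟩
      ⟨d + 27, false, vec k i q yb a j (dg + if a = M (yb + j) then 0 else 1) pv
        (if a = M (yb + j) then 0 else 1) Y, M, D⟩ := by
    refine (((((((r_sub (at_get hA 20 rfl)).trans (r_add (at_get hA 21 rfl) ?_)).trans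
      (r_load (at_get hA 22 rfl))).trans (r_xor (at_get hA 23 rfl))).trans
      (r_sub (at_get hA 24 rfl))).trans (r_sub (at_get hA 25 rfl))).trans
      (r_add (at_get hA 26 rfl) ?_)).congr ?_
    · simp only [vec2, vec5, vec7, wr7, Nat.add_sub_cancel]; omega
    · simp only [vec2, vec5, vec6, vec7, vec8, vec10, wr7, wr10, Nat.add_sub_cancel, one_sub_xor]
      omega
    · simp only [vec2, vec5, vec6, vec7, vec8, vec10, wr7, wr8, wr10, Nat.add_sub_cancel,
        one_sub_xor]
  generalize (if a = M (yb + j) then 0 else 1) = e at hb r1 ⊢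
  have r2 : Rch L w ρ (1 + 1 + 1 + 1 + 1 + 1 + 1)
      ⟨d + 27, false, vec k i q yb a j (dg + e) pv e Y, M, D⟩
      ⟨d + 34, false, vec k i q yb a j (dg + e) (min (dg + e) (min (pv + 1) (M (k + j) + 1)))
        (pv - (pv - M (k + j)) + 1 - (dg + e)) (M (k + j)), M, D⟩ := by
    refine (((((((r_add (at_get hA 27 rfl) ?_).trans (r_load (at_get hA 28 rfl))).trans
      (r_sub (at_get hA 29 rfl))).trans (r_sub (at_get hA 30 rfl))).trans
      (r_add (at_get hA 31 rfl) ?_)).trans (r_sub (at_get hA 32 rfl))).trans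
      (r_sub (at_get hA 33 rfl))).congr ?_
    · simp only [vec0, vec7]; omega
    · simp only [vec0, vec2, vec7, vec9, vec10, vec11, wr9, wr10, wr11]; omega
    · simp only [vec0, vec2, vec7, vec8, vec9, vec10, vec11, wr9, wr10, wr11]
      congr 2
      omega
  refine ((((r0.trans r1).trans r2).trans ((((r_add (at_get hA 34 rfl) ?_).trans
    (r_store (at_get hA 35 rfl))).trans (r_copy (at_get hA 36 rfl))).trans
    (r_jump (at_get hA 37 rfl)))).congr ?_).mono (by omega)
  · simp only [vec0, vec7]; omega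
  · simp only [vec0, vec7, vec9, vec10, vec11, wr8, wr10]

theorem inner_loop (hA : At L d (dpCode d)) (x y : List ℕ) (a : ℕ) {i q yb : ℕ}
    (hk : k + y.length < 2 ^ w) (hyb : yb + y.length ≤ k)
    (hsz : x.length + y.length + 2 < 2 ^ w) : ∀ j ≤ y.length, ∀ (M : ℕ → ℕ) (X Y : ℕ),
      (∀ l (h : l < y.length), M (yb + l) = y[l]) →
      (∀ l < j, M (k + l) = editDist x (y.drop l)) →
      ∃ M' dg pv X' Y', RU L w ⟨d + 19, false, vec k i q yb a j (editDist x (y.drop j))
          (editDist (a :: x) (y.drop j)) X Y, M, D⟩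
        ⟨d + 10, false, vec k i q yb a 0 dg pv X' Y', M', D⟩ ∧
        (∀ l < j, M' (k + l) = editDist (a :: x) (y.drop l)) ∧
        ∀ l, l < k ∨ k + j ≤ l → M' l = M l := by
  intro j
  induction j with
  | zero =>
    intro _ M X Y _ _
    exact ⟨M, _, _, X, Y, ⟨1, fun ρ => (r_jz (at_get hA 19 rfl)).congr (by simp; rfl)⟩,
      fun l hl => absurd hl (Nat.not_lt_zero l), fun _ _ => rfl⟩
  | succ j ih =>
    intro hj M X Y hy hrow
    have hd : y.drop j = y[j] :: y.drop (j + 1) := List.drop_eq_getElem_cons (by omega)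
    have b1 := editDist_le x (y.drop (j + 1))
    have b2 := editDist_le (a :: x) (y.drop (j + 1))
    simp only [List.length_drop, List.length_cons] at b1 b2
    have r := fun ρ => inner_step (w := w) (k := k) (D := D) hA ρ (M := M) (i := i) (q := q)
      (yb := yb) (a := a) (j := j) (dg := editDist x (y.drop (j + 1)))
      (pv := editDist (a :: x) (y.drop (j + 1))) (X := X) (Y := Y) (by omega) (by omega)
      (by omega) (by omega)
    have e : min (editDist x (y.drop (j + 1)) + if a = y[j] then 0 else 1)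
        (min (editDist (a :: x) (y.drop (j + 1)) + 1) (editDist x (y.drop j) + 1)) =
        editDist (a :: x) (y.drop j) := by
      conv_rhs => rw [hd, editDist_cons_cons, ← hd]
    rw [hy j (by omega), hrow j (by omega), e] at r
    obtain ⟨M', dg, pv, X', Y', r', h1, h2⟩ := ih (by omega)
      (Function.update M (k + j) (editDist (a :: x) (y.drop j))) (k + j) (editDist x (y.drop j))
      (fun l h => by rw [Function.update_of_ne (by omega)]; exact hy l h)
      (fun l h => by rw [Function.update_of_ne (by omega)]; exact hrow l (by omega))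
    refine ⟨M', dg, pv, X', Y', RU.trans ⟨19, r⟩ r', fun l hl => ?_, fun l hl => ?_⟩
    · rcases Nat.lt_succ_iff_lt_or_eq.1 hl with h | rfl
      · exact h1 l h
      · rw [h2 _ (Or.inr le_rfl), Function.update_self]
    · rw [h2 l (by omega), Function.update_of_ne (by omega)]

theorem outer_loop (hA : At L d (dpCode d)) (x y : List ℕ) {yb : ℕ}
    (hk : k + y.length < 2 ^ w) (hyb : yb + y.length ≤ k) (hx : 2 + x.length ≤ k)
    (hsz : x.length + y.length + 2 < 2 ^ w) : ∀ i ≤ x.length, ∀ (M : ℕ → ℕ) (a j dg pv X Y : ℕ),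
      (∀ l (h : l < x.length), M (2 + l) = x[l]) → (∀ l (h : l < y.length), M (yb + l) = y[l]) →
      (∀ l ≤ y.length, M (k + l) = editDist (x.drop i) (y.drop l)) →
      ∃ M' a' j' dg' pv' X' Y', RU L w ⟨d + 10, false, vec k i y.length yb a j dg pv X Y, M, D⟩
        ⟨d + 38, false, vec k 0 y.length yb a' j' dg' pv' X' Y', M', D⟩ ∧
        M' k = editDist x y := by
  intro i
  induction i with
  | zero =>
    intro _ M a j dg pv X Y _ _ hrow
    exact ⟨M, a, j, dg, pv, X, Y, ⟨1, fun ρ => (r_jz (at_get hA 10 rfl)).congr (by simp)⟩,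
      by simpa using hrow 0 (Nat.zero_le _)⟩
  | succ i ih =>
    intro hi M a j dg pv X Y hxs hy hrow
    have hd : x.drop i = x[i] :: x.drop (i + 1) := List.drop_eq_getElem_cons (by omega)
    have e1 : M (i + 1 + 1) = x[i] := by rw [← hxs i (by omega)]; congr 1; omega
    have e2 : M (k + y.length) = editDist (x.drop (i + 1)) (y.drop y.length) := hrow _ le_rfl
    have e3 : editDist (x.drop (i + 1)) (y.drop y.length) + 1 =
        editDist (x[i] :: x.drop (i + 1)) (y.drop y.length) := by
      rw [List.drop_length, editDist_nil_right, editDist_nil_right, List.length_cons]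
    have e4 : editDist (x.drop (i + 1)) (y.drop y.length) ≤ x.length := by
      rw [List.drop_length, editDist_nil_right, List.length_drop]; omega
    have r0 : ∀ ρ, Rch L w ρ 1 ⟨d + 10, false, vec k (i + 1) y.length yb a j dg pv X Y, M, D⟩
        ⟨d + 11, false, vec k (i + 1) y.length yb a j dg pv X Y, M, D⟩ := fun ρ =>
      (r_jz (at_get hA 10 rfl)).congr (by simp)
    have r1 : ∀ ρ, Rch L w ρ (1 + 1 + 1 + 1 + 1 + 1 + 1 + 1)
        ⟨d + 11, false, vec k (i + 1) y.length yb a j dg pv X Y, M, D⟩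
        ⟨d + 19, false, vec k i y.length yb x[i] y.length
          (editDist (x.drop (i + 1)) (y.drop y.length))
          (editDist (x[i] :: x.drop (i + 1)) (y.drop y.length)) (k + y.length) Y,
          Function.update M (k + y.length)
            (editDist (x[i] :: x.drop (i + 1)) (y.drop y.length)), D⟩ := by
      intro ρ
      refine ((((((((r_add (at_get hA 11 rfl) ?_).trans (r_load (at_get hA 12 rfl))).trans
        (r_sub (at_get hA 13 rfl))).trans (r_add (at_get hA 14 rfl) ?_)).trans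
        (r_load (at_get hA 15 rfl))).trans (r_add (at_get hA 16 rfl) ?_)).trans
        (r_store (at_get hA 17 rfl))).trans (r_copy (at_get hA 18 rfl))).congr ?_
      · simp only [vec2, vec3]; omega
      · simp only [vec0, vec2, vec3, vec4, vec10, wr3, wr6, wr10]; omega
      · simp only [vec0, vec2, vec3, vec4, vec8, vec10, wr3, wr6, wr8, wr10, e2]; omega
      · simp only [vec0, vec2, vec3, vec4, vec8, vec9, vec10, wr3, wr6, wr7, wr8, wr9, wr10, e1, e2,
          e3, Nat.add_sub_cancel]
    obtain ⟨M1, dg1, pv1, X1, Y1, r2, h1, h2⟩ := inner_loop (w := w) (k := k) (D := D) hA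
      (x.drop (i + 1)) y x[i] (i := i) (q := y.length) hk hyb
      (by rw [List.length_drop]; omega) y.length le_rfl
      (Function.update M (k + y.length) (editDist (x[i] :: x.drop (i + 1)) (y.drop y.length)))
      (k + y.length) Y
      (fun l h => by rw [Function.update_of_ne (by omega)]; exact hy l h)
      (fun l h => by rw [Function.update_of_ne (by omega)]; exact hrow l (by omega))
    obtain ⟨M', a', j', dg', pv', X', Y', r3, h3⟩ := ih (by omega) M1 x[i] 0 dg1 pv1 X1 Y1
      (fun l h => by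
        rw [h2 _ (Or.inl (by omega)), Function.update_of_ne (by omega)]; exact hxs l h)
      (fun l h => by
        rw [h2 _ (Or.inl (by omega)), Function.update_of_ne (by omega)]; exact hy l h)
      (fun l h => by
        rw [hd]
        rcases Nat.lt_or_eq_of_le h with h | rfl
        · exact h1 l h
        · rw [h2 _ (Or.inr le_rfl), Function.update_self])
    exact ⟨M', a', j', dg', pv', X', Y',
      RU.trans (RU.trans (RU.trans ⟨_, r0⟩ ⟨_, r1⟩) r2) r3, h3⟩

theorem init_loop (hA : At L d (dpCode d)) {i q yb a S Y : ℕ} (hk : k + q < 2 ^ w) :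
    ∀ j v, j + v = q → ∀ (M : ℕ → ℕ) (X : ℕ),
      ∃ M' X', RU L w ⟨d + 4, false, vec k i q yb a j S v X Y, M, D⟩
        ⟨d + 10, false, vec k i q yb a 0 S q X' Y, M', D⟩ ∧
        (∀ l ≤ j, M' (k + l) = q - l) ∧ ∀ l, l < k ∨ k + j < l → M' l = M l := by
  have r0 : ∀ j v, j + v = q → ∀ (M : ℕ → ℕ) (X : ℕ) (ρ : ℕ → ℕ), Rch L w ρ (1 + 1 + 1)
      ⟨d + 4, false, vec k i q yb a j S v X Y, M, D⟩
      ⟨if j = 0 then d + 10 else d + 7, false, vec k i q yb a j S v (k + j) Y,
        Function.update M (k + j) v, D⟩ := by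
    intro j v hjv M X ρ
    refine (((r_add (at_get hA 4 rfl) ?_).trans (r_store (at_get hA 5 rfl))).trans
      (r_jz (at_get hA 6 rfl))).congr ?_
    · simp only [vec0, vec7]; omega
    · simp only [vec0, vec7, vec9, vec10, wr10]
  intro j
  induction j with
  | zero =>
    intro v hv M X
    obtain rfl : v = q := by omega
    refine ⟨_, _, ⟨_, fun ρ => (r0 0 v hv M X ρ).congr (by rw [if_pos rfl])⟩, fun l hl => ?_,
      fun l hl => ?_⟩
    · obtain rfl : l = 0 := by omega
      rw [Function.update_self]; rfl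
    · rw [Function.update_of_ne (by omega)]
  | succ j ih =>
    intro v hv M X
    have r1 : ∀ ρ, Rch L w ρ (1 + 1 + 1) ⟨d + 7, false, vec k i q yb a (j + 1) S v (k + (j + 1)) Y,
        Function.update M (k + (j + 1)) v, D⟩ ⟨d + 4, false,
        vec k i q yb a j S (v + 1) (k + (j + 1)) Y, Function.update M (k + (j + 1)) v, D⟩ := by
      intro ρ
      refine (((r_sub (at_get hA 7 rfl)).trans (r_add (at_get hA 8 rfl) ?_)).trans
        (r_jump (at_get hA 9 rfl))).congr ?_
      · simp only [vec2, vec7, vec9, wr7]; omega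
      · simp only [vec2, vec7, vec9, wr7, wr9, Nat.add_sub_cancel]
    obtain ⟨M', X', r2, h1, h2⟩ := ih (v + 1) (by omega) (Function.update M (k + (j + 1)) v)
      (k + (j + 1))
    refine ⟨M', X', RU.trans (RU.trans ⟨_, fun ρ => (r0 (j + 1) v hv M X ρ).congr
      (by rw [if_neg (Nat.succ_ne_zero j)])⟩ ⟨_, r1⟩) r2, fun l hl => ?_, fun l hl => ?_⟩
    · rcases Nat.lt_or_eq_of_le hl with h | rfl
      · exact h1 l (by omega)
      · rw [h2 _ (Or.inr (by omega)), Function.update_self]; omega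
    · rw [h2 l (by omega), Function.update_of_ne (by omega)]

/-- The dynamic programme computes the edit distance. -/
theorem dp_main (hA : At L d (dpCode d)) (x y : List ℕ) {M : ℕ → ℕ}
    (hk : 2 * k < 2 ^ w) (hxy : 2 + x.length + y.length ≤ k)
    (hx : ∀ l (h : l < x.length), M (2 + l) = x[l])
    (hy : ∀ l (h : l < y.length), M (x.length + 1 + 1 + l) = y[l]) (b c t S U X Y : ℕ) :
    ∃ cc : Cfg 12, cc.halted = true ∧ cc.output = [editDist x y] ∧
      RU L w ⟨d, false, vec k x.length y.length b c t S U X Y, M, D⟩ cc := by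
  have r0 : ∀ ρ, Rch L w ρ (1 + 1 + 1 + 1)
      ⟨d, false, vec k x.length y.length b c t S U X Y, M, D⟩
      ⟨d + 4, false, vec k x.length y.length (x.length + 1 + 1) c y.length S 0 X Y, M, D⟩ := by
    intro ρ
    refine ((((r_add (at_get hA 0 rfl) ?_).trans (r_add (at_get hA 1 rfl) ?_)).trans
      (r_copy (at_get hA 2 rfl))).trans (r_copy (at_get hA 3 rfl))).congr ?_
    · simp only [vec2, vec3]; omega
    · simp only [vec2, vec3, vec5, wr5]; omega
    · simp only [vec1, vec2, vec3, vec4, vec5, wr5, wr7, wr9]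
  obtain ⟨M1, X1, r1, h1, h2⟩ := init_loop (w := w) (k := k) (D := D) hA (i := x.length)
    (q := y.length) (yb := x.length + 1 + 1) (a := c) (S := S) (Y := Y) (by omega) y.length 0 rfl
    M X
  obtain ⟨M2, a', j', dg', pv', X', Y', r2, h3⟩ := outer_loop (w := w) (k := k) (D := D) hA x y
    (yb := x.length + 1 + 1) (by omega) (by omega) (by omega) (by omega) x.length le_rfl M1
    c 0 S y.length X1 Y
    (fun l h => by rw [h2 _ (Or.inl (by omega))]; exact hx l h)
    (fun l h => by rw [h2 _ (Or.inl (by omega))]; exact hy l h)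
    (fun l h => by rw [h1 l h, List.drop_length, ← List.length_drop]; rfl)
  have r3 : ∀ ρ, Rch L w ρ (1 + 1 + 1 + 1)
      ⟨d + 38, false, vec k 0 y.length (x.length + 1 + 1) a' j' dg' pv' X' Y', M2, D⟩
      ⟨d + 41, true, vec 1 0 y.length (x.length + 1 + 1) a' j' dg' pv' (editDist x y) Y',
        Function.update M2 0 (editDist x y), D⟩ := fun ρ =>
    ((((r_load (at_get hA 38 rfl)).trans (r_store (at_get hA 39 rfl))).trans
      (r_copy (at_get hA 40 rfl))).trans (r_halt (at_get hA 41 rfl))).congr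
      (by simp only [vec0, vec1, vec2, vec10, wr0, wr10, h3])
  refine ⟨_, ?_, ?_, RU.trans (RU.trans (RU.trans ⟨_, r0⟩ r1) r2) ⟨_, r3⟩⟩
  · rfl
  · simp [Cfg.output, Cfg.reg]

end Crest.Agent.R288.RamAux
end

-- ▼ part PVb/R288/RamAux4
section

/-!
# R288: the test of the regime on the word RAM
-/

set_option autoImplicit false

namespace Crest.Agent.R288.RamAux

open Crest.WordRAM
open Crest.Agent.R309.RamAux (vec At at_cons at_append at_self stp
  Rch r_const r_copy r_add r_sub r_and r_shr r_load r_store r_jump r_jz r_jeq r_rand r_halt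
  vec0 vec1 vec2 vec3 vec4 vec5 vec6 vec7 vec8 vec9 vec10 vec11
  wr0 wr3 wr4 wr5 wr6 wr7 wr8 wr9 wr10 wr11)

/-- Replace register `7` by its binary logarithm. -/
def logI (o : ℕ) : List (Instr 12) :=
  [.copy 9 1, .shr 7 7 2, .jumpIfZero 7 (o + 5), .add 9 9 2, .jump (o + 1), .copy 7 9]

/-- Subtract `c` from register `7`, jumping to `z` if it is smaller. -/
def decs : ℕ → ℕ → List (Instr 12)
  | 0, _ => []
  | c + 1, z => .jumpIfZero 7 z :: .sub 7 7 2 :: decs c z

theorem length_logI (o : ℕ) : (logI o).length = 6 := rfl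

theorem length_decs (c z : ℕ) : (decs c z).length = 2 * c := by
  induction c with
  | zero => rfl
  | succ c ih => simp only [decs, List.length_cons, ih]; omega

/-- The test of the regime. -/
def preCode (c0 sl fa : ℕ) : List (Instr 12) :=
  [.const 2 1, .load 3 1, .load 4 2, .add 7 3 4, .sub 8 0 7, .sub 8 8 2, .sub 8 8 2] ++
    (logI 7 ++ (logI 13 ++ (logI 19 ++ (decs c0 sl ++ [.sub 8 8 7, .jumpIfZero 8 fa, .jump sl]))))

theorem length_preCode (c0 sl fa : ℕ) : (preCode c0 sl fa).length = 28 + 2 * c0 := by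
  simp only [preCode, List.length_append, length_logI, length_decs, List.length_cons,
    List.length_nil]
  omega

variable {L : List (Instr 12)} {w : ℕ} {ρ : ℕ → ℕ} {o k m a b c S X Y D : ℕ} {M : ℕ → ℕ}

theorem rch_logLoop (hw : 1 < w) (hA : At L o (logI o)) (n : ℕ) : ∀ t U, Nat.log 2 t = n →
    U + n < 2 ^ w → Rch L w ρ (4 * n + 2) ⟨o + 1, false, vec k m a b c t S U X Y, M, D⟩
      ⟨o + 5, false, vec k m a b c 0 S (U + n) X Y, M, D⟩ := by
  induction n with
  | zero =>
    intro t U ht _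
    have h2 : t < 2 := by
      by_contra h
      have := Nat.log_pos (b := 2) (by omega) (not_lt.1 h)
      omega
    have h3 : t >>> 1 = 0 := by rw [Nat.shiftRight_one]; omega
    refine ((r_shr (at_get hA 1 rfl) (by simpa using hw)).trans (r_jz (at_get hA 2 rfl))).congr ?_
    simp only [vec2, vec7, wr7, h3, if_true, Nat.add_zero]
  | succ n ih =>
    intro t U ht hU
    have h2 : 2 ≤ t := by
      by_contra h
      rw [Nat.log_of_lt (not_le.1 h)] at ht
      omega
    have h3 : t >>> 1 = t / 2 := Nat.shiftRight_one t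
    have h4 : Nat.log 2 (t / 2) = n := by rw [Nat.log_div_base]; omega
    have h5 : t / 2 ≠ 0 := by omega
    have r1 : Rch L w ρ (1 + 1) ⟨o + 1, false, vec k m a b c t S U X Y, M, D⟩
        ⟨o + 3, false, vec k m a b c (t / 2) S U X Y, M, D⟩ := by
      refine ((r_shr (at_get hA 1 rfl) (by simpa using hw)).trans
        (r_jz (at_get hA 2 rfl))).congr ?_
      simp only [vec2, vec7, wr7, h3, h5, if_false]
    have r2 : Rch L w ρ (1 + 1) ⟨o + 3, false, vec k m a b c (t / 2) S U X Y, M, D⟩
        ⟨o + 1, false, vec k m a b c (t / 2) S (U + 1) X Y, M, D⟩ := by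
      refine ((r_add (at_get hA 3 rfl) ?_).trans (r_jump (at_get hA 4 rfl))).congr ?_
      · simp only [vec2, vec9]; omega
      · simp only [vec2, vec9, wr9]
    refine (((r1.trans r2).trans (ih (t / 2) (U + 1) h4 (by omega))).congr ?_).mono (by omega)
    rw [show U + 1 + n = U + (n + 1) by omega]

theorem log_lt_of_lt {t : ℕ} (hw : 1 < w) (ht : t < 2 ^ w) : Nat.log 2 t < w := by
  rcases Nat.eq_zero_or_pos t with rfl | h
  · rw [Nat.log_zero_right]; omega
  · exact Nat.log_lt_of_lt_pow h.ne' ht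

theorem rch_logI (hw : 1 < w) (hA : At L o (logI o)) {t : ℕ} (ht : t < 2 ^ w) (U : ℕ) :
    Rch L w ρ (4 * w + 4) ⟨o, false, vec k m a b c t S U X Y, M, D⟩
      ⟨o + 6, false, vec k m a b c (Nat.log 2 t) S (Nat.log 2 t) X Y, M, D⟩ := by
  have h1 := log_lt_of_lt hw ht
  have h2 : Nat.log 2 t ≤ t := Nat.log_le_self 2 t
  have r0 : Rch L w ρ 1 ⟨o, false, vec k m a b c t S U X Y, M, D⟩
      ⟨o + 1, false, vec k m a b c t S 0 X Y, M, D⟩ :=
    (r_copy (at_get hA 0 rfl)).congr (by simp only [vec1, wr9])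
  refine (((r0.trans (rch_logLoop hw hA _ t 0 rfl (by omega))).trans
    (r_copy (at_get hA 5 rfl))).congr ?_).mono (by omega)
  simp only [vec9, wr7, Nat.zero_add]

theorem rch_decs {z U : ℕ} (n : ℕ) : ∀ o t, At L o (decs n z) →
    (n ≤ t → Rch L w ρ (2 * n) ⟨o, false, vec k m a b c t S U X Y, M, D⟩
      ⟨o + 2 * n, false, vec k m a b c (t - n) S U X Y, M, D⟩) ∧
    (t < n → Rch L w ρ (2 * n) ⟨o, false, vec k m a b c t S U X Y, M, D⟩
      ⟨z, false, vec k m a b c 0 S U X Y, M, D⟩) := by
  induction n with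
  | zero => exact fun o t _ => ⟨fun _ => R309.RamAux.Rch.refl _, fun h => absurd h (by omega)⟩
  | succ n ih =>
    intro o t ⟨a0, a1, hA⟩
    cases t with
    | zero =>
      refine ⟨fun h => absurd h (by omega), fun _ => ((r_jz a0).congr ?_).mono (by omega)⟩
      simp only [vec7, if_true]
    | succ t =>
      have r0 : Rch L w ρ 1 ⟨o, false, vec k m a b c (t + 1) S U X Y, M, D⟩
          ⟨o + 1, false, vec k m a b c (t + 1) S U X Y, M, D⟩ :=
        (r_jz a0).congr (by simp only [vec7, Nat.succ_ne_zero, if_false])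
      have r1 : Rch L w ρ (1 + 1) ⟨o, false, vec k m a b c (t + 1) S U X Y, M, D⟩
          ⟨o + 1 + 1, false, vec k m a b c t S U X Y, M, D⟩ :=
        (r0.trans (r_sub a1)).congr (by simp only [vec2, vec7, wr7, Nat.add_sub_cancel])
      obtain ⟨i1, i2⟩ := ih (o + 1 + 1) t hA
      refine ⟨fun h => ((r1.trans (i1 (by omega))).congr ?_).mono (by omega),
        fun h => (r1.trans (i2 (by omega))).mono (by omega)⟩
      rw [show o + 1 + 1 + 2 * n = o + 2 * (n + 1) by omega, Nat.add_sub_add_right]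

theorem rch_pre {c0 sl fa : ℕ} (hw : 1 < w) (hA : At L 0 (preCode c0 sl fa)) (inp : List ℕ)
    {p q E : ℕ} (hL : inp.length < 2 ^ w) (hp : inp[0]?.getD 0 % 2 ^ w = p)
    (hq : inp[1]?.getD 0 % 2 ^ w = q) (hE : inp.length = 2 + p + q + E) :
    ∃ t S U, ∀ ρ, Rch L w ρ (12 * w + 2 * c0 + 22) (init ⟨12, L⟩ w inp)
      ⟨if E + c0 ≤ Nat.log 2 (Nat.log 2 (Nat.log 2 (p + q))) then fa else sl, false,
        vec inp.length p q 0 0 t S U 0 0, fun i => inp[i]?.getD 0 % 2 ^ w, 0⟩ := by
  rw [preCode, at_append, at_append, at_append, at_append, at_append, length_logI, length_logI,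
    length_logI, length_decs] at hA
  obtain ⟨⟨a0, a1, a2, a3, a4, a5, a6, -⟩, l1, l2, l3, hd, b0, b1, b2, -⟩ := hA
  generalize hM : (fun i : ℕ => inp[i]?.getD 0 % 2 ^ w) = M
  have hM0 : M 0 = p := by rw [← hM]; exact hp
  have hM1 : M 1 = q := by rw [← hM]; exact hq
  have h1 : 1 < 2 ^ w := Nat.one_lt_two_pow (by omega)
  have r0 : ∀ ρ, Rch L w ρ 1 (init ⟨12, L⟩ w inp)
      ⟨1, false, vec inp.length 0 0 0 0 0 0 0 0 0, M, 0⟩ := by
    intro ρ
    refine (r_const a0 h1).congr ?_
    rw [← hM]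
    congr 1
    funext j
    fin_cases j
    · exact Nat.mod_eq_of_lt hL
    all_goals rfl
  have r1 : ∀ ρ, Rch L w ρ (1 + 1 + 1 + 1 + 1 + 1)
      ⟨1, false, vec inp.length 0 0 0 0 0 0 0 0 0, M, 0⟩
      ⟨7, false, vec inp.length p q 0 0 (p + q) E 0 0 0, M, 0⟩ := by
    intro ρ
    refine ((((((r_load a1).trans (r_load a2)).trans (r_add a3 ?_)).trans (r_sub a4)).trans
      (r_sub a5)).trans (r_sub a6)).congr ?_
    · simp only [vec1, vec2, vec3, vec4, wr3, wr4, hM0, hM1]; omega
    · simp only [vec0, vec1, vec2, vec3, vec4, vec7, vec8, wr3, wr4, wr7, wr8, hM0, hM1]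
      congr 2
      omega
  have g1 := Nat.log_le_self 2 (p + q)
  have g2 := Nat.log_le_self 2 (Nat.log 2 (p + q))
  have r2 := fun ρ => (((((r0 ρ).trans (r1 ρ)).trans (rch_logI hw l1 (by omega) 0)).trans
    (rch_logI hw l2 (by omega) _)).trans (rch_logI hw l3 (by omega) _))
  generalize Nat.log 2 (Nat.log 2 (Nat.log 2 (p + q))) = j at r2 ⊢
  by_cases hj : c0 ≤ j
  · have r3 := fun ρ => ((r2 ρ).trans ((rch_decs c0 _ j hd).1 hj)).trans
      ((r_sub b0).trans (r_jz b1))
    simp only [vec7, vec8, wr8] at r3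
    by_cases hf : E + c0 ≤ j
    · rw [if_pos (by omega)] at r3
      rw [if_pos hf]
      exact ⟨_, _, _, fun ρ => (r3 ρ).mono (by omega)⟩
    · rw [if_neg (by omega)] at r3
      rw [if_neg hf]
      exact ⟨_, _, _, fun ρ => ((r3 ρ).trans (r_jump b2)).mono (by omega)⟩
  · rw [if_neg (by omega)]
    exact ⟨_, _, _, fun ρ => ((r2 ρ).trans ((rch_decs c0 _ j hd).2 (by omega))).mono (by omega)⟩

end Crest.Agent.R288.RamAux
private theorem rz_1daab3c27b : type_of% @_root_.Crest.Agent.R288.RamAux.decs.eq_def := @_root_.Crest.Agent.R288.RamAux.decs.eq_def -- L22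
private theorem rz_40c5cccd67 : type_of% @_root_.Crest.Agent.R288.RamAux.decs.eq_1 := @_root_.Crest.Agent.R288.RamAux.decs.eq_1 -- L22
end

-- ▼ part PVb/R288/Ram
section

/-!
# R288: the word-RAM program (regime test, exact dynamic programme, macro machine)
-/

set_option autoImplicit false

namespace Crest.Agent.R288

open Crest.Agent.Lib.PT Crest.WordRAM Crest.GraphRAM

theorem RM.go_succ (m : RM) (mem : ℕ → ℕ) (f : ℕ → Bool) (n : ℕ) :
    m.go mem ((List.range (n + 1)).map f) = m.step mem (m.go mem ((List.range n).map f)) (f n) := by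
  rw [List.range_succ, List.map_append, RM.go, List.foldl_append]
  rfl


end Crest.Agent.R288
end

-- ▼ part PVb/R288/Ram2
section

/-!
# R288: the word-RAM program, with constants that do not depend on the threshold `c0`
-/

set_option autoImplicit false

namespace Crest.Agent.R288

open Crest.Agent.Lib.PT Crest.WordRAM Crest.GraphRAM

open RamAux R309.RamAux in
/-- `ram_main` with the constants `c`, `d` chosen before `c0`. -/
theorem ram_main2 (m : RM) (hnx : PT fun p : V × ℕ × Bool => m.nx p.1 p.2.1 p.2.2) (hrd : PT m.rd)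
    (hfin : PT m.fin) :
    ∃ c d : ℕ, ∀ c0 : ℕ, ∃ Pg : Program, ∀ (x y e : List ℕ) (w : ℕ), (∀ a ∈ stringsInput x y ++ e, a < 2 ^ w) →
      ((stringsInput x y ++ e).length + 2) ^ 3 ≤ 2 ^ w → 6 ≤ (stringsInput x y ++ e).length →
      (¬ Fast c0 (x.length + y.length) e.length →
        ∃ T, ∀ ρ, HaltsWithin Pg w ρ (stringsInput x y ++ e) T [editDist x y]) ∧
      (Fast c0 (x.length + y.length) e.length → ∀ B : ℕ,
        (∀ l, sz (m.go (fun a => (stringsInput x y ++ e).getD a 0) l) ≤ B) →
        (∀ l, m.rd (m.go (fun a => (stringsInput x y ++ e).getD a 0) l) ≤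
          (stringsInput x y ++ e).length) →
        (stringsInput x y ++ e).length + c * (B + w + 1) ^ d ≤ 2 ^ w →
        ∀ (ρ : ℕ → ℕ) (n v : ℕ), v < 2 ^ w →
          m.fin (m.go (fun a => (stringsInput x y ++ e).getD a 0)
            ((List.range n).map fun i => (ρ i % 2 ^ w).bodd)) = some v →
          HaltsWithin Pg w ρ (stringsInput x y ++ e) (c * (B + w + 1) ^ d * (n + 1)) [v]) := by
  have g1 : PT fun s : V => (m.fin s).elim 0 (fun _ => 1) := by fun_prop
  have g4 : PT fun x : List Bool × V =>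
      toBits (m.nx x.2 (ofBits x.1.tail.reverse) (x.1.headD false)) :=
    PT.toBits (hnx.comp (f := fun x : List Bool × V =>
      (x.2, ofBits x.1.tail.reverse, x.1.headD false)) (by fun_prop))
  have g5 : PT fun s : V => (m.fin s).elim 0 (fun v => v) := by fun_prop
  obtain ⟨p1, c1, k1, e1⟩ := exists_qcall g1
  obtain ⟨p2, c2, k2, e2⟩ := exists_qcall hrd
  obtain ⟨p4, c4, k4, e4⟩ := exists_call g4
  obtain ⟨p5, c5, k5, e5⟩ := exists_qcall g5
  let Z : ℕ → ℕ := fun B => 5 * B + 6
  let Tm : ℕ → ℕ := fun B => c1 * Z B ^ k1 + c2 * Z B ^ k2 + c4 * Z B ^ k4 + c5 * Z B ^ k5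
  obtain ⟨c, d, hcd⟩ := exists_poly (f := fun B => 36 * Tm B + 18 * B + (2 * B + 46)) (by
    simp only [Tm, Z]
    fun_prop)
  refine ⟨c, d, fun c0 => ?_⟩
  obtain ⟨L, o1, o2, o4, o5, hpre, hL⟩ := RamAux.exists_layout (pushL (toBits m.s0)) p1 p2 p4 p5
    (preCode c0 (28 + 2 * c0) (28 + 2 * c0 + 42) ++ dpCode (28 + 2 * c0))
  rw [at_append, length_preCode, Nat.zero_add] at hpre
  rw [List.length_append, length_preCode, length_dpCode] at hL
  obtain ⟨hpre, hdp⟩ := hpre
  refine ⟨⟨12, L⟩, fun x y e w hinp hlen h6 => ?_⟩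
  have hlen' : (stringsInput x y ++ e).length = 2 + x.length + y.length + e.length := by
    simp only [stringsInput, List.length_append, List.length_cons]; omega
  have hx : ∀ l (h : l < x.length), (stringsInput x y ++ e)[2 + l]? = some x[l] := by
    intro l h
    rw [show 2 + l = l + 1 + 1 by omega]
    simp only [stringsInput, List.cons_append, List.getElem?_cons_succ, List.append_assoc]
    rw [List.getElem?_append_left h, List.getElem?_eq_getElem h]
  have hy : ∀ l (h : l < y.length),
      (stringsInput x y ++ e)[x.length + 1 + 1 + l]? = some y[l] := by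
    intro l h
    rw [show x.length + 1 + 1 + l = x.length + l + 1 + 1 by omega]
    simp only [stringsInput, List.cons_append, List.getElem?_cons_succ, List.append_assoc]
    rw [List.getElem?_append_right (by omega), Nat.add_sub_cancel_left,
      List.getElem?_append_left h, List.getElem?_eq_getElem h]
  have h0 : (stringsInput x y ++ e)[0]? = some x.length := rfl
  have h1 : (stringsInput x y ++ e)[1]? = some y.length := rfl
  generalize stringsInput x y ++ e = inp at hinp hlen h6 hlen' hx hy h0 h1 ⊢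
  have hcube : 2 * inp.length < (inp.length + 2) ^ 3 := by
    have : (inp.length + 2) ^ 3 = inp.length ^ 3 + 6 * inp.length ^ 2 + 12 * inp.length + 8 := by
      ring
    omega
  have hw1 : 1 < w := by
    by_contra h
    have : 2 ^ w ≤ 2 ^ 1 := Nat.pow_le_pow_right (by omega) (by omega)
    omega
  have hM : (fun i : ℕ => inp[i]?.getD 0 % 2 ^ w) = fun a => inp.getD a 0 := by
    funext i
    rw [List.getD_eq_getElem?_getD]
    cases h : inp[i]? with
    | none => simp
    | some a => exact Nat.mod_eq_of_lt (hinp a (List.mem_of_getElem? h))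
  have hMlt : ∀ a, inp.getD a 0 < 2 ^ w := fun a => by
    rw [← congrFun hM a]; exact Nat.mod_lt _ (Nat.two_pow_pos w)
  obtain ⟨t0, S0, U0, r0⟩ := rch_pre (E := e.length) (p := x.length) (q := y.length) hw1 hpre inp
    (by omega) (by rw [h0]; exact Nat.mod_eq_of_lt (by simp only [Option.getD_some]; omega))
    (by rw [h1]; exact Nat.mod_eq_of_lt (by simp only [Option.getD_some]; omega)) hlen'
  rw [hM] at r0
  refine ⟨fun hF => ?_, fun hF B hsz hra hw ρ n v hv hfv => ?_⟩
  · unfold Fast at hF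
    rw [if_neg hF] at r0
    obtain ⟨cc, a1, a2, T, r1⟩ := dp_main (w := w) (k := inp.length) (D := 0)
      (M := fun a => inp.getD a 0) hdp x y (by omega) (by omega)
      (fun l h => by simp only [List.getD_eq_getElem?_getD, hx l h, Option.getD_some])
      (fun l h => by simp only [List.getD_eq_getElem?_getD, hy l h, Option.getD_some])
      0 0 t0 S0 U0 0 0
    refine ⟨12 * w + 2 * c0 + 22 + T, fun ρ => ?_⟩
    have h4 : run ⟨12, L⟩ w ρ inp (12 * w + 2 * c0 + 22 + T) = cc :=
      ((r0 ρ).trans (r1 ρ)).iterate_eq a1 le_rfl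
    exact ⟨by rw [h4]; exact a1, by rw [h4]; exact a2⟩
  unfold Fast at hF
  have hc0 : c0 ≤ w := by
    have a1 : Nat.log 2 (x.length + y.length) ≤ w := by
      rcases Nat.eq_zero_or_pos (x.length + y.length) with h | h
      · simp [h]
      · exact (Nat.log_lt_of_lt_pow (by omega) (by omega)).le
    have a2 := Nat.log_le_self 2 (Nat.log 2 (x.length + y.length))
    have a3 := Nat.log_le_self 2 (Nat.log 2 (Nat.log 2 (x.length + y.length)))
    omega
  rw [if_pos hF] at r0
  have hN := hcd (B + w)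
  have hZ : Z (B + w) = 5 * (B + w) + 6 := rfl
  have hT : Tm (B + w) = c1 * Z (B + w) ^ k1 + c2 * Z (B + w) ^ k2 + c4 * Z (B + w) ^ k4 +
    c5 * Z (B + w) ^ k5 := rfl
  generalize c * (B + w + 1) ^ d = N at hN hw ⊢
  have hle : ∀ (x c k : ℕ), x ≤ Z (B + w) → c * x ^ k ≤ c * Z (B + w) ^ k := fun x c k h =>
    Nat.mul_le_mul_left _ (Nat.pow_le_pow_left h _)
  generalize hMM : (fun a => inp.getD a 0) = M at hsz hra hfv r0
  have hMlt' : ∀ a, M a < 2 ^ w := fun a => by rw [← hMM]; exact hMlt a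
  have key : ∀ i, ∃ j ≤ i, (j = i ∨ m.fin (m.go M ((List.range i).map
      fun i => (ρ i % 2 ^ w).bodd)) ≠ none) ∧ ∃ t X Y,
      Rch L w ρ (12 * w + 6 * B + 2 * c0 + 35 + N * j) (WordRAM.init ⟨12, L⟩ w inp)
        (cf o1 inp.length (inp.length + 1)
          ⟨toBits (m.go M ((List.range i).map fun i => (ρ i % 2 ^ w).bodd)), [], [], []⟩
          t X Y M j) := by
    intro i
    induction i with
    | zero =>
      have h2 : sz m.s0 ≤ B := hsz []
      have e0 := run_pushL (toBits m.s0) [] []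
      simp only [List.append_nil, length_toBits] at e0
      obtain ⟨t, r⟩ := hL.start (w := w) (ρ := ρ) (k := inp.length) (X := 0) (D := 0) (M := M) e0
        (by omega) (fun i hi => by
          rw [← hMM]; exact List.getD_eq_default _ _ (by omega)) x.length y.length 0 0 t0 S0 U0 0
      exact ⟨0, le_rfl, Or.inl rfl, t, 0, 0, ((r0 ρ).trans r).mono (by omega)⟩
    | succ i ih =>
      obtain ⟨j, hj, hj', t, X, Y, r⟩ := ih
      have hs := hsz ((List.range i).map fun i => (ρ i % 2 ^ w).bodd)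
      have hr := hra ((List.range i).map fun i => (ρ i % 2 ^ w).bodd)
      rw [RM.go_succ]
      generalize m.go M ((List.range i).map fun i => (ρ i % 2 ^ w).bodd) = g at hj' r hs hr ⊢
      by_cases hf : m.fin g = none
      · obtain rfl : j = i := hj'.resolve_right fun h => h hf
        have hst : m.step M g (ρ j % 2 ^ w).bodd = m.nx g (M (m.rd g)) (ρ j % 2 ^ w).bodd := by
          unfold RM.step
          rw [if_neg (by simp [hf])]
        rw [hst]
        have hl : (M (m.rd g)).bits.length ≤ w := by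
          rw [Nat.size_eq_bits_len]; exact Nat.size_le.2 (hMlt' _)
        have x1 := (e1 g).mono (hle _ _ _ (by omega))
        have x2 := (e2 g).mono (hle _ _ _ (by omega))
        have x4 := (e4 ((ρ j % 2 ^ w).bodd :: (M (m.rd g)).bits.reverse, g)).mono
          (hle _ _ _ (by
            have := sz_boolList_le ((ρ j % 2 ^ w).bodd :: (M (m.rd g)).bits.reverse)
            rw [List.length_cons, List.length_reverse] at this
            rw [sz_mk]; omega))
        simp only [hf, Option.elim_none, List.tail_cons, List.headD_cons, List.reverse_reverse,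
          ofBits_bits] at x1 x4
        obtain ⟨t', X', Y', r'⟩ := hL.iter (ρ := ρ) (T := Tm (B + w)) (D := j) (M := M)
          (k := inp.length) (H := inp.length + 1) hw1 (x1.mono (by omega)) (x2.mono (by omega))
          (x4.mono (by omega)) (by omega) (hMlt' _) (by rw [length_toBits]; omega) t X Y
        exact ⟨j + 1, le_rfl, Or.inl rfl, t', X', Y',
          (r.trans r').mono (by rw [Nat.mul_succ]; omega)⟩
      · have hst : m.step M g (ρ i % 2 ^ w).bodd = g := by
          unfold RM.step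
          rw [if_pos (Option.isSome_iff_ne_none.2 hf)]
        rw [hst]
        exact ⟨j, by omega, Or.inr hf, t, X, Y, r⟩
  obtain ⟨j, hj, -, t, X, Y, r⟩ := key n
  have hs := hsz ((List.range n).map fun i => (ρ i % 2 ^ w).bodd)
  generalize m.go M ((List.range n).map fun i => (ρ i % 2 ^ w).bodd) = g at r hs hfv
  have x1 := (e1 g).mono (hle _ _ _ (by omega))
  have x5 := (e5 g).mono (hle _ _ _ (by omega))
  simp only [hfv, Option.elim_some] at x1 x5
  obtain ⟨cc, a1, a2, r'⟩ := hL.stop (ρ := ρ) (T := Tm (B + w)) (H := inp.length + 1)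
    (x1.mono (by omega)) (x5.mono (by omega)) hv (by rw [length_toBits]; omega)
    inp.length t X Y M j
  have h3 : N * j ≤ N * n := Nat.mul_le_mul_left _ hj
  have h4 : run ⟨12, L⟩ w ρ inp (N * (n + 1)) = cc :=
    (r.trans r').iterate_eq a1 (by rw [Nat.mul_succ]; omega)
  exact ⟨by rw [h4]; exact a1, by rw [h4]; exact a2⟩

end Crest.Agent.R288
end

-- ▼ part PVb/R288/Mach
section

/-!
# R288: a recursive scheme as a read-only macro machine
-/

set_option autoImplicit false

namespace Crest.Agent.R288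

open Crest.Agent.Lib.PT
open Crest.Agent.R309 (Ex)

/-- The machine `step`, started in a state, follows a tree of coin flips and ends in `g a` for the leaf `a`; all states
before the last one satisfy `I`. -/
inductive MSim {σ α : Type} (step : σ → Bool → σ) (I : σ → Prop) (g : α → σ) : σ → RT α → ℕ → Prop
  | done (a : α) (c : ℕ) : MSim step I g (g a) (.pure a) c
  | det (s s' : σ) (t : RT α) (c : ℕ) : I s → (∀ b, step s b = s') → MSim step I g s' t c →
      MSim step I g s t (c + 1)
  | coin (s : σ) (l r : RT α) (c : ℕ) : I s → MSim step I g (step s false) l c → MSim step I g (step s true) r c →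
      MSim step I g s (.coin l r) (c + 1)

section sim

variable {σ α β : Type} {step : σ → Bool → σ} {I : σ → Prop} {g : α → σ} {g' : β → σ}

theorem MSim.mono {s : σ} {t : RT α} {c : ℕ} (h : MSim step I g s t c) : ∀ {c' : ℕ}, c ≤ c' → MSim step I g s t c' := by
  induction h with
  | done a c => intro c' _; exact .done a c'
  | det s s' t c h1 h2 _ ih =>
    intro c' hc
    obtain ⟨d, rfl⟩ : ∃ d, c' = d + 1 := ⟨c' - 1, by omega⟩
    exact .det s s' t d h1 h2 (ih (by omega))
  | coin s l r c h1 _ _ ih1 ih2 =>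
    intro c' hc
    obtain ⟨d, rfl⟩ : ∃ d, c' = d + 1 := ⟨c' - 1, by omega⟩
    exact .coin s l r d h1 (ih1 (by omega)) (ih2 (by omega))

theorem MSim.bind {s : σ} {t : RT α} {c c' : ℕ} {F : α → RT β} (h : MSim step I g s t c) :
    (t.All fun a => MSim step I g' (g a) (F a) c') → MSim step I g' s (t.bind F) (c' + c) := by
  induction h with
  | done a c => intro h; exact MSim.mono h (by omega)
  | det s s' t c h1 h2 _ ih => intro h; exact .det s s' _ _ h1 h2 (ih h)
  | coin s l r c h1 _ _ ih1 ih2 => intro h; exact .coin s _ _ _ h1 (ih1 h.1) (ih2 h.2)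

theorem mach_stay {s : σ} (h : ∀ b, step s b = s) (l : List Bool) : l.foldl step s = s := by
  induction l with
  | nil => rfl
  | cons b l ih => rw [List.foldl_cons, h, ih]

theorem MSim.inv (hg : ∀ a b, step (g a) b = g a) {s : σ} {t : RT α} {c : ℕ} (h : MSim step I g s t c) :
    ∀ l : List Bool, (I (l.foldl step s) ∧ l.length < c) ∨
      ∃ a, (∀ Q : α → Prop, t.All Q → Q a) ∧ l.foldl step s = g a := by
  induction h with
  | done a c => intro l; exact Or.inr ⟨a, fun _ h => h, mach_stay (hg a) l⟩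
  | det s s' t c h1 h2 _ ih =>
    rintro (_ | ⟨b, l⟩)
    · exact Or.inl ⟨h1, by simp⟩
    · rw [List.foldl_cons, h2]
      exact (ih l).imp_left fun h => ⟨h.1, by simpa using h.2⟩
  | coin s u r c h1 _ _ ih1 ih2 =>
    rintro (_ | ⟨_ | _, l⟩)
    · exact Or.inl ⟨h1, by simp⟩
    · exact (ih1 l).imp (fun h => ⟨h.1, by simpa using h.2⟩) fun ⟨a, ha, e⟩ => ⟨a, fun Q hQ => ha Q hQ.1, e⟩
    · exact (ih2 l).imp (fun h => ⟨h.1, by simpa using h.2⟩) fun ⟨a, ha, e⟩ => ⟨a, fun Q hQ => ha Q hQ.2, e⟩

theorem MSim.ex (hg : ∀ a b, step (g a) b = g a) (f : σ → ℝ) {s : σ} {t : RT α} {c : ℕ} (h : MSim step I g s t c) :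
    ∀ N : ℕ, c ≤ N → Ex N (fun l => f (l.foldl step s)) = t.E fun a => f (g a) := by
  induction h with
  | done a c => intro N _; simp only [mach_stay (hg a), R309.Ex_const, RT.E_pure]
  | det s s' t c h1 h2 _ ih =>
    intro N hN
    obtain ⟨d, rfl⟩ : ∃ d, N = d + 1 := ⟨N - 1, by omega⟩
    simp only [Ex, List.foldl_cons, h2, ih d (by omega)]
    ring
  | coin s u r c h1 _ _ ih1 ih2 =>
    intro N hN
    obtain ⟨d, rfl⟩ : ∃ d, N = d + 1 := ⟨N - 1, by omega⟩
    simp only [Ex, List.foldl_cons, RT.E, ih1 d (by omega), ih2 d (by omega)]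

end sim

/-- frames: call, stage, pending calls, results of the first stage, results of the current stage -/
abbrev MFr : Type := Call × Bool × List Call × List V × List V

/-- states: mode, parameters, stack, call register, value register -/
abbrev MSt : Type := ℕ × Par × List MFr × Call × V

/-- initial phase -/
def mIni (m : ℕ) (P : Par) : MSt := (m, P, [], (0, .nil), .nil)

/-- start a call -/
def mCall (P : Par) (stk : List MFr) (k : Call) : MSt := (3, P, stk, k, .nil)

/-- return a value -/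
def mRet (P : Par) (stk : List MFr) (v : V) : MSt := (4, P, stk, (0, .nil), v)

/-- continue with the top frame -/
def mGo (P : Par) (stk : List MFr) : MSt := (5, P, stk, (0, .nil), .nil)

/-- the step in mode `go` -/
def mGoS (s2 : Par → Call → List V → List Call) (out : Par → Call → List V → List V → V) (P : Par) (f : MFr)
    (stk : List MFr) : MSt :=
  if f.2.2.1 = [] then
    (if f.2.1 = true then mRet P stk (out P f.1 f.2.2.2.1 f.2.2.2.2)
      else mGo P ((f.1, true, s2 P f.1 f.2.2.2.2, f.2.2.2.2, []) :: stk))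
  else mCall P ((f.1, f.2.1, f.2.2.1.tail, f.2.2.2.1, f.2.2.2.2) :: stk) (f.2.2.1.headD (0, .nil))

/-- the step in mode `return` -/
def mRetS (P : Par) (f : MFr) (stk : List MFr) (v : V) : MSt :=
  mGo P ((f.1, f.2.1, f.2.2.1, f.2.2.2.1, f.2.2.2.2 ++ [v]) :: stk)

/-- the step in mode `call` -/
def mCallS (s1 : Par → Call → List Call) (P : Par) (stk : List MFr) (k : Call) (w : ℕ) (b : Bool) : MSt :=
  if k.1 = 0 then mRet P stk (enc b) else if k.1 = 1 then mRet P stk (enc w)
  else mGo P ((k, false, s1 P k, [], []) :: stk)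

/-- the step in mode `pad` -/
def mPadS (tgt : ℕ × ℕ → ℕ) (root : Par → Call) (P : Par) : MSt :=
  if P.2.2.n < tgt (P.1, P.2.1) then mIni 2 (P.1, P.2.1, ⟨P.2.2.n + 1⟩) else mCall P [] (root P)

/-- default frame -/
def mDf : MFr := ((0, .nil), false, [], [], [])

/-- next state -/
def mNx (S : Scheme) (tgt : ℕ × ℕ → ℕ) (root : Par → Call) (s : MSt) (w : ℕ) (b : Bool) : MSt :=
  if s.1 = 0 then mIni 1 (w, 0, ⟨0⟩)
  else if s.1 = 1 then mIni 2 (s.2.1.1, w, ⟨0⟩)
  else if s.1 = 2 then mPadS tgt root s.2.1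
  else if s.1 = 3 then mCallS S.s1 s.2.1 s.2.2.1 s.2.2.2.1 w b
  else if s.1 = 4 then mRetS s.2.1 (s.2.2.1.headD mDf) s.2.2.1.tail s.2.2.2.2
  else mGoS S.s2 S.out s.2.1 (s.2.2.1.headD mDf) s.2.2.1.tail

/-- address to read -/
def mRd (s : MSt) : ℕ := if s.1 ≤ 1 then s.1 else min (dec s.2.2.2.1.2 : ℕ) (s.2.1.1 + s.2.1.2.1 + 2)

/-- output -/
def mFin (s : MSt) : Option ℕ := if s.1 = 4 ∧ s.2.2.1 = [] then some (dec s.2.2.2.2) else none

/-- one step -/
def mStep (S : Scheme) (tgt : ℕ × ℕ → ℕ) (root : Par → Call) (mem : ℕ → ℕ) (s : MSt) (b : Bool) : MSt :=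
  if (mFin s).isSome then s else mNx S tgt root s (mem (mRd s)) b

/-- the machine -/
def mM (S : Scheme) (tgt : ℕ × ℕ → ℕ) (root : Par → Call) : RM :=
  ⟨enc (mIni 0 (0, 0, ⟨0⟩)), fun v => mRd (dec v), fun v w b => enc (mNx S tgt root (dec v) w b), fun v => mFin (dec v)⟩

theorem mach_go (S : Scheme) (tgt : ℕ × ℕ → ℕ) (root : Par → Call) (mem : ℕ → ℕ) (l : List Bool) :
    (mM S tgt root).go mem l = enc (l.foldl (mStep S tgt root mem) (mIni 0 (0, 0, ⟨0⟩))) := by
  have h : ∀ s : MSt, l.foldl ((mM S tgt root).step mem) (enc s) = enc (l.foldl (mStep S tgt root mem) s) := by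
    induction l with
    | nil => intro s; rfl
    | cons b l ih =>
      intro s
      rw [List.foldl_cons, List.foldl_cons, ← ih]
      congr 1
      simp only [RM.step, mM, mStep, dec_enc]
      split_ifs <;> rfl
  exact h _

section pt

variable {α : Type} [Enc α]

theorem mach_pt_go {s2 : Par → Call → List V → List Call} {out : Par → Call → List V → List V → V}
    (h2 : PT fun p : Par × Call × List V => s2 p.1 p.2.1 p.2.2)
    (h3 : PT fun p : Par × Call × List V × List V => out p.1 p.2.1 p.2.2.1 p.2.2.2) :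
    PT fun p : Par × MFr × List MFr => mGoS s2 out p.1 p.2.1 p.2.2 := by
  unfold mGoS mRet mGo mCall
  fun_prop

theorem mach_pt_ret : PT fun p : Par × MFr × List MFr × V => mRetS p.1 p.2.1 p.2.2.1 p.2.2.2 := by
  unfold mRetS mGo
  fun_prop

theorem mach_pt_call {s1 : Par → Call → List Call} (h1 : PT fun p : Par × Call => s1 p.1 p.2) :
    PT fun p : Par × List MFr × Call × ℕ × Bool => mCallS s1 p.1 p.2.1 p.2.2.1 p.2.2.2.1 p.2.2.2.2 := by
  unfold mCallS mRet mGo
  fun_prop

theorem mach_pt_pad {tgt : ℕ × ℕ → ℕ} (ht : PT tgt) {root : Par → Call} (hr : PT root) : PT (mPadS tgt root) := by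
  unfold mPadS mIni mCall
  fun_prop

theorem mach_pt_nx (S : Scheme) (h1 : PT fun p : Par × Call => S.s1 p.1 p.2)
    (h2 : PT fun p : Par × Call × List V => S.s2 p.1 p.2.1 p.2.2)
    (h3 : PT fun p : Par × Call × List V × List V => S.out p.1 p.2.1 p.2.2.1 p.2.2.2)
    {tgt : ℕ × ℕ → ℕ} (ht : PT tgt) {root : Par → Call} (hr : PT root) :
    PT fun p : MSt × ℕ × Bool => mNx S tgt root p.1 p.2.1 p.2.2 := by
  unfold mNx
  refine PT.ite (by fun_prop) (by unfold mIni; fun_prop) (PT.ite (by fun_prop) (by unfold mIni; fun_prop)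
    (PT.ite (by fun_prop) ((mach_pt_pad ht hr).comp (by fun_prop)) (PT.ite (by fun_prop) ?_
      (PT.ite (by fun_prop) ?_ ?_))))
  · exact (mach_pt_call h1).comp (f := fun p : MSt × ℕ × Bool => (p.1.2.1, p.1.2.2.1, p.1.2.2.2.1, p.2.1, p.2.2))
      (by fun_prop)
  · exact mach_pt_ret.comp
      (f := fun p : MSt × ℕ × Bool => (p.1.2.1, p.1.2.2.1.headD mDf, p.1.2.2.1.tail, p.1.2.2.2.2)) (by fun_prop)
  · exact (mach_pt_go h2 h3).comp
      (f := fun p : MSt × ℕ × Bool => (p.1.2.1, p.1.2.2.1.headD mDf, p.1.2.2.1.tail)) (by fun_prop)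

theorem mach_pt_rd : PT mRd := by
  unfold mRd
  fun_prop

theorem mach_pt_fin : PT mFin := by
  unfold mFin
  fun_prop

end pt

/-- size and address bound -/
def mJ (P : Par) (B T : ℕ) (s : MSt) : Prop := sz s ≤ 3 * B + T + 29 ∧ mRd s ≤ P.1 + P.2.1 + 2

/-- invariant of the states before the last one -/
def mI (P : Par) (B T : ℕ) (s : MSt) : Prop := mJ P B T s ∧ mFin s = none

/-- bound for the size of a frame -/
def mF (B : ℕ) : ℕ := B + 3 * (B * (B + 1) + 1) + 8

section run

variable {S : Scheme} {tgt : ℕ × ℕ → ℕ} {root : Par → Call} {mem : ℕ → ℕ} {P : Par} {B T : ℕ}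

theorem mach_J (hP : sz P ≤ B) {m : ℕ} (h2 : 2 ≤ m) (h5 : m ≤ 5) {stk : List MFr} (hs : sz stk ≤ T) {k : Call}
    (hk : sz k ≤ B + 3) {v : V} (hv : sz v ≤ B + 1) : mJ P B T (m, P, stk, k, v) := by
  refine ⟨?_, ?_⟩
  · have := sz_nat_le_self m
    simp only [sz_mk]
    omega
  · unfold mRd
    rw [if_neg (by simp only []; omega)]
    exact min_le_right _ _

theorem mach_k0 : sz ((0, .nil) : Call) ≤ B + 3 := by
  have := sz_nat_le_self 0
  simp only [sz_mk, sz_V, V.size_nil]
  omega

theorem mach_I_call (hP : sz P ≤ B) {stk : List MFr} (hs : sz stk ≤ T) {k : Call} (hk : sz k ≤ B) :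
    mI P B T (mCall P stk k) :=
  ⟨mach_J hP (by omega) (by omega) hs (by omega) (by simp), by simp [mFin, mCall]⟩

theorem mach_I_go (hP : sz P ≤ B) {stk : List MFr} (hs : sz stk ≤ T) : mI P B T (mGo P stk) :=
  ⟨mach_J hP (by omega) (by omega) hs mach_k0 (by simp), by simp [mFin, mGo]⟩

theorem mach_J_ret (hP : sz P ≤ B) {stk : List MFr} (hs : sz stk ≤ T) {v : V} (hv : sz v ≤ B) :
    mJ P B T (mRet P stk v) :=
  mach_J hP (by omega) (by omega) hs mach_k0 (by omega)

theorem mach_I_ret (hP : sz P ≤ B) {f : MFr} {stk : List MFr} (hs : sz (f :: stk) ≤ T) {v : V} (hv : sz v ≤ B) :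
    mI P B T (mRet P (f :: stk) v) :=
  ⟨mach_J_ret hP hs hv, by simp [mFin, mRet]⟩

theorem mach_l {γ : Type} [Enc γ] {l : List γ} (h : ∀ a ∈ l, sz a ≤ B) (hl : l.length ≤ B) :
    sz l ≤ B * (B + 1) + 1 :=
  (sz_list_le h).trans (Nat.add_le_add_right (Nat.mul_le_mul_right _ hl) 1)

theorem mach_fr {k : Call} (hk : sz k ≤ B) (st : Bool) {pend : List Call} {r1 acc : List V}
    (h1 : sz pend ≤ B * (B + 1) + 1) (h2 : sz r1 ≤ B * (B + 1) + 1) (h3 : sz acc ≤ B * (B + 1) + 1)
    (stk : List MFr) : sz (((k, st, pend, r1, acc) : MFr) :: stk) ≤ sz stk + mF B := by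
  have := sz_bool_le st
  simp only [sz_cons, sz_mk, mF]
  omega

theorem mach_szb {n c : ℕ} {k : Call} (h : S.Cst P n c k) (h' : S.Szb P (realPrim P mem) B n k) :
    1 ≤ c ∧ sz k ≤ B ∧ (S.eval P (realPrim P mem) n k).All fun v => sz v ≤ B := by
  cases n with
  | zero => exact h.elim
  | succ n => exact ⟨h.1, h'.1, h'.2.1⟩

theorem mach_list (hP : sz P ≤ B) {n : ℕ}
    (ih : ∀ (c : ℕ) (k : Call) (stk : List MFr), S.Cst P n c k → S.Szb P (realPrim P mem) B n k →
      sz stk + n * mF B ≤ T → MSim (mStep S tgt root mem) (mI P B T) (mRet P stk) (mCall P stk k)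
        (S.eval P (realPrim P mem) n k) (5 * c - 2))
    {k : Call} (hk : sz k ≤ B) (st : Bool) {r1 : List V} (h1 : sz r1 ≤ B * (B + 1) + 1) {stk : List MFr}
    (hs : sz stk + (n + 1) * mF B ≤ T) (f : Call → ℕ) : ∀ (pend : List Call) (acc : List V),
      (∀ k' ∈ pend, S.Cst P n (f k') k' ∧ S.Szb P (realPrim P mem) B n k') → acc.length + pend.length ≤ B →
      (∀ v ∈ acc, sz v ≤ B) →
      MSim (mStep S tgt root mem) (mI P B T) (fun r : List V => mGo P ((k, st, [], r1, acc ++ r) :: stk))
        (mGo P ((k, st, pend, r1, acc) :: stk)) (RT.seq (pend.map (S.eval P (realPrim P mem) n)))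
        (5 * (pend.map f).sum) := by
  intro pend
  induction pend with
  | nil =>
    intro acc _ _ _
    have := MSim.done (step := mStep S tgt root mem) (I := mI P B T)
      (g := fun r : List V => mGo P ((k, st, [], r1, acc ++ r) :: stk)) [] 0
    simpa using this
  | cons k' pend ihp =>
    intro acc hp hl ha
    rw [Nat.succ_mul] at hs
    obtain ⟨c1, z1, z2⟩ := mach_szb (hp k' (by simp)).1 (hp k' (by simp)).2
    have hz : ∀ k'' ∈ k' :: pend, sz k'' ≤ B := fun k'' h => (mach_szb (hp k'' h).1 (hp k'' h).2).2.1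
    rw [List.length_cons] at hl
    have f0 := mach_fr hk st (mach_l hz (by simp; omega)) h1 (mach_l ha (by omega)) stk
    have f1 := mach_fr hk st (mach_l (fun a h => hz a (List.mem_cons_of_mem _ h)) (by omega)) h1
      (mach_l ha (by omega)) stk
    have s1 := ih (f k') k' ((k, st, pend, r1, acc) :: stk) (hp k' (by simp)).1 (hp k' (by simp)).2 (by omega)
    have s2 := s1.bind (g' := fun r : List V => mGo P ((k, st, [], r1, acc ++ r) :: stk))
      (c' := 5 * (pend.map f).sum + 1)
      (F := fun a => (RT.seq (pend.map (S.eval P (realPrim P mem) n))).bind fun l => .pure (a :: l))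
      (z2.mono fun a hz => by
        refine .det _ (mGo P ((k, st, pend, r1, acc ++ [a]) :: stk)) _ _ (mach_I_ret hP (by omega) hz)
          (fun b => rfl) ?_
        have s3 := ihp (acc ++ [a]) (fun k'' h => hp k'' (List.mem_cons_of_mem _ h)) (by simp; omega)
          (fun v hv => (List.mem_append.1 hv).elim (ha v) fun h => by rw [List.mem_singleton.1 h]; exact hz)
        refine s3.bind (c' := 0) (RT.All_of_forall _ fun r => ?_) |>.mono (by omega)
        have := MSim.done (step := mStep S tgt root mem) (I := mI P B T)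
          (g := fun r : List V => mGo P ((k, st, [], r1, acc ++ r) :: stk)) (a :: r) 0
        simpa using this)
    refine (MSim.det _ _ _ _ (mach_I_go hP (by omega)) (fun b => rfl) s2).mono ?_
    simp only [List.map_cons, List.sum_cons]
    omega

theorem mach_call (hP : sz P ≤ B) (n : ℕ) : ∀ (c : ℕ) (k : Call) (stk : List MFr), S.Cst P n c k →
    S.Szb P (realPrim P mem) B n k → sz stk + n * mF B ≤ T →
      MSim (mStep S tgt root mem) (mI P B T) (mRet P stk) (mCall P stk k)
        (S.eval P (realPrim P mem) n k) (5 * c - 2) := by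
  induction n with
  | zero => intro c k stk h; exact h.elim
  | succ n ih =>
    intro c k stk hc hz hs
    have c1 := hc.1
    have i0 : mI P B T (mCall P stk k) := mach_I_call hP (by omega) hz.1
    have e0 : ∀ b, mStep S tgt root mem (mCall P stk k) b =
        mCallS S.s1 P stk k (mem (min (dec k.2 : ℕ) (P.1 + P.2.1 + 2))) b := fun b => rfl
    by_cases k0 : k.1 = 0
    · have e : S.eval P (realPrim P mem) (n + 1) k = .coin (.pure (enc false)) (.pure (enc true)) := by
        simp [Scheme.eval, realPrim, k0]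
      rw [e]
      refine (MSim.coin _ _ _ 0 i0 ?_ ?_).mono (by omega)
      · rw [e0, mCallS, if_pos k0]; exact .done _ _
      · rw [e0, mCallS, if_pos k0]; exact .done _ _
    by_cases k1 : k.1 = 1
    · have e : S.eval P (realPrim P mem) (n + 1) k = .pure (enc (mem (min (dec k.2 : ℕ) (P.1 + P.2.1 + 2)))) := by
        simp [Scheme.eval, realPrim, k1]
      rw [e]
      refine (MSim.det _ _ _ 0 i0 (fun b => ?_) (.done _ _)).mono (by omega)
      rw [e0, mCallS, if_neg k0, if_pos k1]
    have pn : realPrim P mem k = none := by simp [realPrim, k0, k1]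
    have e : S.eval P (realPrim P mem) (n + 1) k = S.body P (S.eval P (realPrim P mem) n) k := by
      simp [Scheme.eval, pn]
    obtain ⟨f1, g1, g2⟩ := hc.2.resolve_left (by omega)
    obtain ⟨l1, z1, z2⟩ := hz.2.2 pn
    have b0 : sz ([] : List V) ≤ B * (B + 1) + 1 := by simp
    have s1 := mach_list (tgt := tgt) (root := root) hP ih hz.1 false b0 hs f1 (S.s1 P k) []
      (fun k' h => ⟨g1 k' h, z1 k' h⟩) (by simpa using l1) (by simp)
    have a1 := RT.All_seq ((S.s1 P k).map (S.eval P (realPrim P mem) n)) (fun v => sz v ≤ B) (by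
      intro t ht
      obtain ⟨k', hk', rfl⟩ := List.mem_map.1 ht
      exact (mach_szb (g1 k' hk') (z1 k' hk')).2.2)
    have hs' := hs
    rw [Nat.succ_mul] at hs'
    have s2 := s1.bind (g' := mRet P stk) (c' := 5 * c - 3 - 5 * ((S.s1 P k).map f1).sum)
      (F := fun r1 => (RT.seq ((S.s2 P k r1).map (S.eval P (realPrim P mem) n))).bind fun r2 =>
        .pure (S.out P k r1 r2)) ((a1.and z2).mono fun r1 ⟨⟨y1, y2⟩, l2, y3⟩ => by
        obtain ⟨f2, g3, g4⟩ := g2 r1
        rw [List.length_map] at y1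
        have b1 := mach_l y2 (by omega)
        have s3 := mach_list (tgt := tgt) (root := root) hP ih hz.1 true b1 hs f2 (S.s2 P k r1) []
          (fun k' h => ⟨g3 k' h, y3 k' h⟩) (by simpa using l2) (by simp)
        have a2 := RT.All_seq ((S.s2 P k r1).map (S.eval P (realPrim P mem) n)) (fun v => sz v ≤ B) (by
          intro t ht
          obtain ⟨k', hk', rfl⟩ := List.mem_map.1 ht
          exact (mach_szb (g3 k' hk') (y3 k' hk')).2.2)
        have s4 := s3.bind (g' := mRet P stk) (c' := 1) (F := fun r2 => .pure (S.out P k r1 r2))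
          (a2.mono fun r2 ⟨y4, y5⟩ => by
            rw [List.length_map] at y4
            have f0 := mach_fr hz.1 true (pend := []) (by simp) b1 (mach_l y5 (by omega)) stk
            exact .det _ _ _ 0 (mach_I_go hP (by rw [List.nil_append]; omega)) (fun b => rfl) (.done _ _))
        have f0 := mach_fr hz.1 false (pend := []) (by simp) b0 b1 stk
        exact (MSim.det _ _ _ _ (mach_I_go hP (by rw [List.nil_append]; omega)) (fun b => rfl) s4).mono (by omega))
    rw [e]
    obtain ⟨f2, -, g4⟩ := g2 []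
    refine (MSim.det _ _ _ _ i0 (fun b => ?_) s2).mono (by omega)
    rw [e0, mCallS, if_neg k0, if_neg k1]

theorem mach_I_ini {x y t : ℕ} (hP : sz ((x, y, ⟨t⟩) : Par) ≤ B) {m x' y' t' : ℕ} (hm : m ≤ 2)
    (hx : x' = x ∨ (x' = 0 ∧ m ≤ 1)) (hy : y' = y ∨ (y' = 0 ∧ m ≤ 1)) (ht : t' ≤ t) (hT : 1 ≤ T) :
    mI (x, y, ⟨t⟩) B T (mIni m (x', y', ⟨t'⟩)) := by
  refine ⟨⟨?_, ?_⟩, by simp only [mFin, mIni]; rw [if_neg (by omega)]⟩
  · have h0 := sz_nat_le_self 0
    have h1 := sz_nat_le_self m
    have h2 := one_le_sz x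
    have h3 := one_le_sz y
    have h4 : sz x' ≤ sz x := by rcases hx with rfl | ⟨rfl, -⟩ <;> omega
    have h5 : sz y' ≤ sz y := by rcases hy with rfl | ⟨rfl, -⟩ <;> omega
    simp only [mIni, sz_mk, sz_un, sz_nil, sz_V, V.size_nil] at hP ⊢
    omega
  · simp only [mRd, mIni]
    split_ifs <;> omega

theorem mach_pad {x y : ℕ} (hP : sz ((x, y, ⟨tgt (x, y)⟩) : Par) ≤ B) (hT : 1 ≤ T) {g : V → MSt} {t : RT V} {c : ℕ}
    (h : MSim (mStep S tgt root mem) (mI (x, y, ⟨tgt (x, y)⟩) B T) g
      (mCall (x, y, ⟨tgt (x, y)⟩) [] (root (x, y, ⟨tgt (x, y)⟩))) t c) (j : ℕ) : ∀ i, i + j = tgt (x, y) →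
      MSim (mStep S tgt root mem) (mI (x, y, ⟨tgt (x, y)⟩) B T) g (mIni 2 (x, y, ⟨i⟩)) t (c + j + 1) := by
  have e0 : ∀ i b, mStep S tgt root mem (mIni 2 (x, y, ⟨i⟩)) b = mPadS tgt root (x, y, ⟨i⟩) := fun _ _ => rfl
  induction j with
  | zero =>
    intro i hi
    obtain rfl : i = tgt (x, y) := hi
    refine .det _ _ _ _ (mach_I_ini hP le_rfl (.inl rfl) (.inl rfl) le_rfl hT) (fun b => ?_) h
    rw [e0, mPadS, if_neg (lt_irrefl _)]
  | succ j ih =>
    intro i hi
    refine .det _ _ _ _ (mach_I_ini hP le_rfl (.inl rfl) (.inl rfl) (by omega) hT) (fun b => ?_)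
      (ih (i + 1) (by omega))
    rw [e0, mPadS, if_pos (show i < tgt (x, y) by omega)]

end run

/-- Construction.  The state is (the code of) a tuple `(mode, nx, ny, pad, stack, register)`.
Mode 0/1: read the cells `0` and `1`.  Mode 2: add one unit to the pad until it reaches
`tgt (nx, ny)`; then push the root call.  A frame is `(k, stage, pending, r1, r2)` (results in reverse
order).  One step: if a result is in the register, hand it to the top frame (or halt if the stack is
empty); otherwise look at the top frame: start the first pending call (a coin or a read puts its value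
in the register at once, any other call pushes the frame `(k', 1, s1 k', [], [])`); if nothing is pending,
go from stage 1 to stage 2 (`pending := s2 k r1`), or pop the frame and put `out k r1 r2` in the register.
Proof: induction on the depth `n`, for an arbitrary stack below, in continuation style: for every
`g` on bit lists, `Ex`-values are compared after padding with steps; it is convenient to define the
value of a state `s` as `Ex N (fun l => f (fin (run s l)))` for `N` large and to use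
`Ex (N+1) = ` average of one step.  At most three steps per node of the call tree. -/
theorem scheme_rm (S : Scheme) (h1 : PT fun p : Par × Call => S.s1 p.1 p.2)
    (h2 : PT fun p : Par × Call × List V => S.s2 p.1 p.2.1 p.2.2)
    (h3 : PT fun p : Par × Call × List V × List V => S.out p.1 p.2.1 p.2.2.1 p.2.2.2)
    (tgt : ℕ × ℕ → ℕ) (ht : PT tgt) (root : Par → Call) (hr : PT root) :
    ∃ (m : RM) (C : ℕ), (PT fun p : V × ℕ × Bool => m.nx p.1 p.2.1 p.2.2) ∧ PT m.rd ∧ PT m.fin ∧
      ∀ (mem : ℕ → ℕ) (P : Par) (n c B : ℕ), P = (mem 0, mem 1, ⟨tgt (mem 0, mem 1)⟩) →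
        S.Cst P n c (root P) → S.Szb P (realPrim P mem) B n (root P) → sz P ≤ B →
        (∀ l, sz (m.go mem l) ≤ C * (n + 1) * (B + 1) ^ 2) ∧
        (∀ l, m.rd (m.go mem l) ≤ P.1 + P.2.1 + 2) ∧
        (∀ l v, m.fin (m.go mem l) = some v → ∀ Q : V → Prop,
          (S.eval P (realPrim P mem) n (root P)).All Q → ∃ u, Q u ∧ v = dec u) ∧
        (∀ l, l.length = C * (c + P.2.2.n + 1) → (m.fin (m.go mem l)).isSome) ∧
        ∀ f : ℕ → ℝ, Ex (C * (c + P.2.2.n + 1)) (fun l => (m.fin (m.go mem l)).elim 0 f) =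
          (S.eval P (realPrim P mem) n (root P)).E fun u => f (dec u) := by
  refine ⟨mM S tgt root, 30, ?_, mach_pt_rd.comp (f := fun v : V => (dec v : MSt)) (by fun_prop),
    mach_pt_fin.comp (f := fun v : V => (dec v : MSt)) (by fun_prop), ?_⟩
  · exact ((mach_pt_nx S h1 h2 h3 ht hr).comp
      (f := fun p : V × ℕ × Bool => ((dec p.1 : MSt), p.2.1, p.2.2)) (by fun_prop)).enc
  rintro mem P n c B rfl hc hz hP
  obtain ⟨c1, -, z1⟩ := mach_szb hc hz
  have hT : 1 ≤ 1 + n * mF B := by omega
  have s1 := mach_call (tgt := tgt) (root := root) (T := 1 + n * mF B) hP n c _ [] hc hz (by simp)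
  have s2 := mach_pad hP hT s1 _ 0 (Nat.zero_add _)
  have s3 := MSim.det (mIni 1 (mem 0, 0, ⟨0⟩)) _ _ _
    (mach_I_ini hP (by omega) (.inl rfl) (.inr ⟨rfl, le_rfl⟩) (Nat.zero_le _) hT) (fun b => rfl) s2
  have s4 := MSim.det (mIni 0 (0, 0, ⟨0⟩)) _ _ _
    (mach_I_ini hP (by omega) (.inr ⟨rfl, by omega⟩) (.inr ⟨rfl, by omega⟩) (Nat.zero_le _) hT) (fun b => rfl) s3
  have hg : ∀ (P : Par) (a : V) (b : Bool), mStep S tgt root mem (mRet P [] a) b = mRet P [] a := fun _ _ _ => rfl
  have hf : ∀ (P : Par) (a : V), mFin (mRet P [] a) = some (dec a) := fun _ _ => rfl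
  have hi := s4.inv (hg _)
  have hJ : ∀ l : List Bool, mJ (mem 0, mem 1, ⟨tgt (mem 0, mem 1)⟩) B (1 + n * mF B)
      (l.foldl (mStep S tgt root mem) (mIni 0 (0, 0, ⟨0⟩))) := by
    intro l
    rcases hi l with h | ⟨a, ha, e⟩
    · exact h.1.1
    · rw [e]
      exact mach_J_ret hP (by simp) (ha _ z1)
  have e1 : ∀ s : MSt, (mM S tgt root).rd (enc s) = mRd s := fun s => by simp only [mM, dec_enc]
  have e2 : ∀ s : MSt, (mM S tgt root).fin (enc s) = mFin s := fun s => by simp only [mM, dec_enc]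
  simp only [mach_go, e1, e2]
  refine ⟨fun l => (hJ l).1.trans ?_, fun l => (hJ l).2, fun l v hv Q hQ => ?_, fun l hl => ?_, fun f => ?_⟩
  · unfold mF
    nlinarith [Nat.zero_le (n * B), Nat.zero_le (n * B * B), Nat.zero_le (B * B)]
  · rcases hi l with h | ⟨a, ha, e⟩
    · rw [h.1.2] at hv
      cases hv
    · rw [e, hf] at hv
      exact ⟨a, ha Q hQ, (Option.some.inj hv).symm⟩
  · rcases hi l with h | ⟨a, ha, e⟩
    · have := h.2
      omega
    · rw [e, hf]
      rfl
  · exact s4.ex (hg _) (fun s => (mFin s).elim 0 f) _ (by omega)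

end Crest.Agent.R288
end

-- ▼ part PVb/R288/PTa
section

/-!
# R288: polynomial time of the pure functions, part a

Hints: `unfold …; fun_prop` usually works; `fun_prop` may loop on `2 * _` and `2 ^ _` when a definition is
reducible (use `PT.nat_mul`, `PT.nat_pow` by hand, or mark proved definitions `attribute [local irreducible]`);
always run with a timeout.  `PB` (polynomially bounded value) is needed for `List.range`, `List.replicate`,
`Un.mk` and exponents; `min _ x` needs `PB.min_left/right`.  Folds: `Lib/PT/Fold.lean`, `Lib/PT/List.lean`.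
-/

set_option autoImplicit false

namespace Crest.Agent.R288

open Crest.Agent.Lib.PT

variable {α : Type} [Enc α]

@[fun_prop] theorem mn_pt {l : α → List ℕ} (hl : PT l) : PT fun a => mn (l a) := by
  unfold mn
  fun_prop
attribute [local irreducible] mn

@[fun_prop] theorem omin_pt {x : α → ℕ} {l : α → List (Option ℕ)} (hx : PT x) (hl : PT l) : PT fun
    a => omin (x a) (l a) := by
  unfold omin
  refine PT.foldl_grow (G := fun p => sz p.2) hl hx (by fun_prop) (by fun_prop) fun a c b _ => ?_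
  cases b with
  | none => simp
  | some b =>
    simp only [Option.elim_some, sz_some]
    rcases min_choice c b with h | h <;> rw [h] <;> omega
attribute [local irreducible] omin

@[fun_prop] theorem dist1_pt {s : α → ℤ × ℤ} {s2 : α → ℤ × ℤ} (hs : PT s) (hs2 : PT s2) : PT fun a
    => dist1 (s a) (s2 a) := by
  unfold dist1
  fun_prop
attribute [local irreducible] dist1

@[fun_prop] theorem rdn_pt {g : α → ℕ} {z : α → ℤ} (hg : PT g) (hz : PT z) : PT fun a => rdn (g a)
    (z a) := by
  unfold rdn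
  fun_prop
attribute [local irreducible] rdn

@[fun_prop] theorem cw_pt {c : α → Ctx} (hc : PT c) : PT fun a => cw (c a) := by
  unfold cw
  fun_prop
attribute [local irreducible] cw

@[fun_prop] theorem om_pt {c : α → Ctx} (hc : PT c) : PT fun a => om (c a) := by
  unfold om
  fun_prop
attribute [local irreducible] om

@[fun_prop] theorem cap_pt {P : α → Par} {c : α → Ctx} (hP : PT P) (hc : PT c) : PT fun a => cap
    (P a) (c a) := by
  unfold cap
  fun_prop
attribute [local irreducible] cap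

@[fun_prop] theorem capc_pt {P : α → Par} {c : α → Option Ctx} {v : α → ℕ} (hP : PT P) (hc : PT c)
    (hv : PT v) : PT fun a => capc (P a) (c a) (v a) := by
  unfold capc
  fun_prop
attribute [local irreducible] capc

@[fun_prop] theorem pz_pt {pl : α → Plan} {j : α → ℕ} (hpl : PT pl) (hj : PT j) : PT fun a => pz
    (pl a) (j a) := by
  unfold pz
  fun_prop
attribute [local irreducible] pz

@[fun_prop] theorem pc_pt {pl : α → Plan} {j : α → ℕ} (hpl : PT pl) (hj : PT j) : PT fun a => pc
    (pl a) (j a) := by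
  unfold pc
  fun_prop
attribute [local irreducible] pc

@[fun_prop] theorem junc_pt {P : α → Par} {pl : α → Plan} {x : α → ℤ} {y : α → ℤ} (hP : PT P)
    (hpl : PT pl) (hx : PT x) (hy : PT y) : PT fun a => junc (P a) (pl a) (x a) (y a) := by
  unfold junc
  fun_prop
attribute [local irreducible] junc

@[fun_prop] theorem cjunc_pt {P : α → Par} {pl : α → Plan} (hP : PT P) (hpl : PT pl) : PT fun a =>
    cjunc (P a) (pl a) := by
  unfold cjunc
  fun_prop
attribute [local irreducible] cjunc

@[fun_prop] theorem cends_pt {P : α → Par} {pl : α → Plan} (hP : PT P) (hpl : PT pl) : PT fun a =>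
    cends (P a) (pl a) := by
  unfold cends
  fun_prop
attribute [local irreducible] cends

@[fun_prop] theorem blkP_pt {P : α → Par} {hb : α → ℕ} {p : α → ℕ} (hP : PT P) (hhb : PT hb)
    (hp : PT p) : PT fun a => blkP (P a) (hb a) (p a) := by
  unfold blkP
  fun_prop
attribute [local irreducible] blkP

@[fun_prop] theorem omg_pt {P : α → Par} {pl : α → Plan} {hb : α → ℕ} {p : α → ℕ} (hP : PT P)
    (hpl : PT pl) (hhb : PT hb) (hp : PT p) : PT fun a => omg (P a) (pl a) (hb a) (p a) := by
  unfold omg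
  fun_prop
attribute [local irreducible] omg

@[fun_prop] theorem phs_pt {P : α → Par} {t : α → ℕ} (hP : PT P) (ht : PT t) : PT fun a => phs
    (P a) (t a) := by
  unfold phs
  fun_prop
attribute [local irreducible] phs

@[fun_prop] theorem nIn_pt {P : α → Par} {t : α → ℕ} (hP : PT P) (ht : PT t) : PT fun a => nIn
    (P a) (t a) := by
  unfold nIn
  fun_prop

@[fun_prop] theorem nIn_pb {P : α → Par} {t : α → ℕ} (hP : PT P) (ht : PT t) : PB fun a => nIn
    (P a) (t a) := by
  unfold nIn
  exact PB.min_right _ (by fun_prop)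
attribute [local irreducible] nIn

@[fun_prop] theorem wnd_pt {P : α → Par} {t : α → ℕ} {k : α → ℕ} (hP : PT P) (ht : PT t)
    (hk : PT k) : PT fun a => wnd (P a) (t a) (k a) := by
  unfold wnd
  fun_prop
attribute [local irreducible] wnd

@[fun_prop] theorem rnk_pt {P : α → Par} {t : α → ℕ} {k : α → ℕ} (hP : PT P) (ht : PT t)
    (hk : PT k) : PT fun a => rnk (P a) (t a) (k a) := by
  unfold rnk
  fun_prop
attribute [local irreducible] rnk

@[fun_prop] theorem gsp_pt {P : α → Par} {σ : α → ℕ} (hP : PT P) (hσ : PT σ) : PT fun a => gsp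
    (P a) (σ a) := by
  unfold gsp
  fun_prop
attribute [local irreducible] gsp

@[fun_prop] theorem zgrid_pt {P : α → Par} {x : α → ℤ} {σ : α → ℕ} (hP : PT P) (hx : PT x)
    (hσ : PT σ) : PT fun a => zgrid (P a) (x a) (σ a) := by
  unfold zgrid
  fun_prop
attribute [local irreducible] zgrid

@[fun_prop] theorem wlv_pt {P : α → Par} {σ : α → ℕ} {lv : α → ℕ} (hP : PT P) (hσ : PT σ)
    (hlv : PT lv) : PT fun a => wlv (P a) (σ a) (lv a) := by
  unfold wlv
  fun_prop
attribute [local irreducible] wlv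

@[fun_prop] theorem ctxAt_pt {P : α → Par} {σ : α → ℕ} {lv : α → ℕ} {x : α → ℤ} {y : α → ℤ}
    (hP : PT P) (hσ : PT σ) (hlv : PT lv) (hx : PT x) (hy : PT y) : PT fun a => ctxAt (P a) (σ a)
    (lv a) (x a) (y a) := by
  unfold ctxAt
  fun_prop
attribute [local irreducible] ctxAt

@[fun_prop] theorem tget_pt {Zs : α → List ℤ} {tab : α → Tab} {j : α → ℕ} {x : α → ℤ} {y : α → ℤ}
    (hZs : PT Zs) (htab : PT tab) (hj : PT j) (hx : PT x) (hy : PT y) : PT fun a => tget (Zs a)
    (tab a) (j a) (x a) (y a) := by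
  unfold tget
  fun_prop
attribute [local irreducible] tget

@[fun_prop] theorem optz_pt {P : α → Par} {pl : α → Plan} {hb : α → ℕ} {p : α → ℕ} {k : α → ℕ}
    (hP : PT P) (hpl : PT pl) (hhb : PT hb) (hp : PT p) (hk : PT k) : PT fun a => optz (P a)
    (pl a) (hb a) (p a) (k a) := by
  unfold optz
  fun_prop
attribute [local irreducible] optz

@[fun_prop] theorem sclS_pt {P : α → Par} {C : α → ℕ} {j : α → ℕ} (hP : PT P) (hC : PT C)
    (hj : PT j) : PT fun a => sclS (P a) (C a) (j a) := by
  unfold sclS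
  exact PT.nat_div (PT.nat_pow (PT.const 2) (by fun_prop)
    (PB.add (by fun_prop) (PB.min_right _ (by fun_prop)))) (by fun_prop)
attribute [local irreducible] sclS

@[fun_prop] theorem sclC_pt {P : α → Par} {c : α → Ctx} {j : α → ℕ} (hP : PT P) (hc : PT c)
    (hj : PT j) : PT fun a => sclC (P a) (c a) (j a) := by
  unfold sclC
  exact PT.nat_div (PT.nat_mul (by fun_prop) (PT.nat_pow (PT.const 2) (by fun_prop)
    (PB.min_right _ (by fun_prop)))) (by fun_prop)
attribute [local irreducible] sclC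

@[fun_prop] theorem tabKeys_pt {P : α → Par} {c : α → Ctx} {σ : α → ℕ} {lv : α → ℕ} (hP : PT P)
    (hc : PT c) (hσ : PT σ) (hlv : PT lv) : PT fun a => tabKeys (P a) (c a) (σ a) (lv a) := by
  unfold tabKeys
  fun_prop
attribute [local irreducible] tabKeys

@[fun_prop] theorem qbits_pt {P : α → Par} {ω : α → ℕ} (hP : PT P) (hω : PT ω) : PT fun a => qbits
    (P a) (ω a) := by
  unfold qbits
  fun_prop

@[fun_prop] theorem qbits_pb {P : α → Par} {ω : α → ℕ} (hP : PT P) (hω : PT ω) : PB fun a => qbits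
    (P a) (ω a) := by
  unfold qbits
  exact PB.add (PB.min_right _ (by fun_prop)) (by fun_prop)
attribute [local irreducible] qbits

@[fun_prop] theorem hval_pt {s : α → ℤ × ℤ} {h : α → Hnt} (hs : PT s) (hh : PT h) : PT fun a =>
    hval (s a) (h a) := by
  unfold hval
  fun_prop
attribute [local irreducible] hval

@[fun_prop] theorem pastOut_pt {A : α → List ℕ} {B : α → List ℕ} (hA : PT A) (hB : PT B) : PT fun
    a => pastOut (A a) (B a) := by
  unfold pastOut
  fun_prop
attribute [local irreducible] pastOut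

end Crest.Agent.R288
end

-- ▼ part PVb/R288/PTd
section

/-!
# R288: polynomial time of the calls

Hints: `unfold …; fun_prop` usually works; `fun_prop` may loop on `2 * _` and `2 ^ _` when a definition is
reducible (use `PT.nat_mul`, `PT.nat_pow` by hand, or mark proved definitions `attribute [local irreducible]`);
always run with a timeout.  `PB` (polynomially bounded value) is needed for `List.range`, `List.replicate`,
`Un.mk` and exponents; `min _ x` needs `PB.min_left/right`.  Folds: `Lib/PT/Fold.lean`, `Lib/PT/List.lean`.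
-/

set_option autoImplicit false

namespace Crest.Agent.R288

open Crest.Agent.Lib.PT

set_option maxHeartbeats 100000

variable {α : Type} [Enc α]

@[fun_prop] theorem cRead_pt {x : α → ℕ} (hx : PT x) : PT fun a => cRead (x a) := by
  unfold cRead; fun_prop

@[fun_prop] theorem cRnd_pt {e : α → ℕ} (he : PT e) (be : PB e) : PT fun a => cRnd (e a) := by
  unfold cRnd; fun_prop

@[fun_prop] theorem cAvg_pt {k : α → Call} {e : α → ℕ} (hk : PT k) (he : PT e) : PT fun a => cAvg
    (k a) (e a) := by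
  unfold cAvg; fun_prop

@[fun_prop] theorem cVec_pt {ks : α → List Call} (hks : PT ks) : PT fun a => cVec (ks a) := by
  unfold cVec; fun_prop

@[fun_prop] theorem cSum_pt {ks : α → List Call} (hks : PT ks) : PT fun a => cSum (ks a) := by
  unfold cSum; fun_prop

@[fun_prop] theorem cRow_pt {e : α → ℕ} {i : α → ℕ} {x : α → ℤ} {κ : α → Un} {row : α → List ℕ}
    (he : PT e) (hi : PT i) (hx : PT x) (hκ : PT κ) (hrow : PT row) (be : PB e) : PT fun a => cRow
    (e a) (i a) (x a) (κ a) (row a) := by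
  unfold cRow; fun_prop

@[fun_prop] theorem cSmall_pt {e : α → ℕ} {i : α → ℕ} {x : α → ℤ} {y : α → ℤ} {κ : α → ℕ}
    (he : PT e) (hi : PT i) (hx : PT x) (hy : PT y) (hκ : PT κ) (be : PB e) (bκ : PB κ) : PT fun a
    => cSmall (e a) (i a) (x a) (y a) (κ a) := by
  unfold cSmall; fun_prop

@[fun_prop] theorem cOrc_pt {e : α → ℕ} {i : α → ℕ} {x : α → ℤ} {y : α → ℤ} (he : PT e)
    (hi : PT i) (hx : PT x) (hy : PT y) (be : PB e) : PT fun a => cOrc (e a) (i a) (x a) (y a) :=
    by
  unfold cOrc; fun_prop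

@[fun_prop] theorem cGap_pt {e : α → ℕ} {i : α → ℕ} {x : α → ℤ} {y : α → ℤ} {κ : α → ℕ}
    (he : PT e) (hi : PT i) (hx : PT x) (hy : PT y) (hκ : PT κ) (be : PB e) : PT fun a => cGap
    (e a) (i a) (x a) (y a) (κ a) := by
  unfold cGap; fun_prop

@[fun_prop] theorem cGRaw_pt {e : α → ℕ} {i : α → ℕ} {x : α → ℤ} {κ : α → ℕ} (he : PT e)
    (hi : PT i) (hx : PT x) (hκ : PT κ) (be : PB e) : PT fun a => cGRaw (e a) (i a) (x a) (κ a) :=
    by
  unfold cGRaw; fun_prop

@[fun_prop] theorem cGDraw_pt {e : α → ℕ} {i : α → ℕ} {x : α → ℤ} {κ : α → ℕ} {eb : α → ℕ}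
    {l : α → ℕ} (he : PT e) (hi : PT i) (hx : PT x) (hκ : PT κ) (heb : PT eb) (hl : PT l)
    (be : PB e) : PT fun a => cGDraw (e a) (i a) (x a) (κ a) (eb a) (l a) := by
  unfold cGDraw; fun_prop

@[fun_prop] theorem cTop_pt {r : α → ℕ} {i : α → ℕ} {s : α → ℤ × ℤ} {c : α → Option Ctx}
    {t : α → ℕ} (hr : PT r) (hi : PT i) (hs : PT s) (hc : PT c) (ht : PT t) (br : PB r) : PT fun a
    => cTop (r a) (i a) (s a) (c a) (t a) := by
  unfold cTop; fun_prop

@[fun_prop] theorem cTopp_pt {r : α → ℕ} {i : α → ℕ} {s : α → ℤ × ℤ} {c : α → Option Ctx}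
    {t : α → ℕ} (hr : PT r) (hi : PT i) (hs : PT s) (hc : PT c) (ht : PT t) (br : PB r) : PT fun a
    => cTop' (r a) (i a) (s a) (c a) (t a) := by
  unfold cTop'; fun_prop

@[fun_prop] theorem cGVal_pt {r : α → ℕ} {i : α → ℕ} {s : α → ℤ × ℤ} {σ : α → ℕ} {t : α → ℕ}
    (hr : PT r) (hi : PT i) (hs : PT s) (hσ : PT σ) (ht : PT t) (br : PB r) : PT fun a => cGVal
    (r a) (i a) (s a) (σ a) (t a) := by
  unfold cGVal; fun_prop

@[fun_prop] theorem cPlan_pt {r : α → ℕ} {i : α → ℕ} {s : α → ℤ × ℤ} {σ : α → ℕ} {t : α → ℕ}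
    (hr : PT r) (hi : PT i) (hs : PT s) (hσ : PT σ) (ht : PT t) (br : PB r) : PT fun a => cPlan
    (r a) (i a) (s a) (σ a) (t a) := by
  unfold cPlan; fun_prop

@[fun_prop] theorem cSVal_pt {r : α → ℕ} {i : α → ℕ} {s : α → ℤ × ℤ} {σ : α → ℕ} {t : α → ℕ}
    (hr : PT r) (hi : PT i) (hs : PT s) (hσ : PT σ) (ht : PT t) (br : PB r) : PT fun a => cSVal
    (r a) (i a) (s a) (σ a) (t a) := by
  unfold cSVal; fun_prop

@[fun_prop] theorem cSN_pt {r : α → ℕ} {i : α → ℕ} {pl : α → Plan} {hb : α → ℕ} {p : α → ℕ}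
    {s : α → ℤ × ℤ} {k : α → ℕ} {q : α → ℕ} {t : α → ℕ} (hr : PT r) (hi : PT i) (hpl : PT pl)
    (hhb : PT hb) (hp : PT p) (hs : PT s) (hk : PT k) (hq : PT q) (ht : PT t) (br : PB r) : PT fun
    a => cSN (r a) (i a) (pl a) (hb a) (p a) (s a) (k a) (q a) (t a) := by
  unfold cSN; fun_prop

@[fun_prop] theorem cPast_pt {r : α → ℕ} {i : α → ℕ} {c : α → Ctx} {t : α → ℕ} (hr : PT r)
    (hi : PT i) (hc : PT c) (ht : PT t) (br : PB r) : PT fun a => cPast (r a) (i a) (c a) (t a) :=
    by
  unfold cPast; fun_prop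

@[fun_prop] theorem cFix_pt {r : α → ℕ} {i : α → ℕ} {c : α → Ctx} {t : α → ℕ} (hr : PT r)
    (hi : PT i) (hc : PT c) (ht : PT t) (br : PB r) : PT fun a => cFix (r a) (i a) (c a) (t a) :=
    by
  unfold cFix; fun_prop

@[fun_prop] theorem cCom_pt {r : α → ℕ} {i : α → ℕ} {c : α → Ctx} {t : α → ℕ} (hr : PT r)
    (hi : PT i) (hc : PT c) (ht : PT t) (br : PB r) : PT fun a => cCom (r a) (i a) (c a) (t a) :=
    by
  unfold cCom; fun_prop

@[fun_prop] theorem cHint_pt {r : α → ℕ} {i : α → ℕ} {c : α → Ctx} {σ : α → ℕ}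
    {pls : α → List (Option Plan)} {t : α → ℕ} (hr : PT r) (hi : PT i) (hc : PT c) (hσ : PT σ)
    (hpls : PT pls) (ht : PT t) (br : PB r) : PT fun a => cHint (r a) (i a) (c a) (σ a) (pls a)
    (t a) := by
  unfold cHint; fun_prop

@[fun_prop] theorem cDraw_pt {r : α → ℕ} {i : α → ℕ} {c : α → Ctx} {σ : α → ℕ} {lv : α → ℕ}
    {t : α → ℕ} (hr : PT r) (hi : PT i) (hc : PT c) (hσ : PT σ) (hlv : PT lv) (ht : PT t)
    (br : PB r) : PT fun a => cDraw (r a) (i a) (c a) (σ a) (lv a) (t a) := by
  unfold cDraw; fun_prop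

@[fun_prop] theorem cTab_pt {P : α → Par} {r : α → ℕ} {i : α → ℕ} {Zs : α → List ℤ} {t : α → ℕ}
    (hP : PT P) (hr : PT r) (hi : PT i) (hZs : PT Zs) (ht : PT t) (br : PB r) : PT fun a => cTab
    (P a) (r a) (i a) (Zs a) (t a) := by
  unfold cTab; fun_prop

@[fun_prop] theorem cSRoot_pt {P : α → Par} {r : α → ℕ} {i : α → ℕ} {pl : α → Plan} {t : α → ℕ}
    (hP : PT P) (hr : PT r) (hi : PT i) (hpl : PT pl) (ht : PT t) (br : PB r) : PT fun a => cSRoot
    (P a) (r a) (i a) (pl a) (t a) := by
  unfold cSRoot; fun_prop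

@[fun_prop] theorem cCent_pt {P : α → Par} {r : α → ℕ} {i : α → ℕ} {pl : α → Plan} {t : α → ℕ}
    (hP : PT P) (hr : PT r) (hi : PT i) (hpl : PT pl) (ht : PT t) (br : PB r) : PT fun a => cCent
    (P a) (r a) (i a) (pl a) (t a) := by
  unfold cCent; fun_prop

@[fun_prop] theorem rd_pt {β : Type} [Enc β] [Dec β] {r : α → List V} {n : α → ℕ} (hr : PT r)
    (hn : PT n) : PT fun a => (rd (r a) (n a) : β) := by
  unfold rd; fun_prop

@[fun_prop] theorem rds_pt {β : Type} [Enc β] [Dec β] {r : α → List V} (hr : PT r) :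
    PT fun a => (rds (r a) : List β) := by
  unfold rds; fun_prop

theorem root_pt : PT root := by
  unfold root; fun_prop

end Crest.Agent.R288
end

-- ▼ part PVb/R288/PTb
section

/-!
# R288: polynomial time of the pure functions, part b (dynamic programme, plan)

Hints: `unfold …; fun_prop` usually works; `fun_prop` may loop on `2 * _` and `2 ^ _` when a definition is
reducible (use `PT.nat_mul`, `PT.nat_pow` by hand, or mark proved definitions `attribute [local irreducible]`);
always run with a timeout.  `PB` (polynomially bounded value) is needed for `List.range`, `List.replicate`,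
`Un.mk` and exponents; `min _ x` needs `PB.min_left/right`.  Folds: `Lib/PT/Fold.lean`, `Lib/PT/List.lean`.
Sizes: an entry of `gL` grows additively per child; `zp` is an iteration over `d` (for `k = 1..d` the node
index is `p / 2^(d-k)`), its components are always members of `Zs` or components of `e`.
-/

set_option autoImplicit false

namespace Crest.Agent.R288

open Crest.Agent.Lib.PT

variable {α : Type} [Enc α]

attribute [local irreducible] mn rdn cw om cap blkP gsp zgrid ctxAt tget

set_option maxHeartbeats 100000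

theorem mn_lt_of {l : List ℕ} {B : ℕ} (hB : 0 < B) (h : ∀ x ∈ l, x < B) : mn l < B := by
  unfold mn
  rcases e : l.argmin id with _ | x
  · simpa using hB
  · exact h x (List.argmin_mem e)

theorem gat_lt {Zs : List ℤ} {m : List (List ℕ)} {f : List ℕ} {z : ℤ} {A B : ℕ}
    (hB : 0 < B) (hz : z.natAbs < A) (hZs : ∀ x ∈ Zs, x.natAbs < A)
    (hm : ∀ r ∈ m, ∀ x ∈ r, x < A) (hf : ∀ x ∈ f, x < B) : gat Zs m f z < 3 * A + B := by
  unfold gat
  refine mn_lt_of (by omega) fun x hx => ?_
  obtain ⟨p, hp, hx⟩ := List.mem_flatMap.1 hx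
  obtain ⟨q, hq, rfl⟩ := List.mem_map.1 hx
  obtain ⟨p1, p2⟩ := p
  obtain ⟨q1, q2⟩ := q
  have h1 := List.of_mem_zip hp
  have h2 := List.of_mem_zip hq
  have h3 := hZs _ h1.1
  have h4 := hm _ h1.2 _ h2.1
  have h5 := hf _ h2.2
  have h6 := Int.natAbs_sub_le z p1
  simp only []
  omega

theorem midz_mem (P : Par) (Zs : List ℤ) (tabs : List Tab) (hb p : ℕ) (zl zr : ℤ) :
    midz P Zs tabs hb p zl zr ∈ Zs ∨ midz P Zs tabs hb p zl zr = zl := by
  unfold midz
  rcases e : List.argmin (fun z => |psi P Zs tabs hb p zl zr z|)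
    (Zs.filter fun z => decide (min zl zr ≤ z ∧ z ≤ max zl zr)) with _ | x
  · right; rfl
  · left; exact (List.mem_filter.1 (List.argmin_mem e)).1

theorem zp_sz (P : Par) (Zs : List ℤ) (tabs : List Tab) (e : ℤ × ℤ) (d : ℕ) : ∀ p : ℕ,
    sz (zp P Zs tabs e d p).1 ≤ sz Zs + sz e ∧ sz (zp P Zs tabs e d p).2 ≤ sz Zs + sz e := by
  induction d with
  | zero => intro p; have := sz_prod e; simp only [zp]; omega
  | succ d ih =>
    intro p
    have h1 := ih (p / 2)
    have h2 : sz (midz P Zs tabs (P.L - d - 1) (p / 2) (zp P Zs tabs e d (p / 2)).1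
        (zp P Zs tabs e d (p / 2)).2) ≤ sz Zs + sz e := by
      rcases midz_mem P Zs tabs (P.L - d - 1) (p / 2) (zp P Zs tabs e d (p / 2)).1
        (zp P Zs tabs e d (p / 2)).2 with h | h
      · have := sz_le_of_mem h; omega
      · rw [h]; exact h1.1
    simp only [zp]
    split_ifs
    · exact ⟨h1.1, h2⟩
    · exact ⟨h2, h1.2⟩

@[fun_prop] theorem gat_pt {Zs : α → List ℤ} {m : α → List (List ℕ)} {f : α → List ℕ} {z : α → ℤ}
    (hZs : PT Zs) (hm : PT m) (hf : PT f) (hz : PT z) : PT fun a => gat (Zs a) (m a) (f a) (z a)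
    := by
  unfold gat; fun_prop

attribute [local irreducible] gat

@[fun_prop] theorem gL_pt {Zs : α → List ℤ} {tab : α → Tab} {js : α → List ℕ} {z : α → ℤ}
    (hZs : PT Zs) (htab : PT tab) (hjs : PT js) (hz : PT z) : PT fun a => gL (Zs a) (tab a) (js a)
    (z a) := by
  unfold gL
  refine PT.foldr_inv (f := fun a j f => (Zs a).map (gat (Zs a) ((tab a).getD j []) f))
    (fun a k c => c.length = (Zs a).length ∧
      ∀ x ∈ c, x < 2 ^ (sz (Zs a) + sz (tab a) + sz (z a) + 2 + k))
    hjs (by fun_prop) (fun a => ⟨by simp, fun x hx => ?_⟩) (fun a k c j _ _ h => ⟨by simp, ?_⟩)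
    (PT.restrict (f := fun p : α × ℕ × List ℕ =>
      (Zs p.1).map (gat (Zs p.1) ((tab p.1).getD p.2.1 []) p.2.2)) (by fun_prop) _)
    (B := fun a => (Zs a).length *
      (4 * (sz (Zs a) + sz (tab a) + sz (z a) + 2 + (js a).length) + 1 + 1) + 1) (by fun_prop)
    fun a k c hk h => ?_
  · obtain ⟨w, hw, rfl⟩ := List.mem_map.1 hx
    have h1 := natAbs_lt_two_pow_sz w
    have h2 := natAbs_lt_two_pow_sz (z a)
    have h3 := sz_le_of_mem hw
    have h4 := Int.natAbs_sub_le w (z a)
    have h5 : 2 ^ sz w ≤ 2 ^ (sz (Zs a) + sz (tab a) + sz (z a)) :=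
      Nat.pow_le_pow_right (by omega) (by omega)
    have h6 : 2 ^ sz (z a) ≤ 2 ^ (sz (Zs a) + sz (tab a) + sz (z a)) :=
      Nat.pow_le_pow_right (by omega) (by omega)
    rw [Nat.add_zero, pow_add]
    omega
  · intro x hx
    obtain ⟨w, hw, rfl⟩ := List.mem_map.1 hx
    have hZ : ∀ x ∈ Zs a, x.natAbs < 2 ^ (sz (Zs a) + sz (tab a) + sz (z a)) := fun x hx =>
      (natAbs_lt_two_pow_sz x).trans_le (Nat.pow_le_pow_right (by omega)
        (by have := sz_le_of_mem hx; omega))
    have hm : sz ((tab a).getD j []) ≤ sz (tab a) := by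
      rw [List.getD_eq_getElem?_getD]
      rcases e : (tab a)[j]? with _ | m
      · simpa using one_le_sz (tab a)
      · exact sz_le_of_mem (List.mem_of_getElem? e)
    have h1 := gat_lt (Zs := Zs a) (m := (tab a).getD j []) (f := c) (z := w)
      (A := 2 ^ (sz (Zs a) + sz (tab a) + sz (z a))) (by positivity) (hZ w hw) hZ
      (fun r hr x hx => (lt_two_pow_sz x).trans_le (Nat.pow_le_pow_right (by omega)
        (by have := sz_le_of_mem hx; have := sz_le_of_mem hr; omega))) h.2
    have h2 : 2 ^ (sz (Zs a) + sz (tab a) + sz (z a) + 2) ≤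
        2 ^ (sz (Zs a) + sz (tab a) + sz (z a) + 2 + k) :=
      Nat.pow_le_pow_right (by omega) (by omega)
    rw [← Nat.add_assoc, pow_succ]
    rw [pow_add _ _ 2] at h2
    omega
  · have h1 := sz_list_le (l := c)
      (B := 4 * (sz (Zs a) + sz (tab a) + sz (z a) + 2 + (js a).length) + 1) fun x hx =>
        sz_nat_le_of_lt ((h.2 x hx).trans_le (Nat.pow_le_pow_right (by omega) (by omega)))
    rw [h.1] at h1
    exact h1

attribute [local irreducible] gL

@[fun_prop] theorem gN_pt {Zs : α → List ℤ} {tab : α → Tab} {js : α → List ℕ} {x : α → ℤ}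
    {y : α → ℤ} (hZs : PT Zs) (htab : PT tab) (hjs : PT js) (hx : PT x) (hy : PT y) : PT fun a =>
    gN (Zs a) (tab a) (js a) (x a) (y a) := by
  unfold gN; fun_prop

attribute [local irreducible] gN

@[fun_prop] theorem gS_pt {P : α → Par} {Zs : α → List ℤ} {tabs : α → List Tab} {hb : α → ℕ}
    {p : α → ℕ} {x : α → ℤ} {y : α → ℤ} (hP : PT P) (hZs : PT Zs) (htabs : PT tabs) (hhb : PT hb)
    (hp : PT p) (hx : PT x) (hy : PT y) : PT fun a => gS (P a) (Zs a) (tabs a) (hb a) (p a) (x a)
    (y a) := by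
  unfold gS; fun_prop

attribute [local irreducible] gS

@[fun_prop] theorem psi_pt {P : α → Par} {Zs : α → List ℤ} {tabs : α → List Tab} {hb : α → ℕ}
    {p : α → ℕ} {x : α → ℤ} {y : α → ℤ} {z : α → ℤ} (hP : PT P) (hZs : PT Zs) (htabs : PT tabs)
    (hhb : PT hb) (hp : PT p) (hx : PT x) (hy : PT y) (hz : PT z) : PT fun a => psi (P a) (Zs a)
    (tabs a) (hb a) (p a) (x a) (y a) (z a) := by
  have h2 : PT fun a => 2 * p a := (PT.const 2).nat_mul hp
  have h3 : PT fun a => 2 * p a + 1 := h2.nat_add (PT.const 1)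
  have h4 := (gS_pt hP hZs htabs hhb h2 hx hz).rat_natCast
  have h5 := (gS_pt hP hZs htabs hhb h3 hz hy).rat_natCast
  unfold psi
  exact (hz.int_sub hx).rat_intCast.rat_sub
    (((hy.int_sub hx).rat_intCast.rat_mul h4).rat_div (h4.rat_add h5))

attribute [local irreducible] psi

@[fun_prop] theorem midz_pt {P : α → Par} {Zs : α → List ℤ} {tabs : α → List Tab} {hb : α → ℕ}
    {p : α → ℕ} {x : α → ℤ} {y : α → ℤ} (hP : PT P) (hZs : PT Zs) (htabs : PT tabs) (hhb : PT hb)
    (hp : PT p) (hx : PT x) (hy : PT y) : PT fun a => midz (P a) (Zs a) (tabs a) (hb a) (p a)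
    (x a) (y a) := by
  unfold midz
  exact PT.option_getD (PT.argmin (by fun_prop) (by fun_prop) (by fun_prop)) hx

attribute [local irreducible] midz

@[fun_prop] theorem zp_pt {P : α → Par} {Zs : α → List ℤ} {tabs : α → List Tab} {e : α → ℤ × ℤ}
    {d : α → ℕ} {p : α → ℕ} (hP : PT P) (hZs : PT Zs) (htabs : PT tabs) (he : PT e) (hd : PT d)
    (hp : PT p) (bd : PB d) : PT fun a => zp (P a) (Zs a) (tabs a) (e a) (d a) (p a) := by
  have hq : PT fun q : α × ℕ × ℤ × ℤ => p q.1 / 2 ^ (d q.1 - q.2.1) :=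
    PT.nat_div (by fun_prop) (PT.nat_pow (PT.const 2) (by fun_prop)
      (PB.sub (bd.comp PT.id.fst) _))
  have hq' : PT fun q : α × ℕ × ℤ × ℤ => p q.1 / 2 ^ (d q.1 - (q.2.1 + 1)) :=
    PT.nat_div (by fun_prop) (PT.nat_pow (PT.const 2) (by fun_prop)
      (PB.sub (bd.comp PT.id.fst) _))
  have hm : PT fun q : α × ℕ × ℤ × ℤ => midz (P q.1) (Zs q.1) (tabs q.1) ((P q.1).L - q.2.1 - 1)
      (p q.1 / 2 ^ (d q.1 - q.2.1)) q.2.2.1 q.2.2.2 :=
    midz_pt (by fun_prop) (by fun_prop) (by fun_prop) (by fun_prop) hq (by fun_prop) (by fun_prop)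
  refine (PT.nat_rec (n := d) (z := e)
    (F := fun a k => zp (P a) (Zs a) (tabs a) (e a) k (p a / 2 ^ (d a - k)))
    (f := fun a k u => if p a / 2 ^ (d a - (k + 1)) % 2 = 0 then
      (u.1, midz (P a) (Zs a) (tabs a) ((P a).L - k - 1) (p a / 2 ^ (d a - k)) u.1 u.2) else
      (midz (P a) (Zs a) (tabs a) ((P a).L - k - 1) (p a / 2 ^ (d a - k)) u.1 u.2, u.2))
    hd bd he (PT.ite ((hq'.nat_mod (PT.const 2)).eq (PT.const 0))
      (PT.pair PT.id.snd.snd.fst hm) (PT.pair hm PT.id.snd.snd.snd))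
    (fun a => rfl) (fun a k hk => ?_) (B := fun a => 2 * (sz (Zs a) + sz (e a)) + 1) (by fun_prop)
    fun a k _ => ?_).of_eq fun a => by simp
  · have h : p a / 2 ^ (d a - (k + 1)) / 2 = p a / 2 ^ (d a - k) := by
      rw [Nat.div_div_eq_div_mul, ← pow_succ, show d a - (k + 1) + 1 = d a - k by omega]
    simp only [zp, h]
  · have := zp_sz (P a) (Zs a) (tabs a) (e a) k (p a / 2 ^ (d a - k))
    rw [sz_prod]; omega

attribute [local irreducible] zp

@[fun_prop] theorem czs_pt {P : α → Par} {x : α → ℤ} {y : α → ℤ} {σ : α → ℕ} {tabs : α → List Tab}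
    (hP : PT P) (hx : PT x) (hy : PT y) (hσ : PT σ) (htabs : PT tabs) : PT fun a => czs (P a)
    (x a) (y a) (σ a) (tabs a) := by
  unfold czs
  refine PT.append (PT.map (by fun_prop) (PT.fst (zp_pt ?_ ?_ ?_ ?_ ?_ ?_ ?_))) (by fun_prop)
  all_goals fun_prop

attribute [local irreducible] czs

@[fun_prop] theorem certOk_pt {P : α → Par} {Zs : α → List ℤ} {tabs : α → List Tab} {j : α → ℕ}
    {c : α → Ctx} (hP : PT P) (hZs : PT Zs) (htabs : PT tabs) (hj : PT j) (hc : PT c) : PT fun a
    => certOk (P a) (Zs a) (tabs a) (j a) (c a) := by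
  unfold certOk
  refine PT.band (by fun_prop) (PT.decide (PT.nat_le (PT.nat_add (by fun_prop)
    (PT.nat_mul (PT.nat_mul (PT.const 8) (by fun_prop)) (by fun_prop))) (by fun_prop)))

attribute [local irreducible] certOk

@[fun_prop] theorem ctxOf_pt {P : α → Par} {Zs : α → List ℤ} {σ : α → ℕ} {tabs : α → List Tab}
    {cz : α → List ℤ} {j : α → ℕ} (hP : PT P) (hZs : PT Zs) (hσ : PT σ) (htabs : PT tabs)
    (hcz : PT cz) (hj : PT j) : PT fun a => ctxOf (P a) (Zs a) (σ a) (tabs a) (cz a) (j a) := by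
  unfold ctxOf; fun_prop

attribute [local irreducible] ctxOf

@[fun_prop] theorem planOfp_pt {P : α → Par} {x : α → ℤ} {y : α → ℤ} {σ : α → ℕ}
    {tabs : α → List Tab} {cz : α → List ℤ} (hP : PT P) (hx : PT x) (hy : PT y) (hσ : PT σ)
    (htabs : PT tabs) (hcz : PT cz) : PT fun a => planOf' (P a) (x a) (y a) (σ a) (tabs a) (cz a)
    := by
  have hcs : PT fun a => (List.range (P a).b).map
      (ctxOf (P a) (zgrid (P a) (x a) (σ a)) (σ a) (tabs a) (cz a)) := by fun_prop
  have hf : PT fun a => ((List.range (P a).b).map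
      (ctxOf (P a) (zgrid (P a) (x a) (σ a)) (σ a) (tabs a) (cz a))).filterMap id :=
    PT.filterMap hcs (by fun_prop)
  unfold planOf'
  exact PT.ite (PT.and (by fun_prop) (PT.and (PT.eq_true (PT.all hcs (by fun_prop)))
    (PT.nat_le (PT.nat_sum (PT.map hf (by fun_prop))) hσ))) (PT.some (PT.pair hcz hf))
    (PT.const _)

attribute [local irreducible] planOf'

@[fun_prop] theorem planOf_pt {P : α → Par} {x : α → ℤ} {y : α → ℤ} {σ : α → ℕ}
    {tabs : α → List Tab} (hP : PT P) (hx : PT x) (hy : PT y) (hσ : PT σ) (htabs : PT tabs) : PT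
    fun a => planOf (P a) (x a) (y a) (σ a) (tabs a) := by
  unfold planOf; fun_prop

end Crest.Agent.R288
end

-- ▼ part PVb/R288/PTc
section

/-!
# R288: polynomial time of the pure functions, part c

Hints: `unfold …; fun_prop` usually works; `fun_prop` may loop on `2 * _` and `2 ^ _` when a definition is
reducible (use `PT.nat_mul`, `PT.nat_pow` by hand, or mark proved definitions `attribute [local irreducible]`);
always run with a timeout.  `PB` (polynomially bounded value) is needed for `List.range`, `List.replicate`,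
`Un.mk` and exponents; `min _ x` needs `PB.min_left/right`.  Folds: `Lib/PT/Fold.lean`, `Lib/PT/List.lean`.
-/

set_option autoImplicit false

namespace Crest.Agent.R288

open Crest.Agent.Lib.PT

variable {α : Type} [Enc α]

set_option maxHeartbeats 100000

attribute [local irreducible] mn omin dist1 rdn cw om cap capc pz pc junc cjunc cends blkP omg phs nIn wnd rnk gsp
  zgrid wlv ctxAt tget optz sclS sclC tabKeys qbits hval pastOut

theorem ptc_clamp (Q z : ℤ) : (clampZ 0 Q z).natAbs ≤ Q.natAbs := by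
  unfold clampZ; omega

theorem ptc_fold (Q xh : ℤ) (l : List ℤ) : ∀ s : ℤ × ℤ, s.1.natAbs ≤ Q.natAbs → s.2.natAbs ≤ Q.natAbs →
    (l.foldl (lstep Q xh) s).1.natAbs ≤ Q.natAbs ∧ (l.foldl (lstep Q xh) s).2.natAbs ≤ Q.natAbs := by
  induction l with
  | nil => exact fun s h1 h2 => ⟨h1, h2⟩
  | cons d l ih =>
    intro s _ h2
    refine ih _ (ptc_clamp _ _) ?_
    simp only [lstep]
    split_ifs
    · exact ptc_clamp _ _
    · exact h2

@[fun_prop] theorem clampZ_pt {x : α → ℤ} {y : α → ℤ} {z : α → ℤ} (hx : PT x) (hy : PT y)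
    (hz : PT z) : PT fun a => clampZ (x a) (y a) (z a) := by
  unfold clampZ; fun_prop
attribute [local irreducible] clampZ

@[fun_prop] theorem lstep_pt {Q : α → ℤ} {xh : α → ℤ} {s : α → ℤ × ℤ} {d : α → ℤ} (hQ : PT Q)
    (hxh : PT xh) (hs : PT s) (hd : PT d) : PT fun a => lstep (Q a) (xh a) (s a) (d a) := by
  unfold lstep; fun_prop
attribute [local irreducible] lstep

@[fun_prop] theorem learn_pt {Q : α → ℤ} {xh : α → ℤ} {ds : α → List ℤ} (hQ : PT Q) (hxh : PT xh)
    (hds : PT ds) : PT fun a => learn (Q a) (xh a) (ds a) := by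
  unfold learn
  refine PT.snd (PT.foldl_of_prefix (f := fun a => lstep (Q a) (xh a)) hds (PT.const _) (by fun_prop)
    (B := fun a => 4 * sz (Q a) + 9) (((PB.const 4).mul (PB.sz_self.comp hQ)).add (PB.const 9))
    fun a pre _ => ?_)
  obtain ⟨h1, h2⟩ := ptc_fold (Q a) (xh a) pre (0, 0) (by simp) (by simp)
  have h3 := sz_int_le_of_le h1
  have h4 := sz_int_le_of_le h2
  have h5 := sz_natAbs_le (Q a)
  rw [sz_prod]
  omega
attribute [local irreducible] learn

@[fun_prop] theorem choose2_pt {P : α → Par} {ω : α → ℕ} {a1 : α → List ℕ} {a2 : α → List ℕ}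
    {u : α → ℕ} (hP : PT P) (hω : PT ω) (ha1 : PT a1) (ha2 : PT a2) (hu : PT u) : PT fun a =>
    choose2 (P a) (ω a) (a1 a) (a2 a) (u a) := by
  unfold choose2; fun_prop
attribute [local irreducible] choose2

@[fun_prop] theorem usable_pt {P : α → Par} {c : α → Ctx} {j : α → ℕ} {pl : α → Plan} (hP : PT P)
    (hc : PT c) (hj : PT j) (hpl : PT pl) : PT fun a => usable (P a) (c a) (j a) (pl a) := by
  unfold usable; fun_prop
attribute [local irreducible] usable

@[fun_prop] theorem fixOut_pt {P : α → Par} {c : α → Ctx} {rows : α → List (List ℕ)}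
    {pls : α → List (List (Option Plan))} (hP : PT P) (hc : PT c) (hrows : PT rows)
    (hpls : PT pls) : PT fun a => fixOut (P a) (c a) (rows a) (pls a) := by
  unfold fixOut; fun_prop
attribute [local irreducible] fixOut

@[fun_prop] theorem statH_pt {P : α → Par} {pls : α → List (Option Plan)} (hP : PT P)
    (hpls : PT pls) : PT fun a => statH (P a) (pls a) := by
  unfold statH; fun_prop
attribute [local irreducible] statH

@[fun_prop] theorem dterm_pt {P : α → Par} {c : α → Ctx} {σ : α → ℕ} {pl : α → Plan} {d : α → Drw}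
    (hP : PT P) (hc : PT c) (hσ : PT σ) (hpl : PT pl) (hd : PT d) : PT fun a => dterm (P a) (c a)
    (σ a) (pl a) (d a) := by
  unfold dterm; fun_prop
attribute [local irreducible] dterm

@[fun_prop] theorem selP_pt {P : α → Par} {c : α → Ctx} {σ : α → ℕ} {pls : α → List (Option Plan)}
    {ds : α → List Drw} (hP : PT P) (hc : PT c) (hσ : PT σ) (hpls : PT pls) (hds : PT ds) : PT fun
    a => selP (P a) (c a) (σ a) (pls a) (ds a) := by
  unfold selP; fun_prop
attribute [local irreducible] selP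

@[fun_prop] theorem own_pt {c : α → Ctx} {s : α → ℤ × ℤ} {cm : α → Com} {j : α → ℕ} (hc : PT c)
    (hs : PT s) (hcm : PT cm) (hj : PT j) : PT fun a => own (c a) (s a) (cm a) (j a) := by
  unfold own; fun_prop
attribute [local irreducible] own

@[fun_prop] theorem comVal_pt {P : α → Par} {c : α → Ctx} {s : α → ℤ × ℤ} {cm : α → Com}
    (hP : PT P) (hc : PT c) (hs : PT s) (hcm : PT cm) : PT fun a => comVal (P a) (c a) (s a)
    (cm a) := by
  unfold comVal; fun_prop
attribute [local irreducible] comVal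

@[fun_prop] theorem ctxOut_pt {P : α → Par} {c : α → Ctx} {s : α → ℤ × ℤ} {cm : α → Com}
    {xs : α → List ℕ} (hP : PT P) (hc : PT c) (hs : PT s) (hcm : PT cm) (hxs : PT xs) : PT fun a
    => ctxOut (P a) (c a) (s a) (cm a) (xs a) := by
  unfold ctxOut; fun_prop
attribute [local irreducible] ctxOut

@[fun_prop] theorem leafC_pt {e : α → Bool} {ms : α → List Bool} {x : α → ℕ} {y : α → ℕ}
    (he : PT e) (hms : PT ms) (hx : PT x) (hy : PT y) : PT fun a => leafC (e a) (ms a) (x a) (y a)
    := by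
  unfold leafC; fun_prop
attribute [local irreducible] leafC

@[fun_prop] theorem rowLeaf_pt {κ : α → Un} {e : α → Bool} {ms : α → List Bool} {row : α → List ℕ}
    (hκ : PT κ) (he : PT e) (hms : PT ms) (hrow : PT row) : PT fun a => rowLeaf (κ a) (e a) (ms a)
    (row a) := by
  unfold rowLeaf; fun_prop
attribute [local irreducible] rowLeaf

@[fun_prop] theorem row0_pt {κ : α → Un} (hκ : PT κ) : PT fun a => row0 (κ a) := by
  unfold row0; fun_prop
attribute [local irreducible] row0

@[fun_prop] theorem ypos_pt {i : α → ℕ} {x : α → ℤ} {κ : α → Un} {y : α → ℕ} (hi : PT i)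
    (hx : PT x) (hκ : PT κ) (hy : PT y) : PT fun a => ypos (i a) (x a) (κ a) (y a) := by
  unfold ypos; fun_prop
attribute [local irreducible] ypos

@[fun_prop] theorem matchL_pt {P : α → Par} {i : α → ℕ} {x : α → ℤ} {κ : α → Un} {rs : α → List ℕ}
    (hP : PT P) (hi : PT i) (hx : PT x) (hκ : PT κ) (hrs : PT rs) : PT fun a => matchL (P a) (i a)
    (x a) (κ a) (rs a) := by
  unfold matchL; fun_prop
attribute [local irreducible] matchL

@[fun_prop] theorem gu_pt {P : α → Par} {κ : α → ℕ} (hP : PT P) (hκ : PT κ) : PT fun a => gu (P a)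
    (κ a) := by
  unfold gu; fun_prop
attribute [local irreducible] gu

@[fun_prop] theorem gg_pt {P : α → Par} {κ : α → ℕ} {eb : α → ℕ} (hP : PT P) (hκ : PT κ)
    (heb : PT eb) : PT fun a => gg (P a) (κ a) (eb a) := by
  unfold gg; fun_prop
attribute [local irreducible] gg

@[fun_prop] theorem gstates_pt {P : α → Par} {x : α → ℤ} {κ : α → ℕ} {eb : α → ℕ} (hP : PT P)
    (hx : PT x) (hκ : PT κ) (heb : PT eb) : PT fun a => gstates (P a) (x a) (κ a) (eb a) := by
  unfold gstates; fun_prop
attribute [local irreducible] gstates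

@[fun_prop] theorem gdraws_pt {P : α → Par} (hP : PT P) : PT fun a => gdraws (P a) := by
  unfold gdraws; fun_prop
attribute [local irreducible] gdraws

@[fun_prop] theorem graw_pt {P : α → Par} {κ : α → ℕ} {n : α → ℕ} (hP : PT P) (hκ : PT κ)
    (hn : PT n) : PT fun a => graw (P a) (κ a) (n a) := by
  unfold graw; fun_prop
attribute [local irreducible] graw

end Crest.Agent.R288
end

-- ▼ part PVb/R288/PTe
section

/-!
# R288: the first stage is polynomial time

Hints: `unfold …; fun_prop` usually works; `fun_prop` may loop on `2 * _` and `2 ^ _` when a definition is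
reducible (use `PT.nat_mul`, `PT.nat_pow` by hand, or mark proved definitions `attribute [local irreducible]`);
always run with a timeout.  `PB` (polynomially bounded value) is needed for `List.range`, `List.replicate`,
`Un.mk` and exponents; `min _ x` needs `PB.min_left/right`.  Folds: `Lib/PT/Fold.lean`, `Lib/PT/List.lean`.
Prove one lemma per stage function (`PT fun p : Par × ATop × List V => topS2 p.1 p.2.1 p.2.2` etc.).
-/

set_option autoImplicit false

namespace Crest.Agent.R288

open Crest.Agent.Lib.PT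

attribute [local irreducible] cCoin cRead cRnd cAvg cVec cSum cRow cSmall cOrc cGap cGRaw cGDraw cTop cTop' cGVal
  cPlan cSVal cSN cPast cFix cCom cHint cDraw cTab cSRoot cCent ypos row0 gdraws zgrid wnd phs pc optz nIn rnk qbits
  omg om sclC

section stages

variable {α : Type} [Enc α] {P : α → Par}

theorem pte_rowS1 {x : α → ARow} (hP : PT P) (hx : PT x) : PT fun a => rowS1 (P a) (x a) := by
  unfold rowS1
  fun_prop

theorem pte_smallS1 {x : α → ASmall} (hx : PT x) : PT fun a => smallS1 (x a) := by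
  unfold smallS1
  fun_prop

theorem pte_orcS1 {x : α → AOrc} (hx : PT x) : PT fun a => orcS1 (x a) := by
  unfold orcS1
  refine PT.ite (PT.nat_le (PT.nat_pow (PT.const 2) (by fun_prop) (by fun_prop)) (by fun_prop)) (PT.const _)
    (PT.map (by fun_prop) (cGap_pt (by fun_prop) (by fun_prop) (by fun_prop) (by fun_prop)
      (PT.nat_pow (PT.const 2) (by fun_prop) (PB.min_right _ (by fun_prop))) (by fun_prop)))

theorem pte_gapS1 {x : α → AGap} (hP : PT P) (hx : PT x) : PT fun a => gapS1 (P a) (x a) := by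
  unfold gapS1
  refine PT.ite (by fun_prop) (PT.const _) (PT.ite (by fun_prop) (PT.cons (cSmall_pt (by fun_prop) (by fun_prop)
    (by fun_prop) (by fun_prop) (by fun_prop) (by fun_prop) (PB.min_right _ (by fun_prop))) (PT.const _)) ?_)
  fun_prop

theorem pte_grawS1 {x : α → AGRaw} (hP : PT P) (hx : PT x) : PT fun a => grawS1 (P a) (x a) := by
  unfold grawS1
  fun_prop

theorem pte_topS1 {x : α → ATop} (hP : PT P) (hx : PT x) : PT fun a => topS1 (P a) (x a) := by
  unfold topS1
  fun_prop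

theorem pte_toppS1 {x : α → ATop} (hP : PT P) (hx : PT x) : PT fun a => top'S1 (P a) (x a) := by
  unfold top'S1
  fun_prop

theorem pte_gvalS1 {x : α → AScl} (hP : PT P) (hx : PT x) : PT fun a => gvalS1 (P a) (x a) := by
  unfold gvalS1
  fun_prop

theorem pte_planS1 {x : α → AScl} (hP : PT P) (hx : PT x) : PT fun a => planS1 (P a) (x a) := by
  unfold planS1
  fun_prop

theorem pte_svalS1 {x : α → AScl} (hP : PT P) (hx : PT x) : PT fun a => svalS1 (P a) (x a) := by
  unfold svalS1
  fun_prop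

theorem pte_snOpt {x : α → ASN} {o : α → Bool} {t : α → ℕ} (hP : PT P) (hx : PT x) (ho : PT o) (ht : PT t) :
    PT fun a => snOpt (P a) (x a) (o a) (t a) := by
  unfold snOpt
  have := ho.eq_true
  fun_prop

attribute [local fun_prop] pte_snOpt
attribute [local irreducible] snOpt

theorem pte_snS1 {x : α → ASN} (hP : PT P) (hx : PT x) : PT fun a => snS1 (P a) (x a) := by
  unfold snS1
  fun_prop

theorem pte_pastS1 {x : α → ACtx} (hP : PT P) (hx : PT x) : PT fun a => pastS1 (P a) (x a) := by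
  unfold pastS1
  fun_prop

theorem pte_fixS1 {x : α → ACtx} (hP : PT P) (hx : PT x) : PT fun a => fixS1 (P a) (x a) := by
  unfold fixS1
  fun_prop

theorem pte_comS1 {x : α → ACtx} (hP : PT P) (hx : PT x) : PT fun a => comS1 (P a) (x a) := by
  unfold comS1
  fun_prop

theorem pte_hintS1 {x : α → AHint} (hP : PT P) (hx : PT x) : PT fun a => hintS1 (P a) (x a) := by
  unfold hintS1
  fun_prop

end stages

theorem algS1_pt : PT fun p : Par × Call => alg.s1 p.1 p.2 := by
  show PT fun p : Par × Call => algS1 p.1 p.2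
  unfold algS1
  have hP : PT fun p : Par × Call => p.1 := by fun_prop
  have ht : ∀ n : ℕ, PT fun p : Par × Call => p.2.1 = n := fun n => by fun_prop
  have hd : ∀ (β : Type) [Enc β] [Dec β], PT fun p : Par × Call => (dec p.2.2 : β) := fun β _ _ => by fun_prop
  refine PT.ite (ht 2) (PT.replicate (hd Un).un_n (PB.un (hd Un)) (PT.const _)) ?_
  refine PT.ite (ht 3) (PT.replicate (Par.p2_pt hP (hd (Call × ℕ)).snd) (Par.p2_pb hP (hd (Call × ℕ)).snd)
    (hd (Call × ℕ)).fst) ?_
  refine PT.ite (ht 4) (hd _) ?_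
  refine PT.ite (ht 5) (hd _) ?_
  refine PT.ite (ht 6) (pte_rowS1 hP (hd _)) ?_
  refine PT.ite (ht 7) (pte_smallS1 (hd _)) ?_
  refine PT.ite (ht 8) (pte_orcS1 (hd _)) ?_
  refine PT.ite (ht 9) (pte_gapS1 hP (hd _)) ?_
  refine PT.ite (ht 10) (pte_grawS1 hP (hd _)) ?_
  refine PT.ite (ht 11) (PT.cons (cRnd_pt (Par.kb_pt hP) (Par.kb_pb hP)) (PT.const _)) ?_
  refine PT.ite (ht 12) (pte_topS1 hP (hd _)) ?_
  refine PT.ite (ht 13) (pte_toppS1 hP (hd _)) ?_
  refine PT.ite (ht 14) (pte_gvalS1 hP (hd _)) ?_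
  refine PT.ite (ht 15) (pte_planS1 hP (hd _)) ?_
  refine PT.ite (ht 16) (pte_svalS1 hP (hd _)) ?_
  refine PT.ite (ht 17) (pte_snS1 hP (hd _)) ?_
  refine PT.ite (ht 18) (pte_pastS1 hP (hd _)) ?_
  refine PT.ite (ht 19) (pte_fixS1 hP (hd _)) ?_
  refine PT.ite (ht 20) (pte_comS1 hP (hd _)) ?_
  refine PT.ite (ht 21) (pte_hintS1 hP (hd _)) ?_
  exact PT.ite (ht 22) (PT.cons (cRnd_pt (Par.L_pt hP) (Par.L_pb hP)) (PT.const _)) (PT.const _)

end Crest.Agent.R288
end

-- ▼ part PVb/R288/PTf
section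

/-!
# R288: the second stage is polynomial time

Hints: `unfold …; fun_prop` usually works; `fun_prop` may loop on `2 * _` and `2 ^ _` when a definition is
reducible (use `PT.nat_mul`, `PT.nat_pow` by hand, or mark proved definitions `attribute [local irreducible]`);
always run with a timeout.  `PB` (polynomially bounded value) is needed for `List.range`, `List.replicate`,
`Un.mk` and exponents; `min _ x` needs `PB.min_left/right`.  Folds: `Lib/PT/Fold.lean`, `Lib/PT/List.lean`.
Prove one lemma per stage function (`PT fun p : Par × ATop × List V => topS2 p.1 p.2.1 p.2.2` etc.).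
-/

set_option autoImplicit false

namespace Crest.Agent.R288

open Crest.Agent.Lib.PT

section stages

set_option maxHeartbeats 400000

attribute [local fun_prop] rd_pt rds_pt

attribute [local irreducible] cRead cRnd cAvg cVec cSum cRow cSmall cOrc cGap cGRaw cGDraw cTop cTop' cGVal cPlan cSVal
  cSN cPast cFix cCom cHint cDraw cTab cSRoot cCent rd rds gstates gg sclS sclC own choose2 omg selP tabKeys

theorem ptf_row : PT fun p : ARow × List V => rowS2 p.1 p.2 := by
  unfold rowS2
  fun_prop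

theorem ptf_gdraw : PT fun p : Par × AGDraw × List V => gdrawS2 p.1 p.2.1 p.2.2 := by
  unfold gdrawS2
  fun_prop

theorem radc_pt_f {α : Type} [Enc α] {c : α → Option Ctx} (hc : PT c) : PT fun a => radc (c a) := by
  unfold radc
  fun_prop

attribute [local fun_prop] radc_pt_f
attribute [local irreducible] radc

theorem ptf_top : PT fun p : Par × ATop × List V => topS2 p.1 p.2.1 p.2.2 := by
  unfold topS2
  fun_prop

theorem ptf_top' : PT fun p : Par × ATop × List V => top'S2 p.1 p.2.1 p.2.2 := by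
  unfold top'S2
  fun_prop

theorem ptf_sval : PT fun p : Par × AScl × List V => svalS2 p.1 p.2.1 p.2.2 := by
  unfold svalS2
  fun_prop

theorem ptf_sn : PT fun p : Par × ASN × List V => snS2 p.1 p.2.1 p.2.2 := by
  unfold snS2 snOpt
  fun_prop

theorem ptf_com : PT fun p : Par × ACtx × List V => comS2 p.1 p.2.1 p.2.2 := by
  unfold comS2
  fun_prop

theorem ptf_hint : PT fun p : Par × AHint × List V => hintS2 p.1 p.2.1 p.2.2 := by
  unfold hintS2
  fun_prop

theorem ptf_draw : PT fun p : Par × ADraw × List V => drawS2 p.1 p.2.1 p.2.2 := by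
  unfold drawS2
  fun_prop

end stages

theorem ptf_lift {A : Type} [Enc A] [Dec A] {f : Par → A → List V → List Call}
    (h : PT fun p : Par × A × List V => f p.1 p.2.1 p.2.2) :
    PT fun p : Par × Call × List V => f p.1 (dec p.2.1.2) p.2.2 :=
  h.comp (f := fun p : Par × Call × List V => (p.1, (dec p.2.1.2 : A), p.2.2)) (by fun_prop)

theorem algS2_pt : PT fun p : Par × Call × List V => alg.s2 p.1 p.2.1 p.2.2 := by
  have c : ∀ n : ℕ, PT fun p : Par × Call × List V => p.2.1.1 = n := fun n => by fun_prop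
  have h6 : PT fun p : Par × ARow × List V => rowS2 p.2.1 p.2.2 :=
    ptf_row.comp (f := fun p : Par × ARow × List V => p.2) (by fun_prop)
  exact PT.ite (c 6) (ptf_lift (f := fun _ => rowS2) h6) (PT.ite (c 11) (ptf_lift ptf_gdraw)
    (PT.ite (c 12) (ptf_lift ptf_top) (PT.ite (c 13) (ptf_lift ptf_top') (PT.ite (c 16) (ptf_lift ptf_sval)
    (PT.ite (c 17) (ptf_lift ptf_sn) (PT.ite (c 20) (ptf_lift ptf_com) (PT.ite (c 21) (ptf_lift ptf_hint)
    (PT.ite (c 22) (ptf_lift ptf_draw) (PT.const _)))))))))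

end Crest.Agent.R288
end

-- ▼ part PVb/R288/PTg

/-!
# R288: the result is polynomial time

Hints: `unfold …; fun_prop` usually works; `fun_prop` may loop on `2 * _` and `2 ^ _` when a definition is
reducible (use `PT.nat_mul`, `PT.nat_pow` by hand, or mark proved definitions `attribute [local irreducible]`);
always run with a timeout.  `PB` (polynomially bounded value) is needed for `List.range`, `List.replicate`,
`Un.mk` and exponents; `min _ x` needs `PB.min_left/right`.  Folds: `Lib/PT/Fold.lean`, `Lib/PT/List.lean`.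
Prove one lemma per stage function (`PT fun p : Par × ATop × List V => topS2 p.1 p.2.1 p.2.2` etc.).
-/

set_option autoImplicit false

namespace Crest.Agent.R288

open Crest.Agent.Lib.PT

section

variable {α : Type} [Enc α] {P : α → Par} {r1 r2 : α → List V}

theorem ptg_rowOut {a : α → ARow} (hP : PT P) (ha : PT a) (h1 : PT r1) (h2 : PT r2) :
    PT fun z => rowOut (P z) (a z) (r1 z) (r2 z) := by
  unfold rowOut
  fun_prop

theorem ptg_smallOut {a : α → ASmall} (ha : PT a) (h1 : PT r1) :
    PT fun z => smallOut (a z) (r1 z) := by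
  unfold smallOut
  fun_prop

theorem ptg_orcOut {a : α → AOrc} (hP : PT P) (ha : PT a) (h1 : PT r1) :
    PT fun z => orcOut (P z) (a z) (r1 z) := by
  unfold orcOut
  fun_prop

theorem ptg_gapOut {a : α → AGap} (hP : PT P) (ha : PT a) (h1 : PT r1) :
    PT fun z => gapOut (P z) (a z) (r1 z) := by
  unfold gapOut
  fun_prop

theorem ptg_grawOut {a : α → AGRaw} (hP : PT P) (ha : PT a) (h1 : PT r1) :
    PT fun z => grawOut (P z) (a z) (r1 z) := by
  unfold grawOut
  fun_prop

theorem ptg_gdrawOut (h2 : PT r2) :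
    PT fun z => gdrawOut (r2 z) := by
  unfold gdrawOut
  fun_prop

theorem radc_pt_g {c : α → Option Ctx} (hc : PT c) : PT fun a => radc (c a) := by
  unfold radc
  fun_prop

attribute [local fun_prop] radc_pt_g
attribute [local irreducible] radc

theorem ptg_topOut {a : α → ATop} (hP : PT P) (ha : PT a) (h1 : PT r1) (h2 : PT r2) :
    PT fun z => topOut (P z) (a z) (r1 z) (r2 z) := by
  unfold topOut
  fun_prop

theorem ptg_toppOut {a : α → ATop} (hP : PT P) (ha : PT a) (h1 : PT r1) (h2 : PT r2) :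
    PT fun z => top'Out (P z) (a z) (r1 z) (r2 z) := by
  unfold top'Out
  fun_prop

theorem ptg_gvalOut {a : α → AScl} (hP : PT P) (ha : PT a) (h1 : PT r1) :
    PT fun z => gvalOut (P z) (a z) (r1 z) := by
  unfold gvalOut
  fun_prop

theorem ptg_planOut {a : α → AScl} (hP : PT P) (ha : PT a) (h1 : PT r1) :
    PT fun z => planOut (P z) (a z) (r1 z) := by
  unfold planOut
  fun_prop

theorem ptg_svalOut {a : α → AScl} (hP : PT P) (ha : PT a) (h1 : PT r1) (h2 : PT r2) :
    PT fun z => svalOut (P z) (a z) (r1 z) (r2 z) := by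
  unfold svalOut
  fun_prop

theorem ptg_snOut {a : α → ASN} (ha : PT a) (h1 : PT r1) (h2 : PT r2) :
    PT fun z => snOut (a z) (r1 z) (r2 z) := by
  unfold snOut
  fun_prop

theorem ptg_pastOutp (h1 : PT r1) :
    PT fun z => pastOut' (r1 z) := by
  unfold pastOut'
  fun_prop

theorem ptg_fixOutp {a : α → ACtx} (hP : PT P) (ha : PT a) (h1 : PT r1) :
    PT fun z => fixOut' (P z) (a z) (r1 z) := by
  unfold fixOut'
  fun_prop

theorem ptg_comOut (hP : PT P) (h1 : PT r1) (h2 : PT r2) :
    PT fun z => comOut (P z) (r1 z) (r2 z) := by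
  unfold comOut
  fun_prop

theorem ptg_hintOut {a : α → AHint} (hP : PT P) (ha : PT a) (h1 : PT r1) (h2 : PT r2) :
    PT fun z => hintOut (P z) (a z) (r1 z) (r2 z) := by
  unfold hintOut
  fun_prop

theorem ptg_drawOut {a : α → ADraw} (ha : PT a) (h1 : PT r1) (h2 : PT r2) :
    PT fun z => drawOut (a z) (r1 z) (r2 z) := by
  unfold drawOut
  fun_prop

end

theorem algOut_pt :
    PT fun p : Par × Call × List V × List V => alg.out p.1 p.2.1 p.2.2.1 p.2.2.2 := by
  have hP : PT fun p : Par × Call × List V × List V => p.1 := PT.id.fst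
  have hk : PT fun p : Par × Call × List V × List V => p.2.1.1 := PT.id.snd.fst.fst
  have hv : PT fun p : Par × Call × List V × List V => p.2.1.2 := PT.id.snd.fst.snd
  have h1 : PT fun p : Par × Call × List V × List V => p.2.2.1 := PT.id.snd.snd.fst
  have h2 : PT fun p : Par × Call × List V × List V => p.2.2.2 := PT.id.snd.snd.snd
  have he : ∀ n : ℕ, PT fun p : Par × Call × List V × List V => p.2.1.1 = n := fun n => by fun_prop
  show PT fun p : Par × Call × List V × List V => algOut p.1 p.2.1 p.2.2.1 p.2.2.2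
  unfold algOut
  refine PT.ite (he _) (rds_pt h1).ofBits.enc ?_
  refine PT.ite (he _) ((rds_pt h1).nat_sum.nat_div (Par.p2_pt hP hv.dec.snd)).enc ?_
  refine PT.ite (he _) h1.enc ?_
  refine PT.ite (he _) (rds_pt h1).nat_sum.enc ?_
  refine PT.ite (he _) (ptg_rowOut hP hv.dec h1 h2) ?_
  refine PT.ite (he _) (ptg_smallOut hv.dec h1) ?_
  refine PT.ite (he _) (ptg_orcOut hP hv.dec h1) ?_
  refine PT.ite (he _) (ptg_gapOut hP hv.dec h1) ?_
  refine PT.ite (he _) (ptg_grawOut hP hv.dec h1) ?_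
  refine PT.ite (he _) (ptg_gdrawOut h2) ?_
  refine PT.ite (he _) (ptg_topOut hP hv.dec h1 h2) ?_
  refine PT.ite (he _) (ptg_toppOut hP hv.dec h1 h2) ?_
  refine PT.ite (he _) (ptg_gvalOut hP hv.dec h1) ?_
  refine PT.ite (he _) (ptg_planOut hP hv.dec h1) ?_
  refine PT.ite (he _) (ptg_svalOut hP hv.dec h1 h2) ?_
  refine PT.ite (he _) (ptg_snOut hv.dec h1 h2) ?_
  refine PT.ite (he _) (ptg_pastOutp h1) ?_
  refine PT.ite (he _) (ptg_fixOutp hP hv.dec h1) ?_
  refine PT.ite (he _) (ptg_comOut hP h1 h2) ?_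
  refine PT.ite (he _) (ptg_hintOut hP hv.dec h1 h2) ?_
  refine PT.ite (he _) (ptg_drawOut hv.dec h1 h2) ?_
  exact PT.const _

end Crest.Agent.R288
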