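import Crest.Agent.PVb.R288.SemG_Mg
import Crest.Agent.PVb.R288.Alg
import Crest.Agent.PVb.R288.SchA
import Crest.Agent.PVb.R288.ParA
import Crest.Agent.PVb.R288.CstB
import Crest.Agent.PVb.R288.RTa
import Crest.Agent.PVb.R288.FinA
import Crest.Agent.PVb.R288.PTg_Mg

-- ▼ part PVb/R288/Sem
section

/-!
# R288: the scheme satisfies the equations of the model
-/

set_option autoImplicit false

namespace Crest.Agent.R288

open Crest.Agent.Lib.PT RT

variable {P : Par} {mem : ℕ → ℕ} {x y : List ℕ}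

theorem sem_top1 (r i : ℕ) (s : ℤ × ℤ) (c : Option Ctx) (t : ℕ) :
    algS1 P (cTop r i s c t) = topS1 P (Un.mk r, i, s, c, t) := by
  simp [algS1, cTop, dec_enc]

theorem sem_top2 (r i : ℕ) (s : ℤ × ℤ) (c : Option Ctx) (t : ℕ) (r1 : List V) :
    algS2 P (cTop r i s c t) r1 = topS2 P (Un.mk r, i, s, c, t) r1 := by
  simp [algS2, cTop, dec_enc]

theorem sem_top3 (r i : ℕ) (s : ℤ × ℤ) (c : Option Ctx) (t : ℕ) (r1 r2 : List V) :
    algOut P (cTop r i s c t) r1 r2 = topOut P (Un.mk r, i, s, c, t) r1 r2 := by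
  simp [algOut, cTop, dec_enc]

theorem sem_top'1 (r i : ℕ) (s : ℤ × ℤ) (c : Option Ctx) (t : ℕ) :
    algS1 P (cTop' r i s c t) = top'S1 P (Un.mk r, i, s, c, t) := by
  simp [algS1, cTop', dec_enc]

theorem sem_top'2 (r i : ℕ) (s : ℤ × ℤ) (c : Option Ctx) (t : ℕ) (r1 : List V) :
    algS2 P (cTop' r i s c t) r1 = top'S2 P (Un.mk r, i, s, c, t) r1 := by
  simp [algS2, cTop', dec_enc]

theorem sem_top'3 (r i : ℕ) (s : ℤ × ℤ) (c : Option Ctx) (t : ℕ) (r1 r2 : List V) :
    algOut P (cTop' r i s c t) r1 r2 = top'Out P (Un.mk r, i, s, c, t) r1 r2 := by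
  simp [algOut, cTop', dec_enc]

theorem sem_sn1 (r i : ℕ) (pl : Plan) (hb p : ℕ) (s : ℤ × ℤ) (k0 q t : ℕ) :
    algS1 P (cSN r i pl hb p s k0 q t) = snS1 P (Un.mk r, i, pl, hb, p, s, k0, q, t) := by
  simp [algS1, cSN, dec_enc]

theorem sem_sn2 (r i : ℕ) (pl : Plan) (hb p : ℕ) (s : ℤ × ℤ) (k0 q t : ℕ) (r1 : List V) :
    algS2 P (cSN r i pl hb p s k0 q t) r1 = snS2 P (Un.mk r, i, pl, hb, p, s, k0, q, t) r1 := by
  simp [algS2, cSN, dec_enc]

theorem sem_sn3 (r i : ℕ) (pl : Plan) (hb p : ℕ) (s : ℤ × ℤ) (k0 q t : ℕ) (r1 r2 : List V) :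
    algOut P (cSN r i pl hb p s k0 q t) r1 r2 = snOut (Un.mk r, i, pl, hb, p, s, k0, q, t) r1 r2 := by
  simp [algOut, cSN, dec_enc]

theorem sem_tm_avg (hP : Good P) {k : Call} {e : ℕ} (h : alg.Tm P (cAvg k e)) : alg.Tm P k := by
  refine h.s1 (by simp [cAvg]) k ?_
  have : alg.s1 P (cAvg k e) = List.replicate (P.p2 e) k := by
    simp [alg, algS1, cAvg, dec_enc]
  rw [this]
  exact List.mem_replicate.2 ⟨(hP.p2_pos e).ne', rfl⟩

theorem sem_tm_vec {ks : List Call} (h : alg.Tm P (cVec ks)) : ∀ k ∈ ks, alg.Tm P k := by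
  intro k hk
  refine h.s1 (by simp [cVec]) k ?_
  have : alg.s1 P (cVec ks) = ks := by
    simp [alg, algS1, cVec, dec_enc]
  rwa [this]

theorem sem_kK (hP : Good P) : P.kK ≤ P.kP := by
  have := hP.small_ll
  have := hP.ll_kR
  rw [Par.kP.eq_1]
  omega

theorem sem_mb (hP : Good P) : P.mb ≤ P.kP := by
  have := hP.mb_add
  have := hP.small_ll
  have := hP.ll_kR
  rw [Par.kg.eq_1] at *
  rw [Par.kP.eq_1]
  omega

/-- A list of calls followed by a function of the decoded results. -/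
theorem sem_seq {β γ : Type} [Enc β] [Dec β] (pr : Call → Option (RT V)) (ks : List Call)
    (g : List β → RT γ) :
    ((seq (ks.map (alg.ev P pr))).bind fun r => g (rds r)) = (seq (ks.map (evd β P pr))).bind g := by
  have : ks.map (evd β P pr) = (ks.map (alg.ev P pr)).map (map dec) := by
    rw [List.map_map]; rfl
  rw [this, seq_map, bind_map]
  rfl

theorem sem_one {β γ : Type} [Enc β] [Dec β] (pr : Call → Option (RT V)) (k : Call)
    (g : β → RT γ) :
    ((seq ([k].map (alg.ev P pr))).bind fun r => g (rd r 0)) = (evd β P pr k).bind g := by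
  rw [List.map_singleton, seq_single, bind_map, evd, bind_map]
  rfl


theorem evd_top' (hP : Good P) (r i : ℕ) (s : ℤ × ℤ) (c : Option Ctx) (t : ℕ)
    (h : alg.Tm P (cTop' r i s c t)) :
    evd ℕ P (idealPrim P mem x y) (cTop' r i s c t) =
      c.elim ((theModel P mem x y).topN P r i s t) fun c => (theModel P mem x y).topS P r i s c t := by
  have hp := prOk_ideal P mem x y
  have h1 : 1 < (cTop' r i s c t).1 := by simp [cTop']
  have t1 : ∀ k ∈ top'S1 P (Un.mk r, i, s, c, t), alg.Tm P k := by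
    rw [← sem_top'1]; exact h.s1 h1
  have t2 : ∀ r1, ∀ k ∈ top'S2 P (Un.mk r, i, s, c, t) r1, alg.Tm P k := fun r1 => by
    rw [← sem_top'2]; exact h.s2 h1 r1
  rw [evd, hp.unfold h h1 (by simp [cTop'])]
  simp only [sem_top'1, sem_top'2, sem_top'3, map_bind, map_pure]
  cases c with
  | none =>
    simp only [top'S1, top'S2, top'Out, Option.elim_none, Model.topN] at t1 t2 ⊢
    by_cases ht : t = 0
    · simp only [ht, if_true, List.map_nil, seq_nil, pure_bind]
      exact (sem_one (β := ℕ) _ _ RT.pure).trans (bind_pure _)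
    · simp only [ht, if_false, dec_enc] at t1 t2 ⊢
      refine (sem_one (β := ℕ) (idealPrim P mem x y) _ fun C =>
        (seq ((((List.range P.nS).map fun j => cGVal r i s (sclS P C j) t) ++
          if P.T0 < t then (List.range P.nS).map fun j => cSVal r i s (sclS P C j) t
          else []).map (alg.ev P (idealPrim P mem x y)))).bind fun r2 =>
            RT.pure (omin C (rds r2))).trans ?_
      rw [evd_avg hp hP (sem_tm_avg hP (t1 _ (List.mem_singleton_self _))) le_rfl]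
      refine congrArg _ (funext fun C => ?_)
      have t3 := t2 [enc C]
      simp only [rd, List.getD_cons_zero, dec_enc] at t3
      refine (sem_seq (β := Option ℕ) _ _ fun l => RT.pure (omin C l)).trans ?_
      refine congrArg (fun l => (seq l).bind _) ?_
      rw [List.map_append, List.map_map]
      congr 1
      · refine List.map_congr_left fun j hj => ?_
        exact evd_gval hP r i s _ t (t3 _ (List.mem_append_left _ (List.mem_map_of_mem hj)))
      · split_ifs with hT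
        · rw [List.map_map]
          refine List.map_congr_left fun j hj => ?_
          refine evd_sval hP r i s _ t (t3 _ (List.mem_append_right _ ?_))
          rw [if_pos hT]
          exact List.mem_map_of_mem hj
        · rfl
  | some c =>
    simp only [top'S1, top'S2, top'Out, Option.elim_some, Model.topS, dec_enc] at t1 t2 ⊢
    refine (sem_one (β := Com) (idealPrim P mem x y) _ fun cm =>
      (seq (((List.range P.nC).map fun j => (own c s cm j).elim (cSum [])
        fun pl => cAvg (cSRoot P r i pl t) P.kK).map (alg.ev P (idealPrim P mem x y)))).bind fun r2 =>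
          RT.pure (ctxOut P c s cm (rds r2))).trans ?_
    rw [evd_com hP r i c t (t1 _ (List.mem_singleton_self _))]
    refine congrArg _ (funext fun cm => ?_)
    have t3 := t2 [enc cm]
    simp only [rd, List.getD_cons_zero, dec_enc] at t3
    refine (sem_seq (β := ℕ) _ _ fun l => RT.pure (ctxOut P c s cm l)).trans ?_
    refine congrArg (fun l => (seq l).bind _) ?_
    rw [List.map_map]
    refine List.map_congr_left fun j hj => ?_
    have t4 := t3 _ (List.mem_map_of_mem hj)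
    simp only [Function.comp_apply]
    cases ho : own c s cm j with
    | none =>
      simp only [Option.elim_none]
      rw [evd_sum hp (by simp)]
      rfl
    | some pl =>
      rw [ho] at t4
      simp only [Option.elim_some] at t4 ⊢
      rw [evd_avg hp hP (sem_tm_avg hP t4) (sem_kK hP)]
      rfl

theorem evd_sn (hP : Good P) {r : ℕ} (hr : 1 ≤ r) (i : ℕ) (pl : Plan) {hb : ℕ} (hhb : hb ≤ P.L) (p : ℕ)
    (s : ℤ × ℤ) (k0 : ℕ) {q : ℕ} (hq : q ≤ P.mb) {t : ℕ} (ht : P.T0 < t) :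
    (theModel P mem x y).sn r i pl hb p s k0 q t = (theModel P mem x y).sn' P r i pl hb p s k0 q t := by
  have hp := prOk_ideal P mem x y
  have h := tm_sn hP hr i pl hhb p s k0 hq ht
  have h1 : 1 < (cSN r i pl hb p s k0 q t).1 := by simp [cSN]
  have t1 : ∀ k ∈ snS1 P (Un.mk r, i, pl, hb, p, s, k0, q, t), alg.Tm P k := by
    rw [← sem_sn1]; exact h.s1 h1
  change evd ℕ P (idealPrim P mem x y) (cSN r i pl hb p s k0 q t) = _
  rw [evd, hp.unfold h h1 (by simp [cSN])]
  simp only [sem_sn1, sem_sn2, sem_sn3, map_bind, map_pure]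
  simp only [snS1, snS2, snOut, Model.sn'] at t1 ⊢
  by_cases h0 : hb = 0
  · simp only [h0, if_true, true_or, List.map_nil, seq_nil, pure_bind]
    exact (sem_one (β := ℕ) _ _ RT.pure).trans (bind_pure _)
  by_cases hq0 : q = 0
  · simp only [h0, hq0, if_true, if_false, or_true, List.map_nil, seq_nil, pure_bind, dec_enc,
      List.map_cons, seq_cons, bind_assoc]
    simp only [theModel, evd, bind_map, map_map]
    rfl
  simp only [h0, hq0, if_false, or_self] at t1 ⊢
  have hopt : ∀ o u, evd ℕ P (idealPrim P mem x y) (snOpt P (Un.mk r, i, pl, hb, p, s, k0, q, t) o u) =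
      (theModel P mem x y).opt r i pl hb p s k0 q o u := fun o u => by
    have := sem_mb hP
    simp only [snOpt, Model.opt, hP.p2_eq (show q - 1 ≤ P.kP by omega)]
    rfl
  have hvec : ∀ o, alg.Tm P (cVec ((List.range (nIn P t)).map fun k =>
      cAvg (snOpt P (Un.mk r, i, pl, hb, p, s, k0, q, t) o (rnk P t k)) P.kP)) →
      evd (List ℕ) P (idealPrim P mem x y) (cVec ((List.range (nIn P t)).map fun k =>
        cAvg (snOpt P (Un.mk r, i, pl, hb, p, s, k0, q, t) o (rnk P t k)) P.kP)) =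
      seq ((List.range (nIn P t)).map fun k =>
        ((theModel P mem x y).opt r i pl hb p s k0 q o (rnk P t k)).avg P.kP) := fun o ho => by
    rw [evd_vec ℕ hp (sem_tm_vec ho), List.map_map]
    refine congrArg seq (List.map_congr_left fun k hk => ?_)
    rw [Function.comp_apply, evd_avg hp hP (sem_tm_avg hP (sem_tm_vec ho _ (List.mem_map_of_mem hk)))
      le_rfl, hopt]
  rw [← hvec false (t1 _ (by simp)), ← hvec true (t1 _ (by simp)), ← evd_rnd hp]
  simp only [← hopt]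
  simp only [List.map_cons, List.map_nil, seq_cons, seq_nil, bind_assoc, pure_bind, evd, bind_map]
  rfl

theorem sem_top (hP : Good P) {pr : Call → Option (RT V)} (hp : PrOk P mem pr) (hm : MemOk P mem x y)
    (r i : ℕ) (s : ℤ × ℤ) (c : Option Ctx) (t : ℕ) (hc : c ≠ none → P.T0 < t) :
    alg.ev P pr (cTop r i s c t) =
      (seq ((topS2 P (Un.mk r, i, s, c, t) [enc (min (FF x y (r * P.L) i s.1 s.2) (P.F0 + 1))]).map
        (alg.ev P pr))).bind fun r2 => .pure (topOut P (Un.mk r, i, s, c, t)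
          [enc (min (FF x y (r * P.L) i s.1 s.2) (P.F0 + 1))] r2) := by
  rw [hp.unfold (tm_top hP r i s c t hc) (by simp [cTop]) (by simp [cTop])]
  simp only [sem_top1, sem_top2, sem_top3, topS1, List.map_singleton, seq_single, ev_small hp hm,
    map_pure, pure_bind]

theorem theModel_ok (hP : Good P) (hm : MemOk P mem x y) : (theModel P mem x y).Ok P := by
  have hp := prOk_ideal P mem x y
  refine ⟨hP, FF_ok x y, fun r hr i s h => ?_, fun r _ i s c t hc hrad => ?_,
    fun r hr _ i pl hb hhb p s k0 q hq t ht => evd_sn hP hr i pl hhb p s k0 hq ht⟩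
  · exact ideal_orc hP hm ((Nat.mul_le_mul_right _ hr).trans hP.HL_le) i s.1 s.2 h
  · have h := tm_top hP r i s c t hc
    have t2 : ∀ r1, ∀ k ∈ topS2 P (Un.mk r, i, s, c, t) r1, alg.Tm P k := fun r1 => by
      rw [← sem_top2]; exact h.s2 (by simp [cTop]) r1
    have t3 := t2 [enc (min (FF x y (r * P.L) i s.1 s.2) (P.F0 + 1))]
    change evd ℕ P (idealPrim P mem x y) (cTop r i s c t) =
      if FF x y (r * P.L) i s.1 s.2 ≤ P.F0 then .pure (FF x y (r * P.L) i s.1 s.2) else _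
    rw [evd, sem_top hP hp hm r i s c t hc]
    simp only [topS2, topOut, rd, List.getD_cons_zero, dec_enc, not_lt.2 hrad, or_false] at t3 ⊢
    by_cases hF : FF x y (r * P.L) i s.1 s.2 ≤ P.F0
    · have e : min (FF x y (r * P.L) i s.1 s.2) (P.F0 + 1) = FF x y (r * P.L) i s.1 s.2 := by omega
      simp only [e, hF, true_or, if_true, List.map_nil, seq_nil, pure_bind, map_pure, dec_enc]
    · have e : ¬ min (FF x y (r * P.L) i s.1 s.2) (P.F0 + 1) ≤ P.F0 := by omega
      simp only [e, hF, false_or, if_false] at t3 ⊢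
      by_cases hr0 : r = 0
      · simp only [hr0, if_true, List.map_nil, seq_nil, pure_bind, map_pure, dec_enc]
      · simp only [hr0, if_false] at t3 ⊢
        rw [← evd_top' hP r i s c t (t3 _ (List.mem_singleton_self _)), map_bind]
        exact (sem_one (β := ℕ) _ _ RT.pure).trans (bind_pure _)

/-- Equal strings: the root is cheap. -/
theorem ev_root_zero (hP : Good P) (hm : MemOk P mem x y) (h : x = y) :
    alg.ev P (realPrim P mem) (root P) = .pure (enc (0 : ℕ)) := by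
  have hx : x.length ≤ 2 ^ (P.H * P.L) := by
    have h1 := hP.N_lt
    have h2 : 2 ^ P.hh ≤ 2 ^ (P.H * P.L) := Nat.pow_le_pow_right (by norm_num) hP.hh_le_HL
    rw [← hm.hx]
    omega
  have hF : FF x y (P.H * P.L) 0 0 ((P.2.1 : ℤ) - P.1) = 0 := by
    rw [hm.hx, hm.hy, FF_root x y hx, ← h, editDist_self]
  rw [root, sem_top hP (prOk_real P mem) hm _ _ _ _ _ fun h => absurd rfl h]
  simp only [hF, topS2, topOut, rd, List.getD_cons_zero, dec_enc, Nat.zero_min, Nat.zero_le, true_or,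
    if_true, List.map_nil, seq_nil, pure_bind]

end Crest.Agent.R288
end

-- ▼ part PVb/R288/SzsA
section

/-!
# R288/SzsA: boxes, typed size judgements (framework; owner helper18)

`N = nn P = 2 ^ kP` bounds all small parameters.  `bx N Y a`: the binary numbers in `a` are `≤ Y` (in absolute
value), the unary numbers are `≤ N`, the lists have length `≤ N ^ 3`.
`GT P mem M n j k q`: the call `k` has size `≤ M ^ j`, and for fuel `m ≤ n` its call tree has sizes `≤ M ^ 40`
and its results are codes of values `b` with `q b` (of size `≤ M ^ j`).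
`St … n ks R`: the same for a list of calls, whose list of results satisfies `R`.
`Body … n s1 s2 out q`: the two stages are fine and the output satisfies `q`.
-/

set_option autoImplicit false

namespace Crest.Agent.R288.Sz

open Crest.Agent.Lib.PT RT

/-- `N = 2 ^ kP` -/
def nn (P : Par) : ℕ := 2 ^ P.kP

/-- Types with boxes. -/
class Bx (α : Type) [Enc α] where
  /-- the box -/
  bx : ℕ → ℕ → α → Prop
  /-- the degree of the size bound -/
  deg : ℕ
  mono : ∀ {N Y Y' : ℕ} {a : α}, bx N Y a → Y ≤ Y' → bx N Y' a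
  sz_le : ∀ {N Y M : ℕ} {a : α}, bx N Y a → N ^ 3 ≤ M → 5 ≤ N → Y < 2 ^ M → sz a ≤ M ^ deg

export Bx (bx deg)

theorem szsa_M {N M : ℕ} (h : N ^ 3 ≤ M) (h5 : 5 ≤ N) : 125 ≤ M ∧ 25 * N ≤ M := by
  have h1 : 5 ^ 3 ≤ N ^ 3 := Nat.pow_le_pow_left h5 3
  have h2 : 5 ^ 2 * N ≤ N ^ 2 * N := Nat.mul_le_mul_right _ (Nat.pow_le_pow_left h5 2)
  have h3 : N ^ 2 * N = N ^ 3 := by ring
  omega

instance bxNat : Bx ℕ where
  bx _ Y a := a ≤ Y
  deg := 2
  mono h h' := h.trans h'
  sz_le {N Y M a} h h1 h2 h3 := by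
    have := sz_nat_le_of_lt (lt_of_le_of_lt h h3)
    have := (szsa_M h1 h2).1
    nlinarith

instance bxInt : Bx ℤ where
  bx _ Y a := a.natAbs ≤ Y
  deg := 2
  mono h h' := h.trans h'
  sz_le {N Y M a} h h1 h2 h3 := by
    have := sz_int_le_of_lt (lt_of_le_of_lt h h3)
    have := (szsa_M h1 h2).1
    nlinarith

instance bxUn : Bx Un where
  bx N _ a := a.n ≤ N
  deg := 2
  mono h _ := h
  sz_le {N Y M a} h h1 h2 _ := by
    have := szsa_M h1 h2
    rw [sz_un]
    nlinarith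

instance bxBool : Bx Bool where
  bx _ _ _ := True
  deg := 1
  mono h _ := h
  sz_le {N Y M a} _ h1 h2 _ := by
    have := sz_bool_le a
    have := (szsa_M h1 h2).1
    rw [pow_one]
    omega

instance bxProd {α β : Type} [Enc α] [Enc β] [Bx α] [Bx β] : Bx (α × β) where
  bx N Y p := bx N Y p.1 ∧ bx N Y p.2
  deg := max (deg α) (deg β) + 1
  mono h h' := ⟨Bx.mono h.1 h', Bx.mono h.2 h'⟩
  sz_le {N Y M a} h h1 h2 h3 := by
    have a1 := Bx.sz_le h.1 h1 h2 h3
    have a2 := Bx.sz_le h.2 h1 h2 h3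
    have a3 := (szsa_M h1 h2).1
    have a4 : M ^ deg α ≤ M ^ max (deg α) (deg β) := Nat.pow_le_pow_right (by omega) (le_max_left _ _)
    have a5 : M ^ deg β ≤ M ^ max (deg α) (deg β) := Nat.pow_le_pow_right (by omega) (le_max_right _ _)
    have a6 : 0 < M ^ max (deg α) (deg β) := by positivity
    rw [sz_prod, pow_succ]
    nlinarith

instance bxList {α : Type} [Enc α] [Bx α] : Bx (List α) where
  bx N Y l := l.length ≤ N ^ 3 ∧ ∀ a ∈ l, bx N Y a
  deg := deg α + 2
  mono h h' := ⟨h.1, fun a ha => Bx.mono (h.2 a ha) h'⟩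
  sz_le {N Y M l} h h1 h2 h3 := by
    have a1 := sz_list_le (l := l) (B := M ^ deg α) fun a ha => Bx.sz_le (h.2 a ha) h1 h2 h3
    have a2 := Nat.mul_le_mul_right (M ^ deg α + 1) (h.1.trans h1)
    have a3 := (szsa_M h1 h2).1
    have a6 : 0 < M ^ deg α := by positivity
    have a7 : 125 * (M * M ^ deg α) ≤ M * (M * M ^ deg α) := Nat.mul_le_mul_right _ a3
    have a8 : M * 1 ≤ M * M ^ deg α := Nat.mul_le_mul_left _ a6
    rw [pow_succ', pow_succ']
    rw [mul_add M] at a2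
    omega

instance bxOption {α : Type} [Enc α] [Bx α] : Bx (Option α) where
  bx N Y o := ∀ a, o = some a → bx N Y a
  deg := deg α + 1
  mono h h' := fun a ha => Bx.mono (h a ha) h'
  sz_le {N Y M o} h h1 h2 h3 := by
    have a3 := (szsa_M h1 h2).1
    have a6 : 0 < M ^ deg α := by positivity
    rw [pow_succ]
    cases o with
    | none => rw [sz_none]; nlinarith
    | some a =>
      have a1 := Bx.sz_le (h a rfl) h1 h2 h3
      rw [sz_some]
      nlinarith

section simps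

variable {N Y : ℕ} {α β : Type} [Enc α] [Enc β] [Bx α] [Bx β]

@[simp] theorem bx_nat (a : ℕ) : bx N Y a ↔ a ≤ Y := Iff.rfl
@[simp] theorem bx_int (a : ℤ) : bx N Y a ↔ a.natAbs ≤ Y := Iff.rfl
@[simp] theorem bx_un (a : Un) : bx N Y a ↔ a.n ≤ N := Iff.rfl
@[simp] theorem bx_bool (a : Bool) : bx N Y a ↔ True := Iff.rfl
@[simp] theorem bx_mk (a : α) (b : β) : bx N Y (a, b) ↔ bx N Y a ∧ bx N Y b := Iff.rfl
theorem bx_list (l : List α) : bx N Y l ↔ l.length ≤ N ^ 3 ∧ ∀ a ∈ l, bx N Y a := Iff.rfl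
@[simp] theorem bx_none : bx N Y (none : Option α) := fun _ h => by cases h
@[simp] theorem bx_some (a : α) : bx N Y (some a) ↔ bx N Y a :=
  ⟨fun h => h a rfl, fun h _ e => Option.some.inj e ▸ h⟩
@[simp] theorem bx_nil : bx N Y ([] : List α) := ⟨Nat.zero_le _, fun _ h => absurd h List.not_mem_nil⟩

theorem bx_getD {l : List α} (h : bx N Y l) (j : ℕ) {d : α} (hd : bx N Y d) : bx N Y (l.getD j d) := by
  rw [List.getD_eq_getElem?_getD]
  cases e : l[j]? with
  | none => exact hd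
  | some a => exact h.2 a (List.mem_of_getElem? e)

end simps

/-! ### Arithmetic of the ladder `X * N ^ j` -/

theorem lad_mono {N : ℕ} (hN : 100 ≤ N) (X : ℕ) {i j : ℕ} (h : i ≤ j) : X * N ^ i ≤ X * N ^ j :=
  Nat.mul_le_mul_left _ (Nat.pow_le_pow_right (by omega) h)

theorem lad_le {N : ℕ} (hN : 100 ≤ N) (X j : ℕ) : X ≤ X * N ^ j :=
  Nat.le_mul_of_pos_right _ (Nat.pow_pos (by omega))

/-- one rung is a hundred times the previous one (feed to `omega`) -/
theorem lad_step {N : ℕ} (hN : 100 ≤ N) (X j : ℕ) : 100 * (X * N ^ j) ≤ X * N ^ (j + 1) := by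
  rw [pow_succ, ← mul_assoc X, mul_comm 100]
  exact Nat.mul_le_mul_left _ hN

theorem lad_mul {N X a b i j : ℕ} (ha : a ≤ X * N ^ i) (hb : b ≤ N ^ j) : a * b ≤ X * N ^ (i + j) := by
  rw [pow_add, ← mul_assoc]
  exact Nat.mul_le_mul ha hb

theorem lad_mul_N {N X a b i : ℕ} (ha : a ≤ X * N ^ i) (hb : b ≤ N) : a * b ≤ X * N ^ (i + 1) := by
  rw [pow_succ, ← mul_assoc]
  exact Nat.mul_le_mul ha hb

theorem lad_assoc (N X i j : ℕ) : X * N ^ i * N ^ j = X * N ^ (i + j) := by rw [pow_add, mul_assoc]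

/-- `100 N ≤ N ^ 2`, `100 N ^ 2 ≤ N ^ 3` -/
theorem lad_pow {N : ℕ} (hN : 100 ≤ N) : 100 * N ≤ N ^ 2 ∧ 100 * N ^ 2 ≤ N ^ 3 := by
  have h1 := lad_step hN 1 1
  have h2 := lad_step hN 1 2
  simp only [one_mul, pow_one] at h1 h2
  exact ⟨h1, h2⟩

/-! ### Judgements -/

/-- The environment. -/
structure Env (P : Par) (mem : ℕ → ℕ) (M : ℕ) : Prop where
  good : Good P
  big : nn P ^ 3 ≤ M
  sym : ∀ a, mem a < 2 ^ M

/-- Typed size judgement for a call. -/
structure GT (P : Par) (mem : ℕ → ℕ) (M n j : ℕ) (k : Call) {β : Type} [Enc β] (q : β → Prop) : Prop where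
  szk : sz k ≤ M ^ j
  run : ∀ m ≤ n, ∀ c, alg.Cst P m c k → alg.Szb P (realPrim P mem) (M ^ 40) m k ∧
    (alg.eval P (realPrim P mem) m k).All fun v => ∃ b, v = enc b ∧ q b ∧ sz b ≤ M ^ j

/-- Size judgement for a stage. -/
structure St (P : Par) (mem : ℕ → ℕ) (M n : ℕ) (ks : List Call) (R : List V → Prop) : Prop where
  len : ks.length ≤ M ^ 40
  run : ∀ m ≤ n, (∀ k ∈ ks, ∃ c, alg.Cst P m c k) → (∀ k ∈ ks, alg.Szb P (realPrim P mem) (M ^ 40) m k) ∧
    (seq (ks.map (alg.eval P (realPrim P mem) m))).All R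

/-- The two stages and the output. -/
def Body (P : Par) (mem : ℕ → ℕ) (M n : ℕ) (s1 : List Call) (s2 : List V → List Call) (out : List V → List V → V)
    {β : Type} [Enc β] (q : β → Prop) : Prop :=
  ∃ R1, St P mem M n s1 R1 ∧ ∀ r1, R1 r1 → ∃ R2, St P mem M n (s2 r1) R2 ∧
    ∀ r2, R2 r2 → ∃ b, out r1 r2 = enc b ∧ q b

/-- The stages of the call `k`. -/
structure Eqs (P : Par) (k : Call) (s1 : List Call) (s2 : List V → List Call) (out : List V → List V → V) : Prop where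
  tag : 2 ≤ k.1 ∧ k.1 ≤ 22
  e1 : algS1 P k = s1
  e2 : ∀ r1, algS2 P k r1 = s2 r1
  e3 : ∀ r1 r2, algOut P k r1 r2 = out r1 r2

/-- Invariant of the banded programme and of the gap tests at height `e`. -/
structure Lo (P : Par) (M e Y : ℕ) : Prop where
  N_le : nn P ≤ Y
  h_le : 2 ^ P.hh ≤ Y
  e_le : e ≤ nn P
  fit : Y * nn P ^ (3 * (e + 1)) < 2 ^ M

/-- Invariant at block level `r`. -/
structure Lv (P : Par) (M r X : ℕ) : Prop where
  N_le : nn P ≤ X
  h_le : 2 ^ (2 * P.hh) ≤ X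
  r_le : r ≤ P.H
  fit : X * nn P ^ (12 * (r + 1) + 6 * P.hh + 6) < 2 ^ M

/-- Bound for the value of a state. -/
def topB (P : Par) (r : ℕ) (s : ℤ × ℤ) (c : Option Ctx) : ℕ :=
  max P.F0 (c.elim (2 ^ (r * P.L) + (s.2 - s.1).natAbs) (cap P))

/-- The claim for `cTop`. -/
def TopC (P : Par) (mem : ℕ → ℕ) (M n : ℕ) : Prop :=
  ∀ (r X i : ℕ) (s : ℤ × ℤ) (c : Option Ctx) (t : ℕ), Lv P M r X → i ≤ X → bx (nn P) (X * nn P ^ 2) s →
    bx (nn P) X c → t ≤ nn P → GT P mem M n 20 (cTop r i s c t) fun v : ℕ => v ≤ topB P r s c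

/-- The claim for `cSN`. -/
def SnC (P : Par) (mem : ℕ → ℕ) (M n : ℕ) : Prop :=
  ∀ (r X i : ℕ) (pl : Plan) (hb p : ℕ) (s : ℤ × ℤ) (k0 q t : ℕ), Lv P M r X → 1 ≤ r → i ≤ X →
    bx (nn P) (X * nn P ^ 8) pl → hb ≤ P.L → p < 2 ^ (P.L - hb) → bx (nn P) (X * nn P ^ 11) s →
    k0 + q * nn P ≤ nn P ^ 2 → t ≤ nn P →
    GT P mem M n 20 (cSN r i pl hb p s k0 q t) fun v : ℕ => v ≤ 2 ^ hb * (X * nn P ^ 10)

end Crest.Agent.R288.Sz
end

-- ▼ part PVb/R288/SzsB
section

/-!
# R288/SzsB: rules for `GT`, `St`, `Body`; the generic calls; the stage equations (owner helper18)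
-/

set_option autoImplicit false

namespace Crest.Agent.R288.Sz

open Crest.Agent.Lib.PT RT

variable {P : Par} {mem : ℕ → ℕ} {M n j : ℕ} {α β γ : Type} [Enc α] [Enc β] [Enc γ]

/-! ### Decoding results -/

@[simp] theorem rd_zero [Dec β] (a : β) (l : List V) : (rd (enc a :: l) 0 : β) = a := by simp [rd]

@[simp] theorem rd_succ [Dec β] (v : V) (l : List V) (i : ℕ) : (rd (v :: l) (i + 1) : β) = rd l i := by simp [rd]

theorem rd_one [Dec β] (v : V) (a : β) (l : List V) : (rd (v :: enc a :: l) 1 : β) = a := by simp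


@[simp] theorem rds_map_enc [Dec β] (l : List β) : (rds (l.map enc) : List β) = l := by
  simp [rds, List.map_map, Function.comp_def]

theorem rd_map_enc [Dec β] {q : β → Prop} {l : List β} (h : ∀ b ∈ l, q b) (h0 : q (dec V.nil)) (i : ℕ) :
    q (rd (l.map enc) i) := by
  unfold rd
  rw [List.getD_eq_getElem?_getD, List.getElem?_map]
  cases e : l[i]? with
  | none => exact h0
  | some a => simpa using h a (List.mem_of_getElem? e)



theorem enc_map_enc (l : List β) : enc (l.map enc : List V) = enc l := by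
  induction l with
  | nil => rfl
  | cons a l ih => rw [List.map_cons, enc_cons, enc_cons, ih, enc_V]

/-! ### Rules -/

theorem _root_.Crest.Agent.R288.Good.szsb_nn (h : Good P) : 5 ≤ nn P := by
  have h1 := h.ll_kR
  have h2 := h.aux_ll_ne
  have h3 : P.kP < 2 ^ P.kP := Nat.lt_two_pow_self
  rw [Par.kP.eq_1] at h3
  rw [nn, Par.kP.eq_1]
  omega

theorem Env.szsb_M (E : Env P mem M) : 125 ≤ M := (szsa_M E.big E.good.szsb_nn).1

theorem Env.szsb_len (E : Env P mem M) {a : ℕ} (h : a ≤ 125) : a ≤ M ^ 40 :=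
  (h.trans E.szsb_M).trans (Nat.le_self_pow (by norm_num) _)

theorem szsb_pow (hM : 125 ≤ M) (j : ℕ) : M * M ^ j + M ^ j + 100 * M ≤ M ^ (j + 2) := by
  have h1 : 0 < M ^ j := by positivity
  have h2 : 125 * (M * M ^ j) ≤ M * (M * M ^ j) := Nat.mul_le_mul_right _ hM
  have h3 : M * 1 ≤ M * M ^ j := Nat.mul_le_mul_left _ h1
  have h4 : 1 * M ^ j ≤ M * M ^ j := Nat.mul_le_mul_right _ (by omega)
  rw [pow_succ', pow_succ']
  omega

theorem szsb_ofBits (l : List Bool) : ofBits l < 2 ^ l.length := by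
  induction l with
  | nil => simp
  | cons b l ih =>
    rw [ofBits_cons, Nat.bit_val, List.length_cons, pow_succ]
    have := b.toNat_le
    omega

theorem GT.szsb_sized {k : Call} {q : β → Prop} (h : GT P mem M n j k q) :
    GT P mem M n j k fun b => q b ∧ sz b ≤ M ^ j := by
  refine ⟨h.szk, fun m hm c hc => ⟨(h.run m hm c hc).1, (h.run m hm c hc).2.mono ?_⟩⟩
  rintro v ⟨b, h2, h3, h4⟩
  exact ⟨b, h2, ⟨h3, h4⟩, h4⟩

theorem St.szsb_mono {ks : List Call} {R R' : List V → Prop} (h : St P mem M n ks R) (hR : ∀ r, R r → R' r) :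
    St P mem M n ks R' :=
  ⟨h.len, fun m hm hc => ⟨(h.run m hm hc).1, (h.run m hm hc).2.mono hR⟩⟩

theorem St.szsb_anti {ks : List Call} {R : List V → Prop} {n' : ℕ} (h : St P mem M n ks R) (hn : n' ≤ n) :
    St P mem M n' ks R :=
  ⟨h.len, fun m hm hc => h.run m (hm.trans hn) hc⟩

theorem Body.szsb_anti {s1 : List Call} {s2 : List V → List Call} {out : List V → List V → V} {q : β → Prop} {n' : ℕ}
    (h : Body P mem M n s1 s2 out q) (hn : n' ≤ n) : Body P mem M n' s1 s2 out q := by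
  obtain ⟨R1, h1, h2⟩ := h
  refine ⟨R1, h1.szsb_anti hn, fun r1 hr => ?_⟩
  obtain ⟨R2, h3, h4⟩ := h2 r1 hr
  exact ⟨R2, h3.szsb_anti hn, h4⟩

theorem Body.szsb_imp {s1 : List Call} {s2 : List V → List Call} {out : List V → List V → V} {q q' : β → Prop}
    (h : Body P mem M n s1 s2 out q) (hq : ∀ b, q b → q' b) : Body P mem M n s1 s2 out q' := by
  obtain ⟨R1, h1, h2⟩ := h
  refine ⟨R1, h1, fun r1 hr => ?_⟩
  obtain ⟨R2, h3, h4⟩ := h2 r1 hr
  refine ⟨R2, h3, fun r2 hr2 => ?_⟩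
  obtain ⟨b, h5, h6⟩ := h4 r2 hr2
  exact ⟨b, h5, hq b h6⟩

theorem szsb_cons {k : Call} {ks : List Call} {q : β → Prop} {R : List V → Prop} (h : GT P mem M n j k q)
    (h' : St P mem M n ks R) (hl : (k :: ks).length ≤ M ^ 40) :
    St P mem M n (k :: ks) fun r => ∃ a r', r = enc a :: r' ∧ q a ∧ R r' := by
  refine ⟨hl, fun m hm hc => ?_⟩
  obtain ⟨c, h1⟩ := hc k List.mem_cons_self
  obtain ⟨h2, h3⟩ := h.run m hm c h1
  obtain ⟨h4, h5⟩ := h'.run m hm fun k' hk' => hc k' (List.mem_cons_of_mem _ hk')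
  refine ⟨fun k' hk' => ?_, ?_⟩
  · rcases List.mem_cons.1 hk' with rfl | hk'
    · exact h2
    · exact h4 k' hk'
  · rw [List.map_cons, All_seq_cons]
    refine h3.mono ?_
    rintro _ ⟨b, rfl, h6, -⟩
    exact h5.mono fun r hr => ⟨b, r, rfl, h6, hr⟩

theorem szsb_prim (E : Env P mem M) {k : Call} {t : RT V} {q : β → Prop} (ht : realPrim P mem k = some t)
    (hk : sz k ≤ M ^ 20) (h : t.All fun v => ∃ b, v = enc b ∧ q b ∧ sz b ≤ M ^ 20) : GT P mem M n 20 k q := by
  have h1 : M ^ 20 ≤ M ^ 40 := Nat.pow_le_pow_right (by have := E.szsb_M; omega) (by norm_num)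
  refine ⟨hk, fun m _ c hc => ?_⟩
  cases m with
  | zero => exact hc.elim
  | succ m =>
    have h2 : alg.eval P (realPrim P mem) (m + 1) k = t := by simp only [Scheme.eval, ht, Option.getD_some]
    refine ⟨⟨hk.trans h1, ?_, fun e => by rw [ht] at e; cases e⟩, h2 ▸ h⟩
    rw [h2]
    refine h.mono ?_
    rintro _ ⟨b, rfl, -, h3⟩
    exact h3.trans h1

theorem szsb_coin (E : Env P mem M) : GT P mem M n 20 cCoin fun _ : Bool => True := by
  have hM := E.szsb_M
  have a5 : M ≤ M ^ 20 := Nat.le_self_pow (by norm_num) _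
  refine szsb_prim E (t := .coin (.pure (enc false)) (.pure (enc true))) (by simp [realPrim, cCoin]) ?_
    ⟨⟨false, rfl, trivial, (sz_bool_le _).trans (by omega)⟩, ⟨true, rfl, trivial, (sz_bool_le _).trans (by omega)⟩⟩
  have a6 : sz cCoin = 3 := rfl
  omega

theorem szsb_core (E : Env P mem M) {k : Call} {s1 : List Call} {s2 : List V → List Call}
    {out : List V → List V → V} (he : Eqs P k s1 s2 out) (hk : sz k ≤ M ^ j) (hj : j ≤ 40) {q : β → Prop}
    (h : ∀ n' < n, Body P mem M n' s1 s2 out fun b => q b ∧ sz b ≤ M ^ j) : GT P mem M n j k q := by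
  have h1 : M ^ j ≤ M ^ 40 := Nat.pow_le_pow_right (by have := E.szsb_M; omega) hj
  refine ⟨hk, fun m hm c hc => ?_⟩
  cases m with
  | zero => exact hc.elim
  | succ m =>
    have ht := he.tag.1
    have e : realPrim P mem k = none := by
      unfold realPrim
      rw [if_neg (by omega), if_neg (by omega)]
    obtain ⟨f1, g1, g2⟩ := hc.2.resolve_left (by omega)
    obtain ⟨R1, b1, b2⟩ := h m hm
    have e1 : alg.s1 P k = s1 := he.e1
    have e2 : ∀ r1, alg.s2 P k r1 = s2 r1 := he.e2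
    have e3 : ∀ r1 r2, alg.out P k r1 r2 = out r1 r2 := he.e3
    rw [e1] at g1
    obtain ⟨a0, a1⟩ := b1.run m le_rfl fun k' hk' => ⟨_, g1 k' hk'⟩
    have a2 : ∀ r1, ∀ k' ∈ s2 r1, ∃ c, alg.Cst P m c k' := fun r1 k' hk' => by
      obtain ⟨f2, g3, -⟩ := g2 r1
      rw [e2] at g3
      exact ⟨_, g3 k' hk'⟩
    have a3 : (alg.eval P (realPrim P mem) (m + 1) k).All fun v => ∃ b, v = enc b ∧ q b ∧ sz b ≤ M ^ j := by
      simp only [Scheme.eval, e, Option.getD_none, Scheme.body, All_bind, All_pure, e1, e2, e3]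
      refine a1.mono fun r1 hr1 => ?_
      obtain ⟨R2, c1, c2⟩ := b2 r1 hr1
      exact (c1.run m le_rfl (a2 r1)).2.mono c2
    refine ⟨⟨hk.trans h1, a3.mono ?_, fun _ => ?_⟩, a3⟩
    · rintro _ ⟨b, rfl, -, h3⟩
      exact h3.trans h1
    · rw [e1]
      refine ⟨b1.len, a0, a1.mono fun r1 hr1 => ?_⟩
      obtain ⟨R2, c1, -⟩ := b2 r1 hr1
      rw [e2]
      exact ⟨c1.len, (c1.run m le_rfl (a2 r1)).1⟩

theorem GT.mono {k : Call} {q q' : β → Prop} {n' j' : ℕ} (E : Env P mem M) (h : GT P mem M n j k q) (hn : n' ≤ n)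
    (hj : j ≤ j') (hq : ∀ b, q b → q' b) : GT P mem M n' j' k q' := by
  have h1 : M ^ j ≤ M ^ j' := Nat.pow_le_pow_right (by have := E.szsb_M; omega) hj
  refine ⟨h.szk.trans h1, fun m hm c hc => ⟨(h.run m (hm.trans hn) c hc).1,
    (h.run m (hm.trans hn) c hc).2.mono ?_⟩⟩
  rintro v ⟨b, h2, h3, h4⟩
  exact ⟨b, h2, hq b h3, h4.trans h1⟩

theorem GT.imp {k : Call} {q q' : β → Prop} (h : GT P mem M n j k q) (hq : ∀ b, q b → q' b) :
    GT P mem M n j k q' := by
  refine ⟨h.szk, fun m hm c hc => ⟨(h.run m hm c hc).1, (h.run m hm c hc).2.mono ?_⟩⟩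
  rintro v ⟨b, h2, h3, h4⟩
  exact ⟨b, h2, hq b h3, h4⟩

theorem St.nil (E : Env P mem M) : St P mem M n [] fun r => r = [] := by
  have _ := E
  exact ⟨Nat.zero_le _, fun m _ _ => ⟨fun k hk => absurd hk List.not_mem_nil, rfl⟩⟩

theorem St.one (E : Env P mem M) {k : Call} {q : α → Prop} (h : GT P mem M n j k q) :
    St P mem M n [k] fun r => ∃ a, r = [enc a] ∧ q a := by
  refine (szsb_cons h (St.nil E) (E.szsb_len (by simp))).szsb_mono ?_
  rintro _ ⟨a, _, rfl, ha, rfl⟩
  exact ⟨a, rfl, ha⟩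

theorem St.two (E : Env P mem M) {k k' : Call} {q : α → Prop} {q' : β → Prop} {j' : ℕ} (h : GT P mem M n j k q)
    (h' : GT P mem M n j' k' q') : St P mem M n [k, k'] fun r => ∃ a b, r = [enc a, enc b] ∧ q a ∧ q' b := by
  refine (szsb_cons h (St.one E h') (E.szsb_len (by simp))).szsb_mono ?_
  rintro _ ⟨a, _, rfl, ha, b, rfl, hb⟩
  exact ⟨a, b, rfl, ha, hb⟩

theorem St.three (E : Env P mem M) {k k' k'' : Call} {q : α → Prop} {q' : β → Prop} {q'' : γ → Prop} {j' j'' : ℕ}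
    (h : GT P mem M n j k q) (h' : GT P mem M n j' k' q') (h'' : GT P mem M n j'' k'' q'') :
    St P mem M n [k, k', k''] fun r => ∃ a b c, r = [enc a, enc b, enc c] ∧ q a ∧ q' b ∧ q'' c := by
  refine (szsb_cons h (St.two E h' h'') (E.szsb_len (by simp))).szsb_mono ?_
  rintro _ ⟨a, _, rfl, ha, b, c, rfl, hb, hc⟩
  exact ⟨a, b, c, rfl, ha, hb, hc⟩

theorem St.hom (E : Env P mem M) {ks : List Call} {q : β → Prop} (h : ∀ k ∈ ks, GT P mem M n j k q)
    (hl : ks.length ≤ nn P ^ 3) :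
    St P mem M n ks fun r => ∃ l : List β, r = l.map enc ∧ l.length = ks.length ∧ ∀ b ∈ l, q b := by
  induction ks with
  | nil => exact (St.nil E).szsb_mono fun r hr => ⟨[], hr, rfl, fun b hb => absurd hb List.not_mem_nil⟩
  | cons k ks ih =>
    have h1 := ih (fun k' hk' => h k' (List.mem_cons_of_mem _ hk')) ((Nat.le_succ _).trans hl)
    refine (szsb_cons (h k List.mem_cons_self) h1 ((hl.trans E.big).trans
      (Nat.le_self_pow (by norm_num) _))).szsb_mono ?_
    rintro _ ⟨a, _, rfl, ha, l, rfl, h2, h3⟩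
    refine ⟨a :: l, rfl, by simp [h2], fun b hb => ?_⟩
    rcases List.mem_cons.1 hb with rfl | hb
    · exact ha
    · exact h3 b hb

/-- two stages -/
theorem Body.two {s1 : List Call} {s2 : List V → List Call} {out : List V → List V → V} {q : β → Prop}
    {R1 : List V → Prop} (h1 : St P mem M n s1 R1) (h2 : ∀ r1, R1 r1 → ∃ R2, St P mem M n (s2 r1) R2 ∧
      ∀ r2, R2 r2 → ∃ b, out r1 r2 = enc b ∧ q b) : Body P mem M n s1 s2 out q := ⟨R1, h1, h2⟩

/-- the second stage is empty -/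
theorem Body.one (E : Env P mem M) {s1 : List Call} {s2 : List V → List Call} {out : List V → List V → V}
    {q : β → Prop} {R1 : List V → Prop} (h1 : St P mem M n s1 R1)
    (h2 : ∀ r1, R1 r1 → s2 r1 = [] ∧ ∃ b, out r1 [] = enc b ∧ q b) : Body P mem M n s1 s2 out q :=
  ⟨R1, h1, fun r1 hr => ⟨fun r => r = [], by rw [(h2 r1 hr).1]; exact St.nil E,
    fun _ e => by rw [e]; exact (h2 r1 hr).2⟩⟩

/-- The main rule, for recursive calls. -/
theorem GT.of_body [Bx α] [Bx β] (E : Env P mem M) {tag : ℕ} {a : α} {s1 : List Call} {s2 : List V → List Call}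
    {out : List V → List V → V} (he : Eqs P (tag, enc a) s1 s2 out) {Y Y' : ℕ} (ha : bx (nn P) Y a) (hY : Y < 2 ^ M)
    {q : β → Prop} (hq : ∀ b, q b → bx (nn P) Y' b) (hY' : Y' < 2 ^ M)
    (h : ∀ n' < n, Body P mem M n' s1 s2 out q) (hα : deg α ≤ 19 := by decide) (hβ : deg β ≤ 20 := by decide) :
    GT P mem M n 20 (tag, enc a) q := by
  have hN := E.good.szsb_nn
  have hM := E.szsb_M
  have a1 := Bx.sz_le ha E.big hN hY
  have a2 : M ^ deg α ≤ M ^ 19 := Nat.pow_le_pow_right (by omega) hα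
  have a3 : M ^ deg β ≤ M ^ 20 := Nat.pow_le_pow_right (by omega) hβ
  refine szsb_core E he ?_ (by norm_num) fun n' hn' => ?_
  · have a4 : sz tag ≤ 4 * 5 + 1 := sz_nat_le_of_lt (lt_of_le_of_lt he.tag.2 (by norm_num))
    have a5 : M ≤ M ^ 19 := Nat.le_self_pow (by norm_num) _
    have a6 : 125 * M ^ 19 ≤ M * M ^ 19 := Nat.mul_le_mul_right _ hM
    have a7 : sz (enc a : V) = sz a := rfl
    rw [sz_mk, a7, pow_succ']
    omega
  · exact (h n' hn').szsb_imp fun b hb => ⟨hb, (Bx.sz_le (hq b hb) E.big hN hY').trans a3⟩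

/-- The main rule, for calls that are not recursive. -/
theorem GT.of_body' [Bx α] [Bx β] (E : Env P mem M) {tag : ℕ} {a : α} {s1 : List Call} {s2 : List V → List Call}
    {out : List V → List V → V} (he : Eqs P (tag, enc a) s1 s2 out) {Y Y' : ℕ} (ha : bx (nn P) Y a) (hY : Y < 2 ^ M)
    {q : β → Prop} (hq : ∀ b, q b → bx (nn P) Y' b) (hY' : Y' < 2 ^ M)
    (h : Body P mem M n s1 s2 out q) (hα : deg α ≤ 19 := by decide) (hβ : deg β ≤ 20 := by decide) :
    GT P mem M n 20 (tag, enc a) q := by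
  exact GT.of_body E he ha hY hq hY' (fun n' hn' => h.szsb_anti hn'.le) hα hβ

/-! ### The generic calls -/

theorem gt_read (E : Env P mem M) {a : ℕ} (ha : a < 2 ^ M) : GT P mem M n 20 (cRead a) fun v : ℕ => v < 2 ^ M := by
  have hM := E.szsb_M
  have a1 := sz_nat_le_of_lt ha
  have a2 : M ^ 2 ≤ M ^ 20 := Nat.pow_le_pow_right (by omega) (by norm_num)
  have a3 : 125 * M ≤ M ^ 2 := by rw [sq]; exact Nat.mul_le_mul_right _ hM
  refine szsb_prim E (t := .pure (enc (mem (min a (P.1 + P.2.1 + 2))))) (by simp [realPrim, cRead]) ?_ ?_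
  · have a4 : sz (1 : ℕ) ≤ 4 * 1 + 1 := sz_nat_le_self 1
    have a5 : sz (enc a : V) = sz a := rfl
    rw [cRead, sz_mk, a5]
    omega
  · have a4 := sz_nat_le_of_lt (E.sym (min a (P.1 + P.2.1 + 2)))
    exact ⟨_, rfl, E.sym _, by omega⟩

theorem gt_rnd (E : Env P mem M) {e : ℕ} (he : e ≤ nn P) : GT P mem M n 20 (cRnd e) fun v : ℕ => v < 2 ^ e := by
  have hN := E.good.szsb_nn
  have a1 := (szsa_M E.big hN).2
  have a2 : e ≤ nn P ^ 3 := he.trans (Nat.le_self_pow (by norm_num) _)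
  have hq : Eqs P (2, enc (Un.mk e)) (List.replicate e cCoin) (fun _ => []) fun r1 _ => enc (ofBits (rds r1)) :=
    ⟨by simp, by simp [algS1], fun _ => by simp [algS2], fun _ _ => by simp [algOut]⟩
  refine GT.of_body' E hq (Y := 0) he (by positivity) (Y' := 2 ^ e) (fun b hb => le_of_lt hb)
    (Nat.pow_lt_pow_right (by norm_num) (by omega)) ?_
  refine Body.one E (St.hom E (fun k hk => List.eq_of_mem_replicate hk ▸ szsb_coin E) (by simpa using a2)) ?_
  rintro _ ⟨l, rfl, hl, -⟩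
  refine ⟨rfl, _, rfl, ?_⟩
  rw [rds_map_enc, ← List.length_replicate (n := e) (a := cCoin), ← hl]
  exact szsb_ofBits l

theorem gt_avg (E : Env P mem M) {k : Call} {a e : ℕ} (h : GT P mem M n j k fun v : ℕ => v ≤ a) (ha : a < 2 ^ M)
    (he : e ≤ nn P) (hj : j + 2 ≤ 40 := by norm_num) : GT P mem M n (j + 2) (cAvg k e) fun v : ℕ => v ≤ a := by
  have hN := E.good.szsb_nn
  have hM := E.szsb_M
  have a1 := (szsa_M E.big hN).2
  have hq : Eqs P (3, enc (k, e)) (List.replicate (P.p2 e) k) (fun _ => [])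
      fun r1 _ => enc ((rds r1 : List ℕ).sum / P.p2 e) :=
    ⟨by simp, by simp [algS1], fun _ => by simp [algS2], fun _ _ => by simp [algOut]⟩
  have a2 : P.p2 e ≤ nn P ^ 3 := (E.good.p2_le e).trans (Nat.le_self_pow (by norm_num) _)
  have a3 := szsb_pow hM j
  refine szsb_core E hq ?_ hj fun n' hn' => Body.szsb_anti ?_ hn'.le
  · have a4 : sz (3 : ℕ) ≤ 4 * 3 + 1 := sz_nat_le_self 3
    have a5 : sz (enc (k, e) : V) = sz k + sz e + 1 := rfl
    have a6 := sz_nat_le_self e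
    have a7 := h.szk
    rw [sz_mk, a5]
    omega
  · refine Body.one E (St.hom E (fun k hk => List.eq_of_mem_replicate hk ▸ h) (by simpa using a2)) ?_
    rintro _ ⟨l, rfl, hl, hb⟩
    have a4 : l.sum / P.p2 e ≤ a := by
      have a5 := List.sum_le_card_nsmul l a hb
      rw [hl, List.length_replicate, smul_eq_mul] at a5
      exact Nat.div_le_of_le_mul a5
    have a5 := sz_nat_le_of_lt (lt_of_le_of_lt a4 ha)
    refine ⟨rfl, _, by rw [rds_map_enc], a4, by omega⟩

theorem gt_vec (E : Env P mem M) {ks : List Call} {q : β → Prop} (h : ∀ k ∈ ks, GT P mem M n j k q)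
    (hl : ks.length ≤ nn P ^ 3) (hj : j + 2 ≤ 40 := by norm_num) :
    GT P mem M n (j + 2) (cVec ks) fun l : List β => l.length = ks.length ∧ ∀ b ∈ l, q b := by
  have hM := E.szsb_M
  have hq : Eqs P (4, enc ks) ks (fun _ => []) fun r1 _ => enc r1 :=
    ⟨by simp, by simp [algS1], fun _ => by simp [algS2], fun _ _ => by simp [algOut]⟩
  have a3 := szsb_pow hM j
  have a2 := Nat.mul_le_mul_right (M ^ j + 1) (hl.trans E.big)
  rw [mul_add M] at a2
  refine szsb_core E hq ?_ hj fun n' hn' => Body.szsb_anti ?_ hn'.le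
  · have a4 : sz (4 : ℕ) ≤ 4 * 4 + 1 := sz_nat_le_self 4
    have a5 : sz (enc ks : V) = sz ks := rfl
    have a6 := sz_list_le (l := ks) fun k hk => (h k hk).szk
    rw [sz_mk, a5]
    omega
  · refine Body.one E (St.hom E (fun k hk => (h k hk).szsb_sized) hl) ?_
    rintro _ ⟨l, rfl, hl', hb⟩
    have a6 := sz_list_le (l := l) fun b hb' => (hb b hb').2
    rw [hl'] at a6
    exact ⟨rfl, l, enc_map_enc l, ⟨hl', fun b hb' => (hb b hb').1⟩, by omega⟩

/-- the same with boxes -/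
theorem gt_vec_bx [Bx β] (E : Env P mem M) {ks : List Call} {Y : ℕ}
    (h : ∀ k ∈ ks, GT P mem M n j k fun b : β => bx (nn P) Y b)
    (hl : ks.length ≤ nn P ^ 3) (hj : j + 2 ≤ 40 := by norm_num) :
    GT P mem M n (j + 2) (cVec ks) fun l : List β => bx (nn P) Y l :=
  (gt_vec E h hl hj).imp fun _ hb => ⟨hb.1 ▸ hl, hb.2⟩

theorem gt_sum (E : Env P mem M) {ks : List Call} {a Y : ℕ} (h : ∀ k ∈ ks, GT P mem M n j k fun v : ℕ => v ≤ a)
    (hl : ks.length ≤ nn P ^ 3) (hY : ks.length * a ≤ Y) (hY' : Y < 2 ^ M) (hj : j + 2 ≤ 40 := by norm_num) :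
    GT P mem M n (j + 2) (cSum ks) fun v : ℕ => v ≤ Y := by
  have hM := E.szsb_M
  have hq : Eqs P (5, enc ks) ks (fun _ => []) fun r1 _ => enc (rds r1 : List ℕ).sum :=
    ⟨by simp, by simp [algS1], fun _ => by simp [algS2], fun _ _ => by simp [algOut]⟩
  have a3 := szsb_pow hM j
  have a2 := Nat.mul_le_mul_right (M ^ j + 1) (hl.trans E.big)
  rw [mul_add M] at a2
  refine szsb_core E hq ?_ hj fun n' hn' => Body.szsb_anti ?_ hn'.le
  · have a4 : sz (5 : ℕ) ≤ 4 * 5 + 1 := sz_nat_le_self 5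
    have a5 : sz (enc ks : V) = sz ks := rfl
    have a6 := sz_list_le (l := ks) fun k hk => (h k hk).szk
    rw [sz_mk, a5]
    omega
  · refine Body.one E (St.hom E h hl) ?_
    rintro _ ⟨l, rfl, hl', hb⟩
    have a4 : l.sum ≤ Y := by
      have a5 := List.sum_le_card_nsmul l a hb
      rw [hl', smul_eq_mul] at a5
      exact a5.trans hY
    have a5 := sz_nat_le_of_lt (lt_of_le_of_lt a4 hY')
    refine ⟨rfl, _, by rw [rds_map_enc], a4, by omega⟩

/-- the empty sum, read as any value whose code is `nil` (`0`, `none`, `[]`) -/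
theorem gt_sum_nil (E : Env P mem M) {b0 : β} (h0 : enc b0 = V.nil) : GT P mem M n 20 (cSum []) fun b : β => b = b0 := by
  have hM := E.szsb_M
  have hq : Eqs P (5, enc ([] : List Call)) [] (fun _ => []) fun r1 _ => enc (rds r1 : List ℕ).sum :=
    ⟨by simp, by simp [algS1], fun _ => by simp [algS2], fun _ _ => by simp [algOut]⟩
  have a5 : M ≤ M ^ 20 := Nat.le_self_pow (by norm_num) _
  refine szsb_core E hq ?_ (by norm_num) fun n' _ => Body.one E (St.nil E) ?_
  · have a4 : sz (5 : ℕ) ≤ 4 * 5 + 1 := sz_nat_le_self 5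
    have a6 : sz (enc ([] : List Call) : V) = 1 := rfl
    rw [sz_mk, a6]
    omega
  · rintro _ rfl
    refine ⟨rfl, b0, h0.symm, rfl, ?_⟩
    rw [sz, h0, V.size_nil]
    omega

/-! ### The stage equations -/

theorem eqs_row (P : Par) (a : ARow) : Eqs P (6, enc a) (rowS1 P a) (rowS2 a) (rowOut P a) :=
  ⟨by simp, by simp [algS1], fun _ => by simp [algS2], fun _ _ => by simp [algOut]⟩
theorem eqs_small (P : Par) (a : ASmall) : Eqs P (7, enc a) (smallS1 a) (fun _ => []) fun r1 _ => smallOut a r1 :=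
  ⟨by simp, by simp [algS1], fun _ => by simp [algS2], fun _ _ => by simp [algOut]⟩
theorem eqs_orc (P : Par) (a : AOrc) : Eqs P (8, enc a) (orcS1 a) (fun _ => []) fun r1 _ => orcOut P a r1 :=
  ⟨by simp, by simp [algS1], fun _ => by simp [algS2], fun _ _ => by simp [algOut]⟩
theorem eqs_gap (P : Par) (a : AGap) : Eqs P (9, enc a) (gapS1 P a) (fun _ => []) fun r1 _ => gapOut P a r1 :=
  ⟨by simp, by simp [algS1], fun _ => by simp [algS2], fun _ _ => by simp [algOut]⟩
theorem eqs_graw (P : Par) (a : AGRaw) : Eqs P (10, enc a) (grawS1 P a) (fun _ => []) fun r1 _ => grawOut P a r1 :=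
  ⟨by simp, by simp [algS1], fun _ => by simp [algS2], fun _ _ => by simp [algOut]⟩
theorem eqs_gdraw (P : Par) (a : AGDraw) : Eqs P (11, enc a) [cRnd P.kb] (gdrawS2 P a) fun _ r2 => gdrawOut r2 :=
  ⟨by simp, by simp [algS1], fun _ => by simp [algS2], fun _ _ => by simp [algOut]⟩
theorem eqs_top (P : Par) (a : ATop) : Eqs P (12, enc a) (topS1 P a) (topS2 P a) (topOut P a) :=
  ⟨by simp, by simp [algS1], fun _ => by simp [algS2], fun _ _ => by simp [algOut]⟩
theorem eqs_top' (P : Par) (a : ATop) : Eqs P (13, enc a) (top'S1 P a) (top'S2 P a) (top'Out P a) :=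
  ⟨by simp, by simp [algS1], fun _ => by simp [algS2], fun _ _ => by simp [algOut]⟩
theorem eqs_gval (P : Par) (a : AScl) : Eqs P (14, enc a) (gvalS1 P a) (fun _ => []) fun r1 _ => gvalOut P a r1 :=
  ⟨by simp, by simp [algS1], fun _ => by simp [algS2], fun _ _ => by simp [algOut]⟩
theorem eqs_plan (P : Par) (a : AScl) : Eqs P (15, enc a) (planS1 P a) (fun _ => []) fun r1 _ => planOut P a r1 :=
  ⟨by simp, by simp [algS1], fun _ => by simp [algS2], fun _ _ => by simp [algOut]⟩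
theorem eqs_sval (P : Par) (a : AScl) : Eqs P (16, enc a) (svalS1 P a) (svalS2 P a) (svalOut P a) :=
  ⟨by simp, by simp [algS1], fun _ => by simp [algS2], fun _ _ => by simp [algOut]⟩
theorem eqs_sn (P : Par) (a : ASN) : Eqs P (17, enc a) (snS1 P a) (snS2 P a) (snOut a) :=
  ⟨by simp, by simp [algS1], fun _ => by simp [algS2], fun _ _ => by simp [algOut]⟩
theorem eqs_past (P : Par) (a : ACtx) : Eqs P (18, enc a) (pastS1 P a) (fun _ => []) fun r1 _ => pastOut' r1 :=
  ⟨by simp, by simp [algS1], fun _ => by simp [algS2], fun _ _ => by simp [algOut]⟩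
theorem eqs_fix (P : Par) (a : ACtx) : Eqs P (19, enc a) (fixS1 P a) (fun _ => []) fun r1 _ => fixOut' P a r1 :=
  ⟨by simp, by simp [algS1], fun _ => by simp [algS2], fun _ _ => by simp [algOut]⟩
theorem eqs_com (P : Par) (a : ACtx) : Eqs P (20, enc a) (comS1 P a) (comS2 P a) (comOut P) :=
  ⟨by simp, by simp [algS1], fun _ => by simp [algS2], fun _ _ => by simp [algOut]⟩
theorem eqs_hint (P : Par) (a : AHint) : Eqs P (21, enc a) (hintS1 P a) (hintS2 P a) (hintOut P a) :=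
  ⟨by simp, by simp [algS1], fun _ => by simp [algS2], fun _ _ => by simp [algOut]⟩
theorem eqs_draw (P : Par) (a : ADraw) : Eqs P (22, enc a) [cRnd P.L] (drawS2 P a) (drawOut a) :=
  ⟨by simp, by simp [algS1], fun _ => by simp [algS2], fun _ _ => by simp [algOut]⟩

end Crest.Agent.R288.Sz
end

-- ▼ part PVb/R288/SzsC
section

/-!
# R288/SzsC: the small parameters are `≤ N = nn P = 2 ^ kP`; the invariants `Lo`, `Lv` (prefix `szsc_`)

Use `R288/ParA` (`Good.small_ll`, `ll_kR`, `hh_hi`, `quart`, `b_eq`, …); the parameters are irreducible, unfold them with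
`Par.kP.eq_1` etc.  `kP = 16 kR = 32 ll²`, every exponent below is `≤ kP`, and `x < 2 ^ x`.
-/

set_option autoImplicit false

namespace Crest.Agent.R288.Sz

open Crest.Agent.Lib.PT RT

variable {P : Par} {M : ℕ}

theorem szsc_pow {e : ℕ} (he : e ≤ P.kP) : 2 ^ e ≤ nn P := Nat.pow_le_pow_right (by norm_num) he

theorem szsc_le {e : ℕ} (he : e ≤ P.kP) : e ≤ nn P := he.trans Nat.lt_two_pow_self.le

/-- linear facts on the parameters (feed to `omega`) -/
theorem szsc_facts (h : Good P) :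
    2 * P.kθ + P.kd + P.kK + P.L + 20 * P.jj + 100 ≤ P.ll ∧ 100 * P.ll ≤ P.kb ∧ P.kR = 2 * P.kb ∧
      P.kP = 2 * (8 * P.kR) ∧ P.kg = 2 * P.kR ∧ P.kT + 6 * P.jj = P.ll ∧ P.mb + P.kd = P.kg + 1 ∧
      P.kγ = P.ll + 5 ∧ P.nw = P.L + 2 ∧ P.nS = 2 * P.kR + 7 ∧ P.nC = P.kg + P.kx + 8 ∧
      P.kd = P.kx + P.L + 1 ∧ P.ka = 10 * P.jj := by
  refine ⟨h.small_ll, ?_, ?_, Par.kP.eq_1 P, Par.kg.eq_1 P, h.kT_add, h.mb_add, Par.kγ.eq_1 P, Par.nw.eq_1 P,
    Par.nS.eq_1 P, Par.nC.eq_1 P, Par.kd.eq_1 P, Par.ka.eq_1 P⟩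
  · rw [Par.kb.eq_1]; exact h.aux_llsq
  · rw [Par.kb.eq_1, Par.kR.eq_1]

section good

theorem _root_.Crest.Agent.R288.Good.nn_big (h : Good P) : 100 ≤ nn P := by
  have f := szsc_facts h
  exact le_trans (by norm_num) (szsc_pow (e := 7) (by omega))

theorem _root_.Crest.Agent.R288.Good.pad_nn (h : Good P) : P.2.2.n = nn P := h.pad

theorem _root_.Crest.Agent.R288.Good.p2_nn (h : Good P) (e : ℕ) : P.p2 e ≤ nn P := h.p2_le e

theorem _root_.Crest.Agent.R288.Good.hh_nn (h : Good P) : 100 * P.hh ≤ nn P := by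
  have f := szsc_facts h
  have h1 := h.hh_hi
  have h2 : 2 ^ (P.ll + 8) = 128 * 2 ^ (P.ll + 1) := by ring
  have h3 : 2 ^ (P.ll + 8) ≤ nn P := szsc_pow (by omega)
  omega

theorem _root_.Crest.Agent.R288.Good.H_nn (h : Good P) : P.H ≤ nn P := by
  have := h.H_le
  have := h.hh_nn
  omega

theorem _root_.Crest.Agent.R288.Good.b_nn (h : Good P) : P.b ≤ nn P := by
  rw [Par.b.eq_1]
  exact h.p2_nn _

theorem _root_.Crest.Agent.R288.Good.powL_nn (h : Good P) : 2 ^ P.L ≤ nn P := by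
  rw [← h.b_eq]
  exact h.b_nn

theorem _root_.Crest.Agent.R288.Good.L_nn (h : Good P) : P.L ≤ nn P := by
  exact Nat.lt_two_pow_self.le.trans h.powL_nn

theorem _root_.Crest.Agent.R288.Good.T0_nn (h : Good P) : P.T0 ≤ nn P := by
  rw [Par.T0.eq_1]
  exact h.p2_nn _

theorem _root_.Crest.Agent.R288.Good.T_nn (h : Good P) : P.T ≤ nn P := by
  have f := szsc_facts h
  have h1 : P.kR + 2 ≤ 2 ^ (P.kR + 2) := Nat.lt_two_pow_self.le
  have h2 : 2 ^ (P.kR + 3 + P.kT) ≤ nn P := szsc_pow (by omega)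
  have h3 : 2 ^ (P.kR + 3 + P.kT) = 2 * 2 ^ (P.kR + 2) * 2 ^ P.kT := by ring
  rw [Par.T.eq_1, h.T0_eq]
  refine le_trans ?_ h2
  rw [h3]
  exact Nat.mul_le_mul_right _ (Nat.mul_le_mul_left _ h1)

theorem _root_.Crest.Agent.R288.Good.F0_nn (h : Good P) : P.F0 ≤ nn P := by
  rw [Par.F0.eq_1]
  exact h.p2_nn _

theorem _root_.Crest.Agent.R288.Good.F1_nn (h : Good P) : P.F1 ≤ nn P := by
  rw [Par.F1.eq_1]
  exact h.p2_nn _

theorem _root_.Crest.Agent.R288.Good.kP_nn (h : Good P) : P.kP ≤ nn P := by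
  have f := szsc_facts h
  exact szsc_le (by omega)

theorem _root_.Crest.Agent.R288.Good.kK_nn (h : Good P) : P.kK ≤ nn P := by
  have f := szsc_facts h
  exact szsc_le (by omega)

theorem _root_.Crest.Agent.R288.Good.kb_nn (h : Good P) : P.kb ≤ nn P := by
  have f := szsc_facts h
  exact szsc_le (by omega)

theorem _root_.Crest.Agent.R288.Good.powkb_nn (h : Good P) : 2 ^ P.kb ≤ nn P := by
  have f := szsc_facts h
  exact szsc_pow (by omega)

theorem _root_.Crest.Agent.R288.Good.kb_pos_sz (h : Good P) : 1 ≤ P.kb := by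
  have f := szsc_facts h
  omega

theorem _root_.Crest.Agent.R288.Good.kgam_nn (h : Good P) : P.kγ + P.kb + 2 ≤ nn P := by
  have f := szsc_facts h
  exact szsc_le (by omega)

theorem _root_.Crest.Agent.R288.Good.mb_nn (h : Good P) : P.mb ≤ nn P := by
  have f := szsc_facts h
  exact szsc_le (by omega)

theorem _root_.Crest.Agent.R288.Good.nw_nn (h : Good P) : P.nw ≤ nn P := by
  have f := szsc_facts h
  exact szsc_le (by omega)

theorem _root_.Crest.Agent.R288.Good.nS_nn (h : Good P) : P.nS ≤ nn P := by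
  have f := szsc_facts h
  exact szsc_le (by omega)

theorem _root_.Crest.Agent.R288.Good.nC_nn (h : Good P) : P.nC ≤ nn P := by
  have f := szsc_facts h
  exact szsc_le (by omega)

theorem _root_.Crest.Agent.R288.Good.pownS_nn (h : Good P) : 2 ^ P.nS ≤ nn P := by
  have f := szsc_facts h
  exact szsc_pow (by omega)

theorem _root_.Crest.Agent.R288.Good.pownC_nn (h : Good P) : 2 ^ P.nC ≤ nn P := by
  have f := szsc_facts h
  exact szsc_pow (by omega)

theorem _root_.Crest.Agent.R288.Good.qbits_nn (h : Good P) (ω : ℕ) : qbits P ω ≤ nn P := by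
  have f := szsc_facts h
  have h1 := h.hh_nn
  have h2 := h.aux_ll_hh
  have h3 := min_le_right ω.size (4 * P.hh)
  unfold qbits
  omega

theorem _root_.Crest.Agent.R288.Good.F0_hh_sz (h : Good P) : P.F0 ≤ 2 ^ P.hh := by
  have f := szsc_facts h
  have h1 := h.quart
  have h2 : P.ll * P.ll * 1 ≤ P.ll * P.ll * (P.ll * P.ll) := Nat.mul_le_mul_left _ (by rw [← Par.kb.eq_1]; omega)
  have h3 : P.ll * P.ll * (P.ll * P.ll) = P.ll ^ 4 := by ring
  have h4 := Par.kb.eq_1 P
  rw [h.F0_eq]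
  exact Nat.pow_le_pow_right (by norm_num) (by omega)

theorem _root_.Crest.Agent.R288.Good.phs_mul_le_sz (h : Good P) (t : ℕ) : phs P t * P.T0 ≤ t := by
  have _ := h
  exact (Nat.div_mul_le_self _ _).trans (Nat.sub_le _ _)

theorem _root_.Crest.Agent.R288.Good.wnd_nn (h : Good P) {φ k : ℕ} (hφ : φ * P.T0 ≤ nn P) (hk : k < P.T0) : wnd P φ k ≤ nn P := by
  have h1 := h.T0_nn
  unfold wnd
  cases φ with
  | zero =>
    rw [Nat.zero_sub, Nat.zero_mul]
    omega
  | succ φ =>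
    rw [Nat.add_sub_cancel]
    rw [add_mul, one_mul] at hφ
    omega

theorem _root_.Crest.Agent.R288.Good.nIn_nn (h : Good P) (t : ℕ) : nIn P t ≤ nn P := by
  exact (min_le_right _ _).trans h.T0_nn

theorem _root_.Crest.Agent.R288.Good.rnk_le_sz (h : Good P) {t k : ℕ} (hk : k < nIn P t) : rnk P t k ≤ t := by
  have _ := h
  have h1 : nIn P t ≤ t - 1 := (min_le_left _ _).trans (Nat.mod_le _ _)
  unfold rnk
  omega

end good

theorem Lo.fit' {e Y : ℕ} (h : Good P) (hL : Lo P M e Y) {j : ℕ} (hj : j ≤ 3 := by norm_num) :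
    Y * nn P ^ j < 2 ^ M := by
  exact lt_of_le_of_lt (lad_mono h.nn_big Y (by omega)) hL.fit

theorem Lo.fit0 {e Y : ℕ} (h : Good P) (hL : Lo P M e Y) : Y < 2 ^ M := by
  exact lt_of_le_of_lt (lad_le h.nn_big Y _) hL.fit

theorem Lo.down {e Y d : ℕ} (h : Good P) (hL : Lo P M e Y) (hd : 1 ≤ d) (hd' : d ≤ e) :
    Lo P M (e - d) (Y * nn P ^ 3) := by
  refine ⟨hL.N_le.trans (lad_le h.nn_big Y _), hL.h_le.trans (lad_le h.nn_big Y _),
    (Nat.sub_le _ _).trans hL.e_le, ?_⟩
  rw [lad_assoc]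
  exact lt_of_le_of_lt (lad_mono h.nn_big Y (by omega)) hL.fit

theorem Lv.fit' {r X : ℕ} (h : Good P) (hL : Lv P M r X) {j : ℕ} (hj : j ≤ 12 := by norm_num) :
    X * nn P ^ j < 2 ^ M := by
  exact lt_of_le_of_lt (lad_mono h.nn_big X (by omega)) hL.fit

theorem Lv.down {r X : ℕ} (h : Good P) (hL : Lv P M r X) (hr : 1 ≤ r) : Lv P M (r - 1) (X * nn P ^ 12) := by
  refine ⟨hL.N_le.trans (lad_le h.nn_big X _), hL.h_le.trans (lad_le h.nn_big X _),
    (Nat.sub_le _ _).trans hL.r_le, ?_⟩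
  rw [lad_assoc]
  exact lt_of_le_of_lt (lad_mono h.nn_big X (by omega)) hL.fit

/-- `r L ≤ H L ≤ 2 hh` -/
theorem Lv.lo {r X : ℕ} (h : Good P) (hL : Lv P M r X) : Lo P M (r * P.L) (X * nn P ^ 2) := by
  have h1 : r * P.L ≤ 2 * P.hh := (Nat.mul_le_mul_right _ hL.r_le).trans h.HL_le
  have h2 := h.hh_nn
  refine ⟨hL.N_le.trans (lad_le h.nn_big X _), le_trans ?_ (hL.h_le.trans (lad_le h.nn_big X _)), by omega, ?_⟩
  · exact Nat.pow_le_pow_right (by norm_num) (by omega)
  · rw [lad_assoc]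
    exact lt_of_le_of_lt (lad_mono h.nn_big X (by omega)) hL.fit

theorem Lv.pow_le {r X : ℕ} (h : Good P) (hL : Lv P M r X) : 2 ^ (r * P.L) ≤ X := by
  exact (Nat.pow_le_pow_right (by norm_num) ((Nat.mul_le_mul_right _ hL.r_le).trans h.HL_le)).trans hL.h_le

theorem Lv.r_nn {r X : ℕ} (h : Good P) (hL : Lv P M r X) : r ≤ nn P := hL.r_le.trans h.H_nn

/-- index of a child -/
theorem Lv.child {r X i j : ℕ} (h : Good P) (hL : Lv P M r X) (hi : i ≤ X) (hj : j ≤ nn P) :
    i * P.b + j ≤ X * nn P ^ 12 := by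
  have h1 : i * P.b ≤ X * nn P ^ 1 := by
    rw [pow_one]
    exact Nat.mul_le_mul hi h.b_nn
  have h2 : j ≤ X * nn P ^ 1 := (hj.trans hL.N_le).trans (lad_le h.nn_big X 1)
  have h3 := lad_step h.nn_big X 1
  have h4 : X * nn P ^ (1 + 1) ≤ X * nn P ^ 12 := lad_mono h.nn_big X (by norm_num)
  omega

/-- the root level: `N ^ (2 hh + 12 (H + 1) + 6 hh + 6) = 2 ^ (kP · …)`, and `kP ≤ N`, `30 hh ≤ N`, `H ≤ hh` -/
theorem lv_root (h : Good P) (hM : nn P ^ 3 ≤ M) : Lv P M P.H (nn P ^ (2 * P.hh)) := by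
  have h1 := h.nn_big
  have h2 := h.hh_nn
  have h3 := h.H_le
  have h4 := h.aux_ll_hh
  refine ⟨Nat.le_self_pow (by omega) _, Nat.pow_le_pow_left (by omega) _, le_rfl, ?_⟩
  rw [← pow_add]
  have h5 : P.kP * (2 * P.hh + (12 * (P.H + 1) + 6 * P.hh + 6)) ≤ nn P * nn P :=
    Nat.mul_le_mul h.kP_nn (by omega)
  have h6 := lad_pow h1
  have h7 : nn P * nn P = nn P ^ 2 := by ring
  have h8 : nn P ^ (2 * P.hh + (12 * (P.H + 1) + 6 * P.hh + 6)) =
      2 ^ (P.kP * (2 * P.hh + (12 * (P.H + 1) + 6 * P.hh + 6))) := by rw [nn, ← pow_mul]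
  rw [h8]
  exact Nat.pow_lt_pow_right (by norm_num) (by omega)

end Crest.Agent.R288.Sz
end

-- ▼ part PVb/R288/SzsD
section

/-!
# R288/SzsD: bounds for pure functions: grids, dynamic programme, plans (prefix `szsd_`)

Arithmetic: `lad_step`, `lad_mul_N`, `lad_mono`, `lad_pow` (SzsA) and `omega`; `Int.natAbs_add_le`, `Int.natAbs_mul`.
`bx_list`, `bx_prod`, `bx_option` unfold boxes (all `Iff.rfl`).
-/

set_option autoImplicit false

namespace Crest.Agent.R288.Sz

open Crest.Agent.Lib.PT RT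

variable {P : Par} {M X : ℕ}

theorem rdn_le (g : ℕ) (z : ℤ) : (rdn g z).natAbs ≤ z.natAbs + g := by
  unfold rdn
  rcases Nat.eq_zero_or_pos g with rfl | hg
  · simp
  · have h1 := Int.mul_ediv_add_emod z g
    have h2 := Int.emod_nonneg z (b := g) (by omega)
    have h3 := Int.emod_lt_of_pos z (b := g) (by omega)
    generalize (g : ℤ) * (z / g) = w at *
    omega

theorem mn_le_of {l : List ℕ} {a : ℕ} (h : ∀ x ∈ l, x ≤ a) : mn l ≤ a := by
  unfold mn
  cases e : l.argmin id with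
  | none => exact Nat.zero_le _
  | some x => exact h x (List.argmin_mem e)

theorem omin_le_left (a : ℕ) (l : List (Option ℕ)) : omin a l ≤ a := by
  unfold omin
  induction l generalizing a with
  | nil => exact le_rfl
  | cons o l ih =>
    rw [List.foldl_cons]
    refine (ih _).trans ?_
    cases o with
    | none => exact le_rfl
    | some b => exact min_le_left _ _

theorem szsd_off (g : ℕ) {a p : ℕ} (ha : a < 2 * p + 1) : ((g : ℤ) * ((a : ℤ) - p)).natAbs ≤ g * p := by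
  rw [Int.natAbs_mul, Int.natAbs_natCast]
  exact Nat.mul_le_mul_left _ (by omega)

theorem szsd_gsp (P : Par) (σ : ℕ) : gsp P σ ≤ σ := Nat.div_le_self _ _

theorem szsd_wlv (h : Good P) {σ : ℕ} (hσ : σ ≤ X * nn P ^ 5) (lv : ℕ) : wlv P σ lv ≤ X * nn P ^ 6 :=
  lad_mul_N ((szsd_gsp P σ).trans hσ) (h.p2_nn _)

theorem zgrid_bx (h : Good P) {α : ℤ} {σ : ℕ} (hα : α.natAbs ≤ X * nn P ^ 2) (hσ : σ ≤ X * nn P ^ 5) :
    bx (nn P) (X * nn P ^ 7) (zgrid P α σ) := by
  have hN := h.nn_big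
  have h1 := lad_pow hN
  have h2 := h.p2_nn (P.kg + 2)
  have h3 := (szsd_gsp P σ).trans hσ
  refine ⟨?_, fun z hz => ?_⟩
  · rw [zgrid, List.length_map, List.length_range]
    omega
  · obtain ⟨a, ha, rfl⟩ := List.mem_map.1 hz
    have h4 := szsd_off (gsp P σ) (List.mem_range.1 ha)
    have h5 := rdn_le (gsp P σ) α
    have h6 : _ ≤ X * nn P ^ 6 := lad_mul_N h3 h2
    have h7 := lad_mono hN X (show 2 ≤ 5 by norm_num)
    have h8 : 100 * (X * nn P ^ 5) ≤ X * nn P ^ 6 := lad_step hN X 5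
    have h9 : 100 * (X * nn P ^ 6) ≤ X * nn P ^ 7 := lad_step hN X 6
    rw [bx_int]
    refine (Int.natAbs_add_le _ _).trans ?_
    omega

theorem szsd_gat {N A B D : ℕ} {Zs : List ℤ} {m : List (List ℕ)} {f : List ℕ} {z : ℤ} (hZ : bx N A Zs)
    (hm : bx N B m) (hf : ∀ x ∈ f, x ≤ D) (hz : z.natAbs ≤ A) : gat Zs m f z ≤ 2 * A + B + D := by
  refine mn_le_of fun x hx => ?_
  obtain ⟨p, hp, hx⟩ := List.mem_flatMap.1 hx
  obtain ⟨q, hq, rfl⟩ := List.mem_map.1 hx
  have h1 : p.1.natAbs ≤ A := hZ.2 _ (List.of_mem_zip hp).1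
  have h2 : q.1 ≤ B := (hm.2 _ (List.of_mem_zip hp).2).2 _ (List.of_mem_zip hq).1
  have h3 := hf _ (List.of_mem_zip hq).2
  omega

theorem szsd_gL {N A B : ℕ} {Zs : List ℤ} {tab : Tab} {zr : ℤ} (hZ : bx N A Zs) (ht : bx N B tab)
    (hr : zr.natAbs ≤ A) (js : List ℕ) : ∀ x ∈ gL Zs tab js zr, x ≤ (js.length + 1) * (2 * A + B) := by
  induction js with
  | nil =>
    intro x hx
    obtain ⟨z, hz, rfl⟩ := List.mem_map.1 hx
    have h1 : z.natAbs ≤ A := hZ.2 _ hz
    simp only [List.length_nil, zero_add, one_mul]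
    omega
  | cons j js ih =>
    intro x hx
    obtain ⟨z, hz, rfl⟩ := List.mem_map.1 hx
    refine (szsd_gat hZ (bx_getD ht j bx_nil) ih (hZ.2 _ hz)).trans (le_of_eq ?_)
    rw [List.length_cons]
    ring

/-- each child adds at most `3 X N ^ 8` (induction for `gL`: entries `≤ (|js| + 1) · 3 X N ^ 8`) -/
theorem gN_le (h : Good P) {Zs : List ℤ} {tab : Tab} {js : List ℕ} {zl zr : ℤ} (hZ : bx (nn P) (X * nn P ^ 7) Zs)
    (ht : bx (nn P) (X * nn P ^ 8) tab) (hj : js.length ≤ nn P) (hl : zl.natAbs ≤ X * nn P ^ 7)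
    (hr : zr.natAbs ≤ X * nn P ^ 7) : gN Zs tab js zl zr ≤ X * nn P ^ 10 := by
  have hN := h.nn_big
  have h7 : 100 * (X * nn P ^ 7) ≤ X * nn P ^ 8 := lad_step hN X 7
  have h8 : 100 * (X * nn P ^ 8) ≤ X * nn P ^ 9 := lad_step hN X 8
  have h9 : 100 * (X * nn P ^ 9) ≤ X * nn P ^ 10 := lad_step hN X 9
  unfold gN
  split_ifs with h0
  · omega
  · have h1 := szsd_gat hZ (bx_getD ht (js.headD 0) bx_nil) (szsd_gL hZ ht hr js.tail) hl
    have h2 : js.tail.length + 1 ≤ nn P := by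
      have := List.length_pos_iff.2 h0
      rw [List.length_tail]
      omega
    have h3 : (js.tail.length + 1) * (2 * (X * nn P ^ 7) + X * nn P ^ 8) ≤ nn P * (2 * (X * nn P ^ 8)) :=
      Nat.mul_le_mul h2 (by omega)
    have h4 : nn P * (2 * (X * nn P ^ 8)) = 2 * (X * nn P ^ 9) := by ring
    omega

theorem szsd_midz {N A : ℕ} {Zs : List ℤ} (hZ : bx N A Zs) (tabs : List Tab) (hb p : ℕ) {zl : ℤ} (zr : ℤ)
    (hl : zl.natAbs ≤ A) : (midz P Zs tabs hb p zl zr).natAbs ≤ A := by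
  unfold midz
  cases e : (Zs.filter fun z => decide (min zl zr ≤ z ∧ z ≤ max zl zr)).argmin
      fun z => |psi P Zs tabs hb p zl zr z| with
  | none => exact hl
  | some x => exact hZ.2 _ (List.mem_of_mem_filter (List.argmin_mem e))

theorem szsd_zp {N A : ℕ} {Zs : List ℤ} (hZ : bx N A Zs) (tabs : List Tab) {e : ℤ × ℤ}
    (h1 : e.1.natAbs ≤ A) (h2 : e.2.natAbs ≤ A) (d : ℕ) :
    ∀ p, (zp P Zs tabs e d p).1.natAbs ≤ A ∧ (zp P Zs tabs e d p).2.natAbs ≤ A := by
  induction d with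
  | zero => exact fun _ => ⟨h1, h2⟩
  | succ d ih =>
    intro p
    have h3 := ih (p / 2)
    have h4 := szsd_midz (P := P) hZ tabs (P.L - d - 1) (p / 2) (zp P Zs tabs e d (p / 2)).2 h3.1
    rw [zp]
    split_ifs
    · exact ⟨h3.1, h4⟩
    · exact ⟨h4, h3.2⟩

theorem szsd_czs (h : Good P) {α γ : ℤ} {σ : ℕ} (hα : α.natAbs ≤ X * nn P ^ 2) (hγ : γ.natAbs ≤ X * nn P ^ 2)
    (hσ : σ ≤ X * nn P ^ 5) (tabs : List Tab) : bx (nn P) (X * nn P ^ 7) (czs P α γ σ tabs) := by
  have hN := h.nn_big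
  have h1 := lad_pow hN
  have h2 := h.b_nn
  have h3 := (szsd_gsp P σ).trans hσ
  have h5 := rdn_le (gsp P σ) α
  have h6 := rdn_le (gsp P σ) γ
  have h7 := lad_mono hN X (show 2 ≤ 5 by norm_num)
  have h8 : 100 * (X * nn P ^ 5) ≤ X * nn P ^ 6 := lad_step hN X 5
  have h9 : 100 * (X * nn P ^ 6) ≤ X * nn P ^ 7 := lad_step hN X 6
  have e1 : (rdn (gsp P σ) α).natAbs ≤ X * nn P ^ 7 := by omega
  have e2 : (rdn (gsp P σ) γ).natAbs ≤ X * nn P ^ 7 := by omega
  refine ⟨?_, fun z hz => ?_⟩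
  · rw [czs, List.length_append, List.length_map, List.length_range, List.length_singleton]
    omega
  · rcases List.mem_append.1 hz with hz | hz
    · obtain ⟨j, -, rfl⟩ := List.mem_map.1 hz
      exact (szsd_zp (zgrid_bx h hα hσ) tabs (e := (rdn (gsp P σ) α, rdn (gsp P σ) γ)) e1 e2 _ _).1
    · rw [List.mem_singleton.1 hz]
      exact e2

theorem szsd_ctxAt (h : Good P) {σ : ℕ} (hσ : σ ≤ X * nn P ^ 5) (lv : ℕ) {z1 z2 : ℤ}
    (h1 : z1.natAbs ≤ X * nn P ^ 7) (h2 : z2.natAbs ≤ X * nn P ^ 7) :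
    bx (nn P) (X * nn P ^ 8) (ctxAt P σ lv z1 z2) := by
  have hN := h.nn_big
  have h3 := (szsd_gsp P σ).trans hσ
  have h4 := szsd_wlv h hσ lv
  have h5 := rdn_le (wlv P σ lv) z1
  have h6 := rdn_le (wlv P σ lv) z2
  have h7 : 100 * (X * nn P ^ 5) ≤ X * nn P ^ 6 := lad_step hN X 5
  have h8 : 100 * (X * nn P ^ 6) ≤ X * nn P ^ 7 := lad_step hN X 6
  have h9 : 100 * (X * nn P ^ 7) ≤ X * nn P ^ 8 := lad_step hN X 7
  unfold ctxAt
  simp only [bx_mk, bx_int, bx_nat, bx_un]
  exact ⟨by omega, by omega, by omega, h.p2_nn _⟩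

/-- boundaries lie in the grid or are rounded ends (`≤ X N ^ 7`), contexts are `ctxAt` -/
theorem planOf_bx (h : Good P) {α γ : ℤ} {σ : ℕ} (hα : α.natAbs ≤ X * nn P ^ 2) (hγ : γ.natAbs ≤ X * nn P ^ 2)
    (hσ : σ ≤ X * nn P ^ 5) (tabs : List Tab) : bx (nn P) (X * nn P ^ 8) (planOf P α γ σ tabs) := by
  have hN := h.nn_big
  have h1 := lad_pow hN
  have h2 := h.b_nn
  have hc := szsd_czs h hα hγ hσ tabs
  unfold planOf planOf'
  dsimp only
  split_ifs
  · rw [bx_some, bx_mk]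
    refine ⟨Bx.mono hc (lad_mono hN X (by norm_num)), ?_, fun c hc' => ?_⟩
    · refine (List.length_filterMap_le _ _).trans ?_
      rw [List.length_map, List.length_range]
      omega
    · obtain ⟨o, ho, e⟩ := List.mem_filterMap.1 hc'
      obtain ⟨j, -, rfl⟩ := List.mem_map.1 ho
      obtain ⟨lv, -, rfl⟩ := List.mem_map.1 (List.mem_of_find?_eq_some e)
      exact szsd_ctxAt h hσ lv (bx_getD hc j (d := 0) (Nat.zero_le _)) (bx_getD hc (j + 1) (d := 0) (Nat.zero_le _))
  · exact bx_none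

/-- `2 ^ C.size ≤ 2 C + 1` -/
theorem sclS_le (h : Good P) (hX : nn P ≤ X) {C : ℕ} (hC : C ≤ X * nn P ^ 3) (j : ℕ) : sclS P C j ≤ X * nn P ^ 5 := by
  have hN := h.nn_big
  have h1 : 2 ^ C.size ≤ 2 * C + 1 := by
    rcases Nat.eq_zero_or_pos C.size with h0 | h0
    · rw [h0]; omega
    · have := Nat.lt_size.1 (show C.size - 1 < C.size by omega)
      obtain ⟨k, hk⟩ : ∃ k, C.size = k + 1 := ⟨C.size - 1, by omega⟩
      rw [hk, Nat.add_sub_cancel] at this
      rw [hk, pow_succ]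
      omega
  have h2 : 2 ^ min j P.nS ≤ nn P :=
    (Nat.pow_le_pow_right (by norm_num) (min_le_right _ _)).trans h.pownS_nn
  have h3 := lad_le hN X 3
  have h4 : 2 ^ C.size * 2 ^ min j P.nS ≤ 3 * (X * nn P ^ 3) * nn P := Nat.mul_le_mul (by omega) h2
  have h5 : 3 * (X * nn P ^ 3) * nn P = 3 * (X * nn P ^ 4) := by ring
  have h6 : 100 * (X * nn P ^ 4) ≤ X * nn P ^ 5 := lad_step hN X 4
  refine (Nat.div_le_self _ _).trans ?_
  rw [pow_add]
  omega

theorem tabKeys_bx (h : Good P) {c : Ctx} {σ : ℕ} (hc : bx (nn P) X c) (hσ : σ ≤ X * nn P ^ 5) (lv : ℕ) :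
    bx (nn P) (X * nn P ^ 8) (tabKeys P c σ lv) := by
  have hN := h.nn_big
  have h1 := lad_pow hN
  have h2 := h.p2_nn (P.kd + 2 - lv)
  have h2' := h.p2_nn P.kx
  have h3 := (szsd_gsp P σ).trans hσ
  have h4 := szsd_wlv h hσ lv
  refine ⟨?_, fun z hz => ?_⟩
  · have e : (tabKeys P c σ lv).length = (2 * P.p2 (P.kd + 2 - lv) + 1) * (2 * P.p2 P.kx + 1) := by
      simp [tabKeys, List.length_flatMap]
    have e2 : (2 * P.p2 (P.kd + 2 - lv) + 1) * (2 * P.p2 P.kx + 1) ≤ 3 * nn P * (3 * nn P) :=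
      Nat.mul_le_mul (by omega) (by omega)
    have e3 : 3 * nn P * (3 * nn P) = 9 * nn P ^ 2 := by ring
    omega
  · obtain ⟨a1, ha1, hz⟩ := List.mem_flatMap.1 hz
    obtain ⟨a2, ha2, rfl⟩ := List.mem_map.1 hz
    have a3 := szsd_off (wlv P σ lv) (List.mem_range.1 ha1)
    have a4 := szsd_off (wlv P σ lv) (List.mem_range.1 ha2)
    have a5 := rdn_le (wlv P σ lv) c.1
    have a6 : c.1.natAbs ≤ X := hc.1
    have a7 : _ ≤ X * nn P ^ 7 := lad_mul_N h4 h2
    have a8 : _ ≤ X * nn P ^ 7 := lad_mul_N h4 h2'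
    have a9 := lad_le hN X 5
    have h7 : 100 * (X * nn P ^ 5) ≤ X * nn P ^ 6 := lad_step hN X 5
    have h8 : 100 * (X * nn P ^ 6) ≤ X * nn P ^ 7 := lad_step hN X 6
    have h9 : 100 * (X * nn P ^ 7) ≤ X * nn P ^ 8 := lad_step hN X 7
    have b1 := Int.natAbs_add_le (rdn (wlv P σ lv) c.1) ((wlv P σ lv : ℤ) * ((a1 : ℤ) - P.p2 (P.kd + 2 - lv)))
    simp only [bx_mk, bx_int, bx_nat, bx_un]
    refine ⟨by omega, (Int.natAbs_add_le _ _).trans (by omega), by omega, h.p2_nn _⟩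

end Crest.Agent.R288.Sz
end

-- ▼ part PVb/R288/SzsE
section

/-!
# R288/SzsE: bounds for pure functions: contexts, hints, common data (prefix `szse_`)

Arithmetic: `lad_step`, `lad_mul_N`, `lad_mono`, `lad_pow` (SzsA) and `omega`; `Int.natAbs_add_le`, `Int.natAbs_mul`;
sums: `List.sum_le_card_nsmul`.  `bx_list`, `bx_prod`, `bx_option` unfold boxes (all `Iff.rfl`), `bx_getD`.
-/

set_option autoImplicit false

namespace Crest.Agent.R288.Sz

open Crest.Agent.Lib.PT RT

variable {P : Par} {M X : ℕ}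

theorem cw_le {c : Ctx} (hc : bx (nn P) X c) : cw c ≤ X * nn P ^ 1 := by
  rw [cw, pow_one]
  exact (Nat.div_le_self _ _).trans (Nat.mul_le_mul hc.2.2.1 hc.2.2.2)

theorem cap_le (h : Good P) {c : Ctx} (hc : bx (nn P) X c) : cap P c ≤ X * nn P ^ 2 := lad_mul_N (cw_le hc) (h.p2_nn _)

theorem topB_le (h : Good P) {r : ℕ} (hL : Lv P M r X) {s : ℤ × ℤ} {c : Option Ctx} (hs : bx (nn P) (X * nn P ^ 2) s)
    (hc : bx (nn P) X c) : topB P r s c ≤ X * nn P ^ 3 := by
  have h1 : 100 * (X * nn P ^ 2) ≤ X * nn P ^ 3 := lad_step h.nn_big X 2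
  have h2 := lad_le h.nn_big X 2
  have h3 := h.F0_nn.trans hL.N_le
  have h4 := hL.pow_le h
  have h5 : s.1.natAbs ≤ X * nn P ^ 2 := hs.1
  have h6 : s.2.natAbs ≤ X * nn P ^ 2 := hs.2
  rw [topB]
  refine max_le (by omega) ?_
  cases c with
  | none =>
    simp only [Option.elim_none]
    omega
  | some c =>
    have := cap_le h (hc c rfl)
    simp only [Option.elim_some]
    omega

/-- value of a child without context -/
theorem topB_none_le (h : Good P) {r : ℕ} (hL : Lv P M r X) {s : ℤ × ℤ} (hs : bx (nn P) (X * nn P ^ 7) s) :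
    topB P (r - 1) s none ≤ X * nn P ^ 8 := by
  have h1 : 100 * (X * nn P ^ 7) ≤ X * nn P ^ 8 := lad_step h.nn_big X 7
  have h2 := lad_le h.nn_big X 7
  have h3 := h.F0_nn.trans hL.N_le
  have h4 : 2 ^ ((r - 1) * P.L) ≤ X :=
    (Nat.pow_le_pow_right two_pos (Nat.mul_le_mul_right _ (Nat.sub_le _ _))).trans (hL.pow_le h)
  have h5 : s.1.natAbs ≤ X * nn P ^ 7 := hs.1
  have h6 : s.2.natAbs ≤ X * nn P ^ 7 := hs.2
  rw [topB]
  simp only [Option.elim_none]
  omega

/-- value of a child in a context -/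
theorem topB_some_le (h : Good P) (hX : nn P ≤ X) (r : ℕ) (s : ℤ × ℤ) {c : Ctx} (hc : bx (nn P) (X * nn P ^ 8) c) :
    topB P r s (some c) ≤ X * nn P ^ 10 := by
  have h1 := cap_le h hc
  rw [lad_assoc] at h1
  exact max_le ((h.F0_nn.trans hX).trans (lad_le h.nn_big X 10)) h1

theorem om_bx (h : Good P) {c : Ctx} (hc : bx (nn P) X c) : bx (nn P) (X * nn P ^ 2) (om c) := by
  have h0 := h.nn_big
  have hn : c.2.2.2.n ≤ nn P := hc.2.2.2
  have hg : c.2.2.1 ≤ X := hc.2.2.1
  have key : ∀ (z : ℤ) (a : ℕ), z.natAbs ≤ X → a < 2 * c.2.2.2.n + 1 →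
      (z + (c.2.2.1 : ℤ) * ((a : ℤ) - c.2.2.2.n)).natAbs ≤ X * nn P ^ 2 := by
    intro z a hz ha
    have h1 : 100 * (X * nn P ^ 1) ≤ X * nn P ^ 2 := lad_step h0 X 1
    have h2 := lad_le h0 X 1
    have h3 : ((c.2.2.1 : ℤ) * ((a : ℤ) - c.2.2.2.n)).natAbs ≤ X * nn P ^ 1 := by
      rw [Int.natAbs_mul, Int.natAbs_natCast, pow_one]
      exact Nat.mul_le_mul hg (by omega)
    omega
  refine ⟨?_, fun s hs => ?_⟩
  · have h1 : (om c).length = (2 * c.2.2.2.n + 1) ^ 2 := by simp [om, List.length_flatMap, sq]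
    have h2 : (2 * c.2.2.2.n + 1) ^ 2 ≤ (3 * nn P) ^ 2 := Nat.pow_le_pow_left (by omega) 2
    have h3 := (lad_pow h0).2
    rw [mul_pow] at h2
    omega
  · simp only [om, List.mem_flatMap, List.mem_map, List.mem_range] at hs
    obtain ⟨a, ha, a', ha', rfl⟩ := hs
    exact ⟨key _ _ hc.1 ha, key _ _ hc.2.1 ha'⟩

theorem sclC_le (h : Good P) {c : Ctx} (hc : bx (nn P) X c) (j : ℕ) : sclC P c j ≤ X * nn P ^ 5 := by
  refine (Nat.div_le_self _ _).trans (le_trans ?_ (lad_mono h.nn_big X (i := 2) (by norm_num)))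
  exact lad_mul_N (cw_le hc) ((Nat.pow_le_pow_right two_pos (min_le_right _ _)).trans h.pownC_nn)

theorem pz_le {Z : ℕ} {pl : Plan} (hp : bx (nn P) Z pl) (j : ℕ) : (pz pl j).natAbs ≤ Z := bx_getD hp.1 j (d := (0 : ℤ)) (Nat.zero_le _)

theorem pc_bx {Z : ℕ} {pl : Plan} (hp : bx (nn P) Z pl) (j : ℕ) : bx (nn P) Z (pc pl j) := bx_getD hp.2 j ⟨Nat.zero_le _, Nat.zero_le _, Nat.zero_le _, Nat.zero_le _⟩

theorem junc_le (h : Good P) {pl : Plan} (hp : bx (nn P) (X * nn P ^ 8) pl) {s : ℤ × ℤ}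
    (hs : bx (nn P) (X * nn P ^ 2) s) : junc P pl s.1 s.2 ≤ X * nn P ^ 9 := by
  have h1 : 100 * (X * nn P ^ 8) ≤ X * nn P ^ 9 := lad_step h.nn_big X 8
  have h2 := lad_mono h.nn_big X (i := 2) (j := 8) (by norm_num)
  have h3 := pz_le hp 0
  have h4 := pz_le hp P.b
  have h5 : s.1.natAbs ≤ X * nn P ^ 2 := hs.1
  have h6 : s.2.natAbs ≤ X * nn P ^ 2 := hs.2
  simp only [junc, dist1]
  omega

theorem szse_sum {β : Type} {l : List β} {f : β → ℕ} {B n : ℕ} (hf : ∀ a ∈ l, f a ≤ B) (hl : l.length ≤ n) :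
    (l.map f).sum ≤ B * n := by
  have := List.sum_le_card_nsmul (l.map f) B fun x hx => by
    obtain ⟨a, ha, rfl⟩ := List.mem_map.1 hx
    exact hf a ha
  rw [List.length_map, smul_eq_mul, mul_comm] at this
  exact this.trans (Nat.mul_le_mul_left _ hl)

theorem cjunc_le (h : Good P) {pl : Plan} (hp : bx (nn P) (X * nn P ^ 8) pl) : cjunc P pl ≤ X * nn P ^ 10 := by
  have h1 : 100 * (X * nn P ^ 8) ≤ X * nn P ^ 9 := lad_step h.nn_big X 8
  have h2 := h.b_nn
  have h3 : cjunc P pl ≤ X * nn P ^ 9 * nn P := by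
    refine szse_sum (fun j _ => ?_) (by rw [List.length_range]; omega)
    have a1 : (pc pl j).2.1.natAbs ≤ X * nn P ^ 8 := (pc_bx hp j).2.1
    have a2 : (pc pl (j + 1)).1.natAbs ≤ X * nn P ^ 8 := (pc_bx hp (j + 1)).1
    omega
  rwa [mul_assoc, ← pow_succ] at h3

theorem cends_bx {Z : ℕ} {pl : Plan} (hp : bx (nn P) Z pl) : bx (nn P) Z (cends P pl) := ⟨(pc_bx hp _).1, (pc_bx hp _).2.1⟩

theorem optz_le (h : Good P) {pl : Plan} (hp : bx (nn P) (X * nn P ^ 8) pl) (hb p : ℕ) {k0 : ℕ} (hk : k0 ≤ nn P ^ 2) :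
    (optz P pl hb p k0).natAbs ≤ X * nn P ^ 11 := by
  have h1 : 100 * (X * nn P ^ 10) ≤ X * nn P ^ 11 := lad_step h.nn_big X 10
  have h2 := lad_mono h.nn_big X (i := 8) (j := 10) (by norm_num)
  have h3 := pz_le hp (p * P.p2 hb + P.p2 (hb - 1))
  have h4 := (lad_pow h.nn_big).1
  have h5 := h.p2_nn (P.mb - 1)
  have h6 : (((pc pl 0).2.2.1 : ℤ) * ((k0 : ℤ) - P.p2 (P.mb - 1))).natAbs ≤ X * nn P ^ 10 := by
    rw [Int.natAbs_mul, Int.natAbs_natCast]
    exact lad_mul (i := 8) (j := 2) (pc_bx hp 0).2.2.1 (by omega)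
  rw [optz]
  omega

theorem statH_bx (h : Good P) {pls : List (Option Plan)} (hp : bx (nn P) (X * nn P ^ 8) pls) :
    bx (nn P) (X * nn P ^ 12) (statH P pls) := by
  intro a ha
  obtain ⟨pl, hpl, rfl⟩ := Option.map_eq_some_iff.1 ha
  obtain ⟨o, ho, e⟩ := List.mem_filterMap.1 (List.mem_of_mem_head? (Option.mem_def.2 hpl))
  have hb : bx (nn P) (X * nn P ^ 8) pl := hp.2 o ho pl e
  have h1 : 100 * (X * nn P ^ 11) ≤ X * nn P ^ 12 := lad_step h.nn_big X 11
  have h2 := lad_mono h.nn_big X (i := 10) (j := 11) (by norm_num)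
  have h3 := cjunc_le h hb
  have h4 : ((List.range P.b).map fun j => cap P (pc pl j)).sum ≤ X * nn P ^ 10 * nn P := by
    refine szse_sum (fun j _ => ?_) (by rw [List.length_range]; exact h.b_nn)
    have := cap_le h (pc_bx hb j)
    rwa [lad_assoc] at this
  have h5 : X * nn P ^ 10 * nn P = X * nn P ^ 11 := by ring
  refine ⟨?_, Bx.mono (cends_bx hb) (lad_mono h.nn_big X (by norm_num))⟩
  rw [bx_nat]
  omega

theorem selP_bx {Z : ℕ} {pls : List (Option Plan)} (hp : bx (nn P) Z pls) (c : Ctx) (σ : ℕ) (ds : List Drw) :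
    bx (nn P) Z (selP P c σ pls ds) := by
  intro pl hpl
  obtain ⟨o, ho, e⟩ := List.mem_filterMap.1 (List.argmin_mem (Option.mem_def.2 hpl))
  exact hp.2 o ho pl e

theorem pastOut_bx {Z : ℕ} {A : List ℕ} (hA : bx (nn P) Z A) (B : List ℕ) : bx (nn P) Z (pastOut A B) := by
  refine ⟨by simpa [pastOut] using hA.1, fun v hv => ?_⟩
  obtain ⟨k, -, rfl⟩ := List.mem_map.1 hv
  exact (min_le_left _ _).trans (bx_getD hA k (d := (0 : ℕ)) (Nat.zero_le _))

theorem fixOut_bx (h : Good P) {c : Ctx} (hc : bx (nn P) X c) {rows : List (List ℕ)} {pls : List (List (Option Plan))}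
    (hr : bx (nn P) (X * nn P ^ 3) rows) (hp : bx (nn P) (X * nn P ^ 8) pls) :
    bx (nn P) (X * nn P ^ 8) (fixOut P c rows pls) := by
  have h0 := h.nn_big
  refine ⟨?_, ?_, fun l hl => ?_⟩
  · have h1 : 100 * (X * nn P ^ 6) ≤ X * nn P ^ 7 := lad_step h0 X 6
    have h2 := lad_mono h0 X (i := 1) (j := 6) (by norm_num)
    have h3 := lad_mono h0 X (i := 7) (j := 8) (by norm_num)
    have h4 := cw_le hc
    have h5 : mn ((List.range (om c).length).map fun k => (rows.map fun row => row.getD k 0).sum) ≤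
        X * nn P ^ 6 := by
      refine mn_le_of fun x hx => ?_
      obtain ⟨k, -, rfl⟩ := List.mem_map.1 hx
      have := szse_sum (l := rows) (f := fun row => row.getD k 0) (B := X * nn P ^ 3)
        (fun row hrow => bx_getD (hr.2 row hrow) k (d := (0 : ℕ)) (Nat.zero_le _)) hr.1
      rwa [lad_assoc] at this
    have h6 := ((Nat.div_le_self _ (P.p2 (2 * P.ka))).trans (Nat.div_le_self _ P.T0)).trans h5
    rw [bx_nat]
    simp only [fixOut]
    omega
  · have h1 := lad_pow h0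
    have h2 := h.nC_nn
    simp only [fixOut, List.length_map, List.length_range]
    omega
  · obtain ⟨j, -, rfl⟩ := List.mem_map.1 hl
    have h1 := bx_getD hp j (d := []) bx_nil
    refine ⟨by simpa using h1.1, fun o ho pl hpl => ?_⟩
    obtain ⟨o', ho', rfl⟩ := List.mem_map.1 ho
    obtain ⟨pl', e1, e2⟩ := Option.bind_eq_some_iff.1 hpl
    split_ifs at e2
    obtain rfl := Option.some.inj e2
    exact h1.2 o' ho' _ e1

theorem own_bx {Z : ℕ} (c : Ctx) (s : ℤ × ℤ) {cm : Com} (hp : bx (nn P) Z cm.2.2.1) (j : ℕ) :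
    bx (nn P) Z (own c s cm j) := bx_getD (bx_getD hp j bx_nil) _ bx_none

theorem ctxOut_le_cap (P : Par) (c : Ctx) (s : ℤ × ℤ) (cm : Com) (xs : List ℕ) : ctxOut P c s cm xs ≤ cap P c := (omin_le_left _ _).trans ((omin_le_left _ _).trans (omin_le_left _ _))

end Crest.Agent.R288.Sz
end

-- ▼ part PVb/R288/SzsH
section

/-!
# R288/SzsH: sizes of tables, plans, small mode without context (prefix `szsh_`)

Pattern (see `gt_small` in SzsF for a complete example): unfold the call (`unfold cX`), `refine GT.of_body' E (eqs_x P _) (Y := …) (box of the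
arguments: `by simp; omega`-like, or `by exact ⟨_, _, …⟩`) (fit: `hL.fit' E.good`) (Y' := …) (box of the result) (fit) ?_`, then
`Body.one E (St.… ) fun r1 hr => …` or `Body.two`; stages by `St.nil/one/two/three/hom`; weaken with `GT.imp`, `GT.mono`;
boxes grow with `Bx.mono h (lad_mono …)`.
Children: `hT (r - 1) (X * nn P ^ 12) … (hL.down E.good hr) (hL.child E.good hi _) …`.
-/

set_option autoImplicit false

namespace Crest.Agent.R288.Sz

open Crest.Agent.Lib.PT RT

variable {P : Par} {mem : ℕ → ℕ} {M n r X i t σ φ : ℕ} {s : ℤ × ℤ}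

/-- `gt_vec_bx` three times, `gt_avg`, `topB_none_le` -/
theorem gt_tab (E : Env P mem M) (hT : TopC P mem M n) (hL : Lv P M r X) (hr : 1 ≤ r) (hi : i ≤ X) {Zs : List ℤ}
    (hZ : bx (nn P) (X * nn P ^ 7) Zs) (ht : t ≤ nn P) :
    GT P mem M n 28 (cTab P r i Zs t) fun tb : Tab => bx (nn P) (X * nn P ^ 8) tb := by
  have hN := E.good.nn_big
  have hN3 : nn P ≤ nn P ^ 3 := Nat.le_self_pow (by norm_num) _
  unfold cTab
  refine gt_vec_bx (j := 26) E (fun k hk => ?_) (by simpa using E.good.b_nn.trans hN3)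
  obtain ⟨j, hj, rfl⟩ := List.mem_map.1 hk
  have hj' : j ≤ nn P := (List.mem_range.1 hj).le.trans E.good.b_nn
  refine gt_vec_bx (j := 24) E (fun k hk => ?_) (by simpa using hZ.1)
  obtain ⟨z1, h1, rfl⟩ := List.mem_map.1 hk
  refine gt_vec_bx (j := 22) E (fun k hk => ?_) (by simpa using hZ.1)
  obtain ⟨z2, h2, rfl⟩ := List.mem_map.1 hk
  have hs : bx (nn P) (X * nn P ^ 7) (z1, z2) := ⟨hZ.2 z1 h1, hZ.2 z2 h2⟩
  have hs' : bx (nn P) (X * nn P ^ 12 * nn P ^ 2) (z1, z2) :=
    Bx.mono hs (by rw [lad_assoc]; exact lad_mono hN X (by norm_num))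
  have h := hT (r - 1) (X * nn P ^ 12) (i * P.b + j) (z1, z2) none t (hL.down E.good hr) (hL.child E.good hi hj') hs'
    bx_none ht
  exact gt_avg (j := 20) E (h.imp fun v hv => hv.trans (topB_none_le E.good hL hs)) (hL.fit' E.good) E.good.kP_nn

theorem gt_gval (E : Env P mem M) (hT : TopC P mem M n) (hL : Lv P M r X) (hr : 1 ≤ r) (hi : i ≤ X)
    (hs : bx (nn P) (X * nn P ^ 2) s) (hσ : σ ≤ X * nn P ^ 5) (ht : t ≤ nn P) :
    GT P mem M n 20 (cGVal r i s σ t) fun o : Option ℕ => bx (nn P) (X * nn P ^ 12) o := by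
  have hN := E.good.nn_big
  have h5 := lad_le hN X 5
  have h2 := hL.N_le
  have hZ := zgrid_bx E.good (α := s.1) hs.1 hσ
  unfold cGVal
  refine GT.of_body' E (eqs_gval P _) (Y := X * nn P ^ 5)
    (by exact ⟨hL.r_nn E.good, hi.trans h5, Bx.mono hs (lad_mono hN X (by norm_num)), hσ, ht.trans (h2.trans h5)⟩)
    (hL.fit' E.good) (Y' := X * nn P ^ 12) (fun b hb => hb) (hL.fit' E.good) ?_
  unfold gvalS1 gvalOut
  dsimp only
  refine Body.one E (St.one E (gt_tab E hT hL hr hi hZ ((Nat.sub_le _ _).trans ht))) ?_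
  rintro _ ⟨a, rfl, ha⟩
  refine ⟨rfl, _, rfl, ?_⟩
  rw [bx_some, bx_nat, rd_zero]
  refine (gN_le E.good hZ ha (by simpa using E.good.b_nn) ?_ ?_).trans (lad_mono hN X (by norm_num))
  · exact le_trans hs.1 (lad_mono hN X (by norm_num))
  · exact le_trans hs.2 (lad_mono hN X (by norm_num))

theorem gt_plan (E : Env P mem M) (hT : TopC P mem M n) (hL : Lv P M r X) (hr : 1 ≤ r) (hi : i ≤ X)
    (hs : bx (nn P) (X * nn P ^ 2) s) (hσ : σ ≤ X * nn P ^ 5) (hφ : φ * P.T0 ≤ nn P) :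
    GT P mem M n 20 (cPlan r i s σ φ) fun o : Option Plan => bx (nn P) (X * nn P ^ 8) o := by
  have hN := E.good.nn_big
  have hN3 : nn P ≤ nn P ^ 3 := Nat.le_self_pow (by norm_num) _
  have h5 := lad_le hN X 5
  have h2 := hL.N_le
  have hZ := zgrid_bx E.good (α := s.1) hs.1 hσ
  have hφ' : φ ≤ nn P := le_trans (Nat.le_mul_of_pos_right _ (lt_of_lt_of_le (by norm_num) E.good.two_le_T0)) hφ
  unfold cPlan
  refine GT.of_body' E (eqs_plan P _) (Y := X * nn P ^ 5)
    (by exact ⟨hL.r_nn E.good, hi.trans h5, Bx.mono hs (lad_mono hN X (by norm_num)), hσ, hφ'.trans (h2.trans h5)⟩)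
    (hL.fit' E.good) (Y' := X * nn P ^ 8) (fun b hb => hb) (hL.fit' E.good) ?_
  unfold planS1 planOut
  dsimp only
  refine Body.one E (St.hom E (j := 28) (q := fun tb : Tab => bx (nn P) (X * nn P ^ 8) tb) (fun k hk => ?_)
    (by simpa using E.good.T0_nn.trans hN3)) ?_
  · obtain ⟨k', hk', rfl⟩ := List.mem_map.1 hk
    exact gt_tab E hT hL hr hi hZ (E.good.wnd_nn hφ (List.mem_range.1 hk'))
  · rintro _ ⟨l, rfl, -⟩
    exact ⟨rfl, _, rfl, planOf_bx E.good hs.1 hs.2 hσ _⟩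

theorem gt_sroot (E : Env P mem M) (hS : SnC P mem M n) (hL : Lv P M r X) (hr : 1 ≤ r) (hi : i ≤ X) {pl : Plan}
    (hp : bx (nn P) (X * nn P ^ 8) pl) (ht : t ≤ nn P) :
    GT P mem M n 20 (cSRoot P r i pl t) fun v : ℕ => v ≤ X * nn P ^ 11 := by
  have hN := E.good.nn_big
  unfold cSRoot
  have hb : bx (nn P) (X * nn P ^ 11) (pz pl 0, pz pl P.b) :=
    ⟨le_trans (pz_le hp 0) (lad_mono hN X (by norm_num)), le_trans (pz_le hp P.b) (lad_mono hN X (by norm_num))⟩
  have hk : 0 + P.mb * nn P ≤ nn P ^ 2 := by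
    rw [zero_add, pow_two]
    exact Nat.mul_le_mul_right _ E.good.mb_nn
  refine (hS r X i pl P.L 0 _ 0 P.mb t hL hr hi hp le_rfl (by positivity) hb hk ht).imp fun v hv => hv.trans ?_
  rw [mul_comm]
  exact lad_mul_N le_rfl E.good.powL_nn

theorem gt_sval (E : Env P mem M) (hT : TopC P mem M n) (hS : SnC P mem M n) (hL : Lv P M r X) (hr : 1 ≤ r)
    (hi : i ≤ X) (hs : bx (nn P) (X * nn P ^ 2) s) (hσ : σ ≤ X * nn P ^ 5) (ht : t ≤ nn P) :
    GT P mem M n 20 (cSVal r i s σ t) fun o : Option ℕ => bx (nn P) (X * nn P ^ 12) o := by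
  have hN := E.good.nn_big
  have h5 := lad_le hN X 5
  have h2 := hL.N_le
  unfold cSVal
  refine GT.of_body' E (eqs_sval P _) (Y := X * nn P ^ 5)
    (by exact ⟨hL.r_nn E.good, hi.trans h5, Bx.mono hs (lad_mono hN X (by norm_num)), hσ, ht.trans (h2.trans h5)⟩)
    (hL.fit' E.good) (Y' := X * nn P ^ 12) (fun b hb => hb) (hL.fit' E.good) ?_
  unfold svalS1 svalS2 svalOut
  dsimp only
  refine Body.two (St.one E (gt_plan E hT hL hr hi hs hσ ((E.good.phs_mul_le_sz t).trans ht))) ?_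
  rintro _ ⟨a, rfl, ha⟩
  rw [rd_zero]
  cases a with
  | none => exact ⟨_, St.nil E, fun _ _ => ⟨_, rfl, bx_none⟩⟩
  | some pl =>
    have hp : bx (nn P) (X * nn P ^ 8) pl := ha pl rfl
    refine ⟨_, St.one E (gt_avg (j := 20) E (gt_sroot E hS hL hr hi hp ht) (hL.fit' E.good) E.good.kK_nn), ?_⟩
    rintro _ ⟨v, rfl, hv⟩
    refine ⟨_, rfl, ?_⟩
    rw [Option.map_some, bx_some, bx_nat, rd_zero]
    have h9 := junc_le E.good hp hs
    have h10 := lad_mono hN X (show 9 ≤ 11 by norm_num)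
    have h11 := lad_step hN X 11
    simp only [Nat.reduceAdd] at h11
    omega

end Crest.Agent.R288.Sz
end

-- ▼ part PVb/R288/SzsI
section

/-!
# R288/SzsI: sizes of the data of a context (prefix `szsi_`)

Pattern (see `gt_small` in SzsF for a complete example): unfold the call (`unfold cX`), `refine GT.of_body' E (eqs_x P _) (Y := …) (box of the
arguments: `by simp; omega`-like, or `by exact ⟨_, _, …⟩`) (fit: `hL.fit' E.good`) (Y' := …) (box of the result) (fit) ?_`, then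
`Body.one E (St.… ) fun r1 hr => …` or `Body.two`; stages by `St.nil/one/two/three/hom`; weaken with `GT.imp`, `GT.mono`;
boxes grow with `Bx.mono h (lad_mono …)`.
Children: `hT (r - 1) (X * nn P ^ 12) … (hL.down E.good hr) (hL.child E.good hi _) …`.
-/

set_option autoImplicit false

namespace Crest.Agent.R288.Sz

open Crest.Agent.Lib.PT RT

variable {P : Par} {mem : ℕ → ℕ} {M n r X i t σ φ : ℕ} {c : Ctx}

theorem szsi_row (E : Env P mem M) (hT : TopC P mem M n) (hL : Lv P M r X) (hi : i ≤ X) (hc : bx (nn P) X c)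
    {o : Option Ctx} (ho : bx (nn P) X o) (ht : t ≤ nn P) :
    GT P mem M n 24 (cVec ((om c).map fun s => cAvg (cTop r i s o t) P.kP))
      fun l : List ℕ => bx (nn P) (X * nn P ^ 3) l := by
  obtain ⟨h1, h2⟩ := om_bx E.good hc
  refine gt_vec_bx (j := 22) E (List.forall_mem_map.2 fun s hs => ?_) (by rwa [List.length_map])
  exact gt_avg E ((hT r X i s o t hL hi (h2 s hs) ho ht).imp fun v hv => hv.trans (topB_le E.good hL (h2 s hs) ho))
    (hL.fit' E.good) E.good.kP_nn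

theorem szsi_cube (h : Good P) {a : ℕ} (ha : a ≤ nn P) : a ≤ nn P ^ 3 := by
  have := lad_pow h.nn_big
  omega

theorem szsi_child (E : Env P mem M) (hT : TopC P mem M n) (hL : Lv P M r X) (hr : 1 ≤ r) (hi : i ≤ X) {j : ℕ}
    (hj : j ≤ nn P) (hc : bx (nn P) (X * nn P ^ 8) c) (ht : t ≤ nn P) :
    GT P mem M n 20 (cTop (r - 1) (i * P.b + j) (c.1, c.2.1) (some c) t) fun v : ℕ => v ≤ X * nn P ^ 10 := by
  have hN := E.good.nn_big
  have h1 : bx (nn P) (X * nn P ^ 12) c := Bx.mono hc (lad_mono hN X (by norm_num))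
  exact (hT _ _ _ _ _ t (hL.down E.good hr) (hL.child E.good hi hj)
    (Bx.mono (a := (c.1, c.2.1)) ⟨h1.1, h1.2.1⟩ (lad_le hN _ 2)) ((bx_some c).2 h1) ht).imp
    fun v hv => hv.trans (topB_some_le E.good hL.N_le _ _ hc)

/-- `om_bx`, `topB_le`, `gt_avg`, `gt_vec_bx`, `St.two`, `pastOut_bx` -/
theorem gt_past (E : Env P mem M) (hT : TopC P mem M n) (hL : Lv P M r X) (hi : i ≤ X) (hc : bx (nn P) X c)
    (ht : t ≤ nn P) : GT P mem M n 20 (cPast r i c t) fun l : List ℕ => bx (nn P) (X * nn P ^ 3) l := by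
  have hN := E.good.nn_big
  unfold cPast
  refine GT.of_body' E (eqs_past P _) (Y := X) (by exact ⟨hL.r_nn E.good, hi, hc, ht.trans hL.N_le⟩)
    ((lad_le hN X 1).trans_lt (hL.fit' E.good)) (fun b hb => hb) (hL.fit' E.good) ?_
  have h2 : GT P mem M n 24 (cVec (if nIn P t = 0 then [] else (om c).map fun s =>
      cAvg (cTop r i s (some c) (t - 1)) P.kP)) fun l : List ℕ => bx (nn P) (X * nn P ^ 3) l := by
    split_ifs
    · exact gt_vec_bx (j := 22) E (fun _ h => absurd h List.not_mem_nil) (Nat.zero_le _)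
    · exact szsi_row E hT hL hi hc ((bx_some c).2 hc) (by omega)
  refine Body.one E (St.two E (szsi_row E hT hL hi hc bx_none (t := t - 1) (by omega)) h2) ?_
  rintro _ ⟨a, b, rfl, ha, -⟩
  exact ⟨rfl, _, rfl, pastOut_bx (by rwa [rd_zero]) _⟩

theorem gt_fix (E : Env P mem M) (hT : TopC P mem M n) (hL : Lv P M r X) (hr : 1 ≤ r) (hi : i ≤ X)
    (hc : bx (nn P) X c) (hφ : φ * P.T0 ≤ nn P) :
    GT P mem M n 20 (cFix r i c φ) fun f : ℕ × List (List (Option Plan)) => bx (nn P) (X * nn P ^ 8) f := by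
  have hN := E.good.nn_big
  have hφ' : φ ≤ nn P := (Nat.le_mul_of_pos_right φ (by have := E.good.two_le_T0; omega)).trans hφ
  obtain ⟨h1, h2⟩ := om_bx E.good hc
  unfold cFix
  refine GT.of_body' E (eqs_fix P _) (Y := X) (by exact ⟨hL.r_nn E.good, hi, hc, hφ'.trans hL.N_le⟩)
    ((lad_le hN X 1).trans_lt (hL.fit' E.good)) (fun b hb => hb) (hL.fit' E.good) ?_
  refine Body.one E (St.two E
    (gt_vec_bx (j := 24) (β := List ℕ) (Y := X * nn P ^ 3) E (List.forall_mem_map.2 fun k hk => ?_) ?_)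
    (gt_vec_bx (j := 22) (β := List (Option Plan)) (Y := X * nn P ^ 8) E (List.forall_mem_map.2 fun k _ => ?_) ?_)) ?_
  · exact szsi_row E hT hL hi hc bx_none (E.good.wnd_nn hφ (List.mem_range.1 hk))
  · simpa using szsi_cube E.good E.good.T0_nn
  · exact gt_vec_bx (j := 20) E (List.forall_mem_map.2 fun s hs =>
      gt_plan E hT hL hr hi (h2 s hs) (sclC_le E.good hc k) hφ) (by rwa [List.length_map])
  · simpa using szsi_cube E.good E.good.nC_nn
  · rintro _ ⟨a, b, rfl, ha, hb⟩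
    exact ⟨rfl, _, rfl, fixOut_bx E.good hc (by rwa [rd_zero]) (by rwa [rd_one])⟩

/-- `gt_rnd`, `tabKeys_bx`, `topB_some_le` -/
theorem gt_draw (E : Env P mem M) (hT : TopC P mem M n) (hL : Lv P M r X) (hr : 1 ≤ r) (hi : i ≤ X)
    (hc : bx (nn P) X c) (hσ : σ ≤ X * nn P ^ 5) {lv : ℕ} (hlv : lv ≤ nn P) (ht : t ≤ nn P) :
    GT P mem M n 20 (cDraw r i c σ lv t) fun d : Drw => bx (nn P) (X * nn P ^ 10) d := by
  have hN := E.good.nn_big
  have hX := hL.N_le.trans (lad_le hN X 10)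
  have hX' := lad_le hN X 5
  obtain ⟨h1, h2⟩ := tabKeys_bx E.good hc hσ lv
  unfold cDraw
  refine GT.of_body' E (eqs_draw P _) (Y := X * nn P ^ 5) (by
    exact ⟨hL.r_nn E.good, hi.trans hX', Bx.mono hc hX', hσ, (hlv.trans hL.N_le).trans hX', (ht.trans hL.N_le).trans hX'⟩)
    (hL.fit' E.good) (fun b hb => hb) (hL.fit' E.good) ?_
  refine Body.two (St.one E (gt_rnd E E.good.L_nn)) ?_
  rintro _ ⟨a, rfl, ha⟩
  have ha' := ha.le.trans E.good.powL_nn
  refine ⟨_, St.hom (j := 20) (q := fun v : ℕ => v ≤ X * nn P ^ 10) E (List.forall_mem_map.2 fun c' hc' => ?_)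
    (by rwa [drawS2, List.length_map]), ?_⟩
  · rw [rd_zero]
    exact szsi_child E hT hL hr hi ha' (h2 c' hc') ht
  · rintro _ ⟨l, rfl, hl, hl'⟩
    rw [drawS2, List.length_map] at hl
    refine ⟨_, rfl, hlv.trans hX, ?_, ?_⟩
    · rw [rd_zero]
      exact ha'.trans hX
    · rw [rds_map_enc]
      exact ⟨hl ▸ h1, hl'⟩

theorem gt_cent (E : Env P mem M) (hT : TopC P mem M n) (hL : Lv P M r X) (hr : 1 ≤ r) (hi : i ≤ X) {pl : Plan}
    (hp : bx (nn P) (X * nn P ^ 8) pl) (ht : t ≤ nn P) :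
    GT P mem M n 22 (cCent P r i pl t) fun v : ℕ => v ≤ X * nn P ^ 11 := by
  have hb := E.good.b_nn
  refine gt_sum (j := 20) E (List.forall_mem_map.2 fun j hj =>
    szsi_child E hT hL hr hi ((List.mem_range.1 hj).le.trans hb) (pc_bx hp j) ht) ?_ ?_ (hL.fit' E.good)
  · simpa using szsi_cube E.good hb
  · rw [List.length_map, List.length_range, mul_comm]
    exact lad_mul_N le_rfl hb

end Crest.Agent.R288.Sz
end

-- ▼ part PVb/R288/SzsJ
section

/-!
# R288/SzsJ: sizes of hints and of the common data (prefix `szsj_`)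

Pattern (see `gt_small` in SzsF for a complete example): unfold the call (`unfold cX`), `refine GT.of_body' E (eqs_x P _) (Y := …) (box of the
arguments: `by simp; omega`-like, or `by exact ⟨_, _, …⟩`) (fit: `hL.fit' E.good`) (Y' := …) (box of the result) (fit) ?_`, then
`Body.one E (St.… ) fun r1 hr => …` or `Body.two`; stages by `St.nil/one/two/three/hom`; weaken with `GT.imp`, `GT.mono`;
boxes grow with `Bx.mono h (lad_mono …)`.
-/

set_option autoImplicit false

namespace Crest.Agent.R288.Sz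

open Crest.Agent.Lib.PT RT

variable {P : Par} {mem : ℕ → ℕ} {M n r X i t σ : ℕ} {c : Ctx}

theorem szsj_flat {α β : Type} (l : List α) (f : α → List β) {a : ℕ} (h : ∀ x ∈ l, (f x).length ≤ a) :
    (l.flatMap f).length ≤ l.length * a := by
  induction l with
  | nil => simp
  | cons x l ih =>
    have h1 := h x List.mem_cons_self
    have h2 := ih fun y hy => h y (List.mem_cons_of_mem _ hy)
    rw [List.flatMap_cons, List.length_append, List.length_cons, Nat.succ_mul]
    omega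


/-- `St.hom` with `gt_draw`, `rds_map_enc`, cases on `selP` (`selP_bx`), `gt_avg`, `gt_cent`, `cjunc_le`, `cends_bx` -/
theorem gt_hint (E : Env P mem M) (hT : TopC P mem M n) (hL : Lv P M r X) (hr : 1 ≤ r) (hi : i ≤ X)
    (hc : bx (nn P) X c) (hσ : σ ≤ X * nn P ^ 5) {pls : List (Option Plan)} (hp : bx (nn P) (X * nn P ^ 8) pls)
    (ht : t ≤ nn P) : GT P mem M n 20 (cHint r i c σ pls t) fun o : Option Hnt => bx (nn P) (X * nn P ^ 12) o := by
  have h := E.good
  have hN := h.nn_big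
  have hNX := hL.N_le
  have hX8 := lad_le hN X 8
  unfold cHint
  refine GT.of_body' E (eqs_hint P _) (Y := X * nn P ^ 8)
    (by exact ⟨hL.r_nn h, hi.trans hX8, Bx.mono hc hX8, hσ.trans (lad_mono hN X (by norm_num)), hp,
      ht.trans (hNX.trans hX8)⟩) (hL.fit' h) (Y' := X * nn P ^ 12) (fun _ hb => hb) (hL.fit' h) ?_
  refine Body.two (St.hom E (j := 20) (q := fun d : Drw => bx (nn P) (X * nn P ^ 10) d) ?_ ?_) ?_
  · intro k hk
    simp only [hintS1, List.mem_flatMap, List.mem_range, List.mem_replicate] at hk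
    obtain ⟨lv, hlv, -, rfl⟩ := hk
    exact gt_draw E hT hL hr hi hc hσ (hlv.le.trans h.nw_nn) ht
  · have h1 : (hintS1 P (Un.mk r, i, c, σ, pls, t)).length ≤ (List.range P.nw).length * nn P :=
      szsj_flat _ _ fun lv _ => by rw [List.length_replicate]; exact h.p2_nn _
    rw [List.length_range] at h1
    have h2 := Nat.mul_le_mul_right (nn P) h.nw_nn
    have h3 := (lad_pow hN).2
    rw [pow_two] at h3
    omega
  · rintro _ ⟨l, rfl, -, -⟩
    have hs := selP_bx hp c σ l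
    simp only [hintS2, hintOut, rds_map_enc]
    cases e : selP P c σ pls l with
    | none => exact ⟨_, St.nil E, fun r2 _ => ⟨_, rfl, bx_none⟩⟩
    | some pl =>
      have hpl := hs pl e
      refine ⟨_, St.one E (gt_avg E (gt_cent E hT hL hr hi hpl ht) (hL.fit' h) h.kK_nn), ?_⟩
      rintro _ ⟨v, rfl, hv⟩
      refine ⟨_, rfl, ?_⟩
      have h1 := cjunc_le h hpl
      have h2 : 100 * (X * nn P ^ 11) ≤ X * nn P ^ 12 := lad_step hN X 11
      have h3 : 100 * (X * nn P ^ 10) ≤ X * nn P ^ 11 := lad_step hN X 10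
      simp only [Option.map_some, bx_some, bx_mk, bx_nat, rd_zero]
      exact ⟨by omega, Bx.mono (cends_bx hpl) (lad_mono hN X (by norm_num))⟩
/-- second stage: `St.hom` at type `Option Hnt` (`gt_sum_nil` with `b0 = none`), `rd_map_enc`, `statH_bx` -/
theorem gt_com (E : Env P mem M) (hT : TopC P mem M n) (hL : Lv P M r X) (hr : 1 ≤ r) (hi : i ≤ X)
    (hc : bx (nn P) X c) (ht : t ≤ nn P) :
    GT P mem M n 20 (cCom r i c t) fun cm : Com =>
      bx (nn P) (X * nn P ^ 12) cm ∧ bx (nn P) (X * nn P ^ 8) cm.2.2.1 := by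
  have h := E.good
  have hN := h.nn_big
  have hNX := hL.N_le
  have hC : P.nC ≤ nn P ^ 3 := by
    have h1 := h.nC_nn
    have h2 := lad_pow hN
    omega
  unfold cCom
  refine GT.of_body' E (eqs_com P _) (Y := X) (by exact ⟨hL.r_nn h, hi, hc, ht.trans hNX⟩)
    ((lad_le hN X 1).trans_lt (hL.fit' h)) (Y' := X * nn P ^ 12) (fun _ hb => hb.1) (hL.fit' h) ?_
  refine Body.two (St.two E (gt_past E hT hL hi hc ht)
    (gt_fix E hT hL hr hi hc ((h.phs_mul_le_sz t).trans ht))) ?_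
  rintro _ ⟨A, f, rfl, hA, hf⟩
  have hg : ∀ j, bx (nn P) (X * nn P ^ 8) (f.2.getD j []) := fun j => bx_getD hf.2 j bx_nil
  simp only [comS2, comOut, rd_zero, rd_one]
  refine ⟨_, St.hom E (j := 20) (q := fun o : Option Hnt => bx (nn P) (X * nn P ^ 12) o) ?_
    (by simpa using hC), ?_⟩
  · intro k hk
    obtain ⟨j, -, rfl⟩ := List.mem_map.1 hk
    split_ifs
    · exact (gt_sum_nil E (b0 := (none : Option Hnt)) rfl).imp fun b hb => hb ▸ bx_none
    · exact gt_hint E hT hL hr hi hc (sclC_le h hc j) (hg j) ht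
  · rintro _ ⟨l, rfl, -, hl⟩
    refine ⟨_, rfl, ⟨Bx.mono hA (lad_mono hN X (by norm_num)),
      Bx.mono hf.1 (lad_mono hN X (by norm_num)), Bx.mono hf.2 (lad_mono hN X (by norm_num)),
      by simpa using hC, fun o ho => ?_⟩, hf.2⟩
    obtain ⟨j, -, rfl⟩ := List.mem_map.1 ho
    split_ifs
    · exact statH_bx h (hg j)
    · exact rd_map_enc (q := fun o : Option Hnt => bx (nn P) (X * nn P ^ 12) o) hl bx_none j
end Crest.Agent.R288.Sz
end

-- ▼ part PVb/R288/SzsF
section

/-!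
# R288/SzsF: sizes in the banded dynamic programme (prefix `szsf_`)

Pattern (see `gt_small` in SzsF for a complete example): unfold the call (`unfold cX`), `refine GT.of_body' E (eqs_x P _) (Y := …) (box of the
arguments: `by simp; omega`-like, or `by exact ⟨_, _, …⟩`) (fit: `hL.fit' E.good`) (Y' := …) (box of the result) (fit) ?_`, then
`Body.one E (St.… ) fun r1 hr => …` or `Body.two`; stages by `St.nil/one/two/three/hom`; weaken with `GT.imp`, `GT.mono`;
boxes grow with `Bx.mono h (lad_mono …)`.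
-/

set_option autoImplicit false

namespace Crest.Agent.R288.Sz

open Crest.Agent.Lib.PT RT

variable {P : Par} {mem : ℕ → ℕ} {M n e Y i : ℕ} {α γ : ℤ}

theorem szsf_leaf (h : Good P) {κ : Un} (hκ : κ.n ≤ nn P) (emp : Bool) (ms : List Bool) (row : List ℕ) :
    bx (nn P) (nn P + 1) (rowLeaf κ emp ms row) := by
  have hp := lad_pow h.nn_big
  have hN := h.nn_big
  refine ⟨?_, fun a ha => ?_⟩
  · simp only [rowLeaf, List.length_map, List.length_range]
    omega
  · simp only [rowLeaf, List.mem_map, List.mem_range] at ha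
    obtain ⟨b, -, rfl⟩ := ha
    rw [bx_nat]
    exact (min_le_left _ _).trans (by omega)

/-- Strong induction on `n` (generalizing everything) with `GT.of_body`; the children have height `e - 1` and bound
`Y * N ^ 3` (`Lo.down`); at a leaf the addresses are `≤ Y * N` (`P.1 < 2 ^ hh ≤ Y`, `Good.N_lt`), `St.hom` with `gt_read`. -/
theorem gt_row (E : Env P mem M) (hL : Lo P M e Y) (hi : i ≤ Y) (hα : α.natAbs ≤ Y) {κ : Un} (hκ : κ.n ≤ nn P)
    {row : List ℕ} (hrow : bx (nn P) (nn P + 1) row) :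
    GT P mem M n 20 (cRow e i α κ row) fun l : List ℕ => bx (nn P) (nn P + 1) l := by
  induction n using Nat.strong_induction_on generalizing e Y i α κ row with
  | _ n ih =>
  have hN := E.good.nn_big
  have h1 := lad_step hN Y 0
  have h1' := lad_step hN Y 1
  have h1'' := lad_step hN Y 2
  have h2 := hL.N_le
  have hp := lad_pow hN
  have hfit : Y * nn P ^ 1 < 2 ^ M := hL.fit' E.good
  simp only [pow_zero, mul_one, zero_add, Nat.reduceAdd] at h1 h1' h1''
  have hY1 : nn P + 1 ≤ Y * nn P ^ 1 := by omega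
  unfold cRow
  refine GT.of_body E (eqs_row P _) (Y := Y * nn P ^ 1)
    (by exact ⟨hL.e_le, le_trans hi (by omega), le_trans hα (by omega), hκ, Bx.mono hrow hY1⟩) hfit
    (Y' := Y * nn P ^ 1) (fun b hb => Bx.mono hb hY1) hfit fun n' hn' => ?_
  by_cases he : e = 0
  · have hlt := E.good.N_lt
    have hh := hL.h_le
    refine Body.one E (R1 := fun r => ∃ l : List ℕ, r = l.map enc ∧ l.length = (rowS1 P (Un.mk e, i, α, κ, row)).length ∧
      ∀ b ∈ l, b < 2 ^ M) (St.hom E (j := 20) ?_ ?_) ?_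
    · intro k hk
      simp only [rowS1, he, if_true, List.mem_cons, List.mem_map, List.mem_range] at hk
      rcases hk with rfl | ⟨a, ha, rfl⟩
      · exact gt_read E (by omega)
      · refine gt_read E ?_
        have : (ypos i α κ a).toNat ≤ i + α.natAbs + a := by
          unfold ypos
          omega
        omega
    · simp only [rowS1, he, if_true, List.length_cons, List.length_map, List.length_range]
      omega
    · intro r1 _
      refine ⟨by simp only [rowS2, he, if_true], _, by simp only [rowOut, he, if_true]; rfl, ?_⟩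
      exact szsf_leaf E.good hκ _ _ _
  · have hd := hL.down E.good (d := 1) le_rfl (by omega)
    have hi2 : 2 * i + 1 ≤ Y * nn P ^ 3 := by omega
    have hα2 : α.natAbs ≤ Y * nn P ^ 3 := by omega
    have e1 : rowS1 P (Un.mk e, i, α, κ, row) = [cRow (e - 1) (2 * i) α κ row] := by
      simp only [rowS1, he, if_false]
    rw [e1]
    refine Body.two (St.one E (ih n' hn' hd (by omega) hα2 hκ hrow)) ?_
    rintro _ ⟨a, rfl, ha⟩
    have e2 : rowS2 (Un.mk e, i, α, κ, row) [enc a] = [cRow (e - 1) (2 * i + 1) α κ a] := by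
      simp only [rowS2, he, if_false, rd_zero]
    rw [e2]
    refine ⟨_, St.one E (ih n' hn' hd hi2 hα2 hκ ha), ?_⟩
    rintro _ ⟨b, rfl, hb⟩
    exact ⟨b, by simp only [rowOut, he, if_false]; rfl, hb⟩

theorem row0_bx (h : Good P) {κ : Un} (hκ : κ.n ≤ nn P) : bx (nn P) (nn P + 1) (row0 κ) := by
  have hp := lad_pow h.nn_big
  have hN := h.nn_big
  refine ⟨?_, fun a ha => ?_⟩
  · simp only [row0, List.length_map, List.length_range]
    omega
  · simp only [row0, List.mem_map, List.mem_range] at ha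
    obtain ⟨b, -, rfl⟩ := ha
    rw [bx_nat]
    split_ifs <;> omega

theorem gt_small (E : Env P mem M) (hL : Lo P M e Y) (hi : i ≤ Y) (hα : α.natAbs ≤ Y) (hγ : γ.natAbs ≤ Y) {κ : ℕ}
    (hκ : κ ≤ nn P) : GT P mem M n 20 (cSmall e i α γ κ) fun v : ℕ => v ≤ κ + 1 := by
  have hN := E.good.nn_big
  have h1 := lad_step hN Y 0
  have h2 := hL.N_le
  unfold cSmall
  refine GT.of_body' E (eqs_small P _) (Y := Y) (by exact ⟨hL.e_le, hi, hα, hγ, hκ⟩) (hL.fit0 E.good)
    (Y' := Y * nn P ^ 1) (fun b hb => ?_) (hL.fit' E.good) ?_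
  · rw [bx_nat]
    simp only [pow_zero, mul_one, zero_add] at h1
    omega
  · unfold smallS1 smallOut
    dsimp only
    split_ifs with h
    · refine Body.one E (St.one E (gt_row E hL hi hα (κ := ⟨κ⟩) hκ (row0_bx E.good hκ))) ?_
      rintro _ ⟨a, rfl, -⟩
      exact ⟨rfl, _, rfl, min_le_left _ _⟩
    · exact Body.one E (St.nil E) fun _ _ => ⟨rfl, _, rfl, le_rfl⟩

end Crest.Agent.R288.Sz
end

-- ▼ part PVb/R288/SzsG
section

/-!
# R288/SzsG: sizes in the gap tests and the oracle (prefix `szsg_`)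

Pattern (see `gt_small` in SzsF for a complete example): unfold the call (`unfold cX`), `refine GT.of_body' E (eqs_x P _) (Y := …) (box of the
arguments: `by simp; omega`-like, or `by exact ⟨_, _, …⟩`) (fit: `hL.fit' E.good`) (Y' := …) (box of the result) (fit) ?_`, then
`Body.one E (St.… ) fun r1 hr => …` or `Body.two`; stages by `St.nil/one/two/three/hom`; weaken with `GT.imp`, `GT.mono`;
boxes grow with `Bx.mono h (lad_mono …)`.
-/

set_option autoImplicit false

namespace Crest.Agent.R288.Sz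

open Crest.Agent.Lib.PT RT

variable {P : Par} {mem : ℕ → ℕ} {M n e Y i κ : ℕ} {α γ : ℤ}

/-- The claim for `cGap`. -/
def GapZ (P : Par) (mem : ℕ → ℕ) (M n : ℕ) : Prop :=
  ∀ (e Y i : ℕ) (α γ : ℤ) (κ : ℕ), Lo P M e Y → i ≤ Y → α.natAbs ≤ Y → γ.natAbs ≤ Y → κ ≤ Y →
    GT P mem M n 20 (cGap e i α γ κ) fun _ : Bool => True

theorem szsg_gg (h : Good P) (hκ : κ ≤ Y) (eb : ℕ) : gg P κ eb ≤ Y * nn P ^ 1 := by
  unfold gg gu
  rw [pow_one]
  exact Nat.mul_le_mul ((Nat.div_le_self _ _).trans hκ) (h.p2_nn _)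

theorem szsg_off {g a p N Y : ℕ} (hg : g ≤ Y * N ^ 1) (ha : a < 2 * p + 1) (hp : p ≤ 3 * N) :
    ((g : ℤ) * ((a : ℤ) - (p : ℕ))).natAbs ≤ 3 * (Y * N ^ 2) := by
  rw [Int.natAbs_mul, Int.natAbs_natCast]
  have h1 : ((a : ℤ) - (p : ℕ)).natAbs ≤ 3 * N := by omega
  calc g * ((a : ℤ) - (p : ℕ)).natAbs ≤ (Y * N ^ 1) * (3 * N) := Nat.mul_le_mul hg h1
    _ = 3 * (Y * N ^ 2) := by ring


theorem gstates_bx (h : Good P) (hα : α.natAbs ≤ Y) (hκ : κ ≤ Y) (eb : ℕ) :
    bx (nn P) (Y * nn P ^ 3) (gstates P α κ eb) := by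
  have hN := h.nn_big
  have hg := szsg_gg h hκ eb
  have p1 := h.p2_nn (2 * P.kγ + P.kb + 1 - eb)
  have p2 := h.p2_nn P.kγ
  have l0 := lad_step hN Y 0
  have l1 := lad_step hN Y 1
  have l2 := lad_step hN Y 2
  simp only [pow_zero, mul_one, zero_add, Nat.reduceAdd] at l0 l1 l2
  have hr := rdn_le (gg P κ eb) α
  rw [bx_list]
  unfold gstates
  constructor
  · rw [List.length_flatMap]
    simp only [List.length_map, List.length_range, List.map_const', List.sum_replicate, smul_eq_mul]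
    have h1 := lad_pow hN
    calc _ ≤ (3 * nn P) * (5 * nn P) := Nat.mul_le_mul (by omega) (by omega)
      _ = 15 * nn P ^ 2 := by ring
      _ ≤ nn P ^ 3 := by omega
  · intro s hs
    simp only [List.mem_flatMap, List.mem_map, List.mem_range] at hs
    obtain ⟨a, ha, a', ha', rfl⟩ := hs
    have h1 := szsg_off (N := nn P) hg ha (by omega)
    have h2 := szsg_off (N := nn P) hg ha' (by omega)
    have h3 := Int.natAbs_add_le (rdn (gg P κ eb) α)
      ((gg P κ eb : ℤ) * ((a : ℤ) - (P.p2 (2 * P.kγ + P.kb + 1 - eb) + 1 : ℕ)))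
    have h4 := Int.natAbs_add_le (rdn (gg P κ eb) α +
      (gg P κ eb : ℤ) * ((a : ℤ) - (P.p2 (2 * P.kγ + P.kb + 1 - eb) + 1 : ℕ)))
      ((gg P κ eb : ℤ) * ((a' : ℤ) - (2 * P.p2 P.kγ + 1 : ℕ)))
    rw [bx_mk, bx_int, bx_int]
    constructor <;> omega

theorem gdraws_bx (h : Good P) : bx (nn P) (nn P) (gdraws P) := by
  rw [bx_list]
  unfold gdraws
  constructor
  · have h1 : ∀ eb : ℕ, ((List.range (P.p2 P.kγ)).flatMap fun l =>
        List.replicate (P.p2 (eb + 6)) (eb, l)).length ≤ nn P * nn P := by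
      intro eb
      rw [List.length_flatMap]
      simp only [List.length_replicate, List.length_range, List.map_const', List.sum_replicate, smul_eq_mul]
      exact Nat.mul_le_mul (h.p2_nn _) (h.p2_nn _)
    rw [List.length_flatMap]
    refine (List.sum_le_card_nsmul _ (nn P * nn P) fun x hx => ?_).trans ?_
    · obtain ⟨eb, -, rfl⟩ := List.mem_map.1 hx
      exact h1 eb
    · rw [List.length_map, List.length_range, smul_eq_mul]
      calc _ ≤ nn P * (nn P * nn P) := Nat.mul_le_mul_right _ h.kgam_nn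
        _ = nn P ^ 3 := by ring
  · intro s hs
    simp only [List.mem_flatMap, List.mem_range, List.mem_replicate] at hs
    obtain ⟨eb, he, l, hl, -, rfl⟩ := hs
    have h1 := h.kgam_nn
    have h2 := h.p2_nn P.kγ
    rw [bx_mk, bx_nat, bx_nat]
    constructor <;> omega

theorem gt_gdraw (E : Env P mem M) (hG : GapZ P mem M n) (hL : Lo P M e Y) (he : P.kb < e) (hi : i ≤ Y)
    (hα : α.natAbs ≤ Y) (hκ : κ ≤ Y) {eb l : ℕ} (heb : eb ≤ nn P) (hl : l ≤ nn P) :
    GT P mem M n 20 (cGDraw e i α κ eb l) fun _ : Bool => True := by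
  have hN := E.good.nn_big
  have h2 := hL.N_le
  have l0 := lad_step hN Y 0
  have l1 := lad_step hN Y 1
  have l2 := lad_step hN Y 2
  simp only [pow_zero, mul_one, zero_add, Nat.reduceAdd] at l0 l1 l2
  unfold cGDraw
  refine GT.of_body' E (eqs_gdraw P _) (Y := Y) (by exact ⟨hL.e_le, hi, hα, hκ, heb.trans h2, hl.trans h2⟩)
    (hL.fit0 E.good) (Y' := Y) (fun b _ => trivial) (hL.fit0 E.good) ?_
  refine Body.two (St.one E (gt_rnd E E.good.kb_nn)) ?_
  rintro _ ⟨v, rfl, hv⟩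
  have hs := gstates_bx E.good hα hκ eb
  refine ⟨_, St.hom E (j := 20) (q := fun _ : Bool => True) ?_ ?_, fun r2 _ => ⟨_, rfl, trivial⟩⟩
  · intro k hk
    unfold gdrawS2 at hk
    obtain ⟨s, hs', rfl⟩ := List.mem_map.1 hk
    dsimp only
    rw [rd_zero]
    have h3 := E.good.powkb_nn
    have h4 : i * P.p2 P.kb ≤ Y * nn P ^ 1 := by
      rw [pow_one]
      exact Nat.mul_le_mul hi (E.good.p2_nn _)
    have h5 := E.good.p2_nn P.kγ
    have h6 : gg P κ eb * (P.p2 P.kγ + l + 2) ≤ 3 * (Y * nn P ^ 2) :=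
      calc _ ≤ (Y * nn P ^ 1) * (3 * nn P) := Nat.mul_le_mul (szsg_gg E.good hκ eb) (by omega)
        _ = 3 * (Y * nn P ^ 2) := by ring
    exact hG _ _ _ _ _ _ (hL.down E.good E.good.kb_pos_sz he.le) (by omega) (hs.2 s hs').1 (hs.2 s hs').2 (by omega)
  · unfold gdrawS2
    rw [List.length_map]
    exact hs.1

theorem gt_graw (E : Env P mem M) (hG : GapZ P mem M n) (hL : Lo P M e Y) (he : P.kb < e) (hi : i ≤ Y)
    (hα : α.natAbs ≤ Y) (hκ : κ ≤ Y) : GT P mem M n 20 (cGRaw e i α κ) fun _ : Bool => True := by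
  have hd := gdraws_bx E.good
  unfold cGRaw
  refine GT.of_body' E (eqs_graw P _) (Y := Y) (by exact ⟨hL.e_le, hi, hα, hκ⟩)
    (hL.fit0 E.good) (Y' := Y) (fun b _ => trivial) (hL.fit0 E.good) ?_
  refine Body.one E (St.hom E (j := 20) (q := fun _ : Bool => True) ?_ ?_) fun r1 _ => ⟨rfl, _, rfl, trivial⟩
  · intro k hk
    unfold grawS1 at hk
    obtain ⟨s, hs', rfl⟩ := List.mem_map.1 hk
    exact gt_gdraw E hG hL he hi hα hκ (hd.2 s hs').1 (hd.2 s hs').2
  · unfold grawS1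
    rw [List.length_map]
    exact hd.1

/-- Strong induction on `n`, `GT.of_body`. -/
theorem gapZ (E : Env P mem M) (n : ℕ) : GapZ P mem M n := by
  induction n using Nat.strong_induction_on with
  | _ n ih =>
    intro e Y i α γ κ hL hi hα hγ hκ
    have hN := E.good.nn_big
    unfold cGap
    refine GT.of_body E (eqs_gap P _) (Y := Y) (by exact ⟨hL.e_le, hi, hα, hγ, hκ⟩)
      (hL.fit0 E.good) (Y' := Y) (fun b _ => trivial) (hL.fit0 E.good) fun n' hn' => ?_
    unfold gapS1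
    dsimp only
    split_ifs with h1 h2 h3
    · exact Body.one E (St.nil E) fun _ _ => ⟨rfl, _, rfl, trivial⟩
    · exact Body.one E (St.one E (gt_small E hL hi hα hγ ((min_le_right _ _).trans E.good.F1_nn)))
        fun _ _ => ⟨rfl, _, rfl, trivial⟩
    · exact Body.one E (St.nil E) fun _ _ => ⟨rfl, _, rfl, trivial⟩
    · refine Body.one E (St.hom E (j := 20) (q := fun _ : Bool => True) ?_ ?_) fun r1 _ => ⟨rfl, _, rfl, trivial⟩
      · intro k hk
        rw [List.eq_of_mem_replicate hk]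
        exact gt_graw E (ih n' hn') hL (by omega) hi hα hκ
      · have h4 := E.good.hh_nn
        have h5 := lad_pow hN
        rw [List.length_replicate]
        omega

theorem gt_orc (E : Env P mem M) (hL : Lo P M e Y) (he : 2 ^ (e + 2) ≤ Y) (hi : i ≤ Y) (hα : α.natAbs ≤ Y)
    (hγ : γ.natAbs ≤ Y) : GT P mem M n 20 (cOrc e i α γ) fun v : ℕ => v ≤ 2 ^ e + (γ - α).natAbs := by
  have hN := E.good.nn_big
  have l0 := lad_step hN Y 0
  simp only [pow_zero, mul_one, zero_add] at l0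
  have h1 : 2 ^ e ≤ 2 ^ (e + 2) := Nat.pow_le_pow_right (by norm_num) (by omega)
  unfold cOrc
  refine GT.of_body' E (eqs_orc P _) (Y := Y) (by exact ⟨hL.e_le, hi, hα, hγ⟩)
    (hL.fit0 E.good) (Y' := Y * nn P ^ 1) (fun b hb => ?_) (hL.fit' E.good) ?_
  · rw [bx_nat]
    omega
  · unfold orcS1 orcOut
    dsimp only
    split_ifs with h2
    · exact Body.one E (St.nil E) fun _ _ => ⟨rfl, _, rfl, le_rfl⟩
    · refine Body.one E (St.hom E (j := 20) (q := fun _ : Bool => True) ?_ ?_)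
        fun r1 _ => ⟨rfl, _, rfl, min_le_left _ _⟩
      · intro k hk
        obtain ⟨s, -, rfl⟩ := List.mem_map.1 hk
        exact gapZ E n _ _ _ _ _ _ hL hi hα hγ
          ((Nat.pow_le_pow_right (by norm_num) (min_le_right _ _)).trans he)
      · have h4 := hL.e_le
        have h5 := lad_pow hN
        rw [List.length_map, List.length_range]
        omega

end Crest.Agent.R288.Sz
end

-- ▼ part PVb/R288/SzsK
section

/-!
# R288/SzsK: sizes at the top of a block (prefix `szsk_`)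

Pattern (see `gt_small` in SzsF for a complete example): unfold the call (`unfold cX`), `refine GT.of_body' E (eqs_x P _) (Y := …) (box of the
arguments: `by simp; omega`-like, or `by exact ⟨_, _, …⟩`) (fit: `hL.fit' E.good`) (Y' := …) (box of the result) (fit) ?_`, then
`Body.one E (St.… ) fun r1 hr => …` or `Body.two`; stages by `St.nil/one/two/three/hom`; weaken with `GT.imp`, `GT.mono`;
boxes grow with `Bx.mono h (lad_mono …)`.
-/

set_option autoImplicit false

namespace Crest.Agent.R288.Sz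

open Crest.Agent.Lib.PT RT

variable {P : Par} {mem : ℕ → ℕ} {M n r X i t : ℕ} {s : ℤ × ℤ} {c : Option Ctx}

/-- cases on `c`; `gt_orc` with `Lv.lo` (`2 ^ (r L + 2) ≤ X N ^ 2`); `gt_avg` of `hT`, `sclS_le`, `St.hom` at type `Option ℕ`,
`omin_le_left`; `gt_com`, `own_bx`, `gt_sroot`, `gt_sum_nil` (`b0 = 0`), `ctxOut_le_cap` -/
theorem gt_top' (E : Env P mem M) (hT : TopC P mem M n) (hS : SnC P mem M n) (hL : Lv P M r X) (hr : 1 ≤ r)
    (hi : i ≤ X) (hs : bx (nn P) (X * nn P ^ 2) s) (hc : bx (nn P) X c) (ht : t ≤ nn P) :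
    GT P mem M n 20 (cTop' r i s c t) fun v : ℕ => v ≤ topB P r s c := by
  have hN := E.good.nn_big
  have hp := lad_pow hN
  have hX2 : X ≤ X * nn P ^ 2 := lad_le hN X 2
  have hB : topB P r s c ≤ X * nn P ^ 3 := topB_le E.good hL hs hc
  unfold cTop'
  refine GT.of_body' E (eqs_top' P _) (Y := X * nn P ^ 2)
    (by exact ⟨hL.r_nn E.good, hi.trans hX2, hs, Bx.mono hc hX2, ht.trans (hL.N_le.trans hX2)⟩)
    (hL.fit' E.good) (Y' := X * nn P ^ 3) (fun b hb => le_trans hb hB) (hL.fit' E.good) ?_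
  unfold top'S1 top'S2 top'Out
  cases c with
  | none =>
    dsimp only [Option.elim]
    by_cases h0 : t = 0
    · simp only [if_pos h0]
      have h4 : 2 ^ (r * P.L + 2) ≤ X * nn P ^ 2 := by
        rw [pow_add]
        exact Nat.mul_le_mul (hL.pow_le E.good) (by omega)
      refine Body.one E (St.one E (gt_orc E (hL.lo E.good) h4 (hi.trans hX2) hs.1 hs.2)) ?_
      rintro _ ⟨a, rfl, ha⟩
      exact ⟨rfl, a, rfl, ha.trans (le_max_right _ _)⟩
    · simp only [if_neg h0]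
      refine Body.two (St.one E (gt_avg E (hT r X i s none (t - 1) hL hi hs hc (by omega))
        (lt_of_le_of_lt hB (hL.fit' E.good)) E.good.kP_nn)) ?_
      rintro _ ⟨a, rfl, ha⟩
      rw [rd_zero]
      have hσ : ∀ j, sclS P a j ≤ X * nn P ^ 5 := sclS_le E.good hL.N_le (ha.trans hB)
      refine ⟨_, St.hom E (j := 20) (q := fun o : Option ℕ => bx (nn P) (X * nn P ^ 12) o)
        (fun k hk => ?_) ?_, ?_⟩
      · rcases List.mem_append.1 hk with hk | hk
        · obtain ⟨j, -, rfl⟩ := List.mem_map.1 hk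
          exact gt_gval E hT hL hr hi hs (hσ j) ht
        · split_ifs at hk with h1
          · obtain ⟨j, -, rfl⟩ := List.mem_map.1 hk
            exact gt_sval E hT hS hL hr hi hs (hσ j) ht
          · exact absurd hk List.not_mem_nil
      · have h5 := E.good.nS_nn
        split_ifs
        · simp only [List.length_append, List.length_map, List.length_range]
          omega
        · simp only [List.length_append, List.length_map, List.length_range, List.length_nil]
          omega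
      · rintro r2 -
        exact ⟨_, rfl, (omin_le_left _ _).trans ha⟩
  | some c =>
    dsimp only [Option.elim]
    refine Body.two (St.one E (gt_com E hT hL hr hi ((bx_some c).1 hc) ht)) ?_
    rintro _ ⟨cm, rfl, -, hcm⟩
    rw [rd_zero]
    refine ⟨_, St.hom E (j := 22) (q := fun _ : ℕ => True) (fun k hk => ?_) ?_, ?_⟩
    · obtain ⟨j, -, rfl⟩ := List.mem_map.1 hk
      have h1 := own_bx c s hcm j
      cases e : own c s cm j with
      | none =>
        exact (gt_sum_nil E (b0 := (0 : ℕ)) rfl).mono E le_rfl (by norm_num) fun _ _ => trivial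
      | some pl =>
        exact (gt_avg E (gt_sroot E hS hL hr hi (h1 pl e) ht) (hL.fit' E.good) E.good.kK_nn).imp
          fun _ _ => trivial
    · have h5 := E.good.nC_nn
      simp only [List.length_map, List.length_range]
      omega
    · rintro r2 -
      exact ⟨_, rfl, (ctxOut_le_cap P c s cm _).trans (le_max_right _ _)⟩

/-- `GT.of_body`; `gt_small` with `Lv.lo`, `gt_top'` -/
theorem topC_step (E : Env P mem M) (h : ∀ n' < n, TopC P mem M n' ∧ SnC P mem M n') : TopC P mem M n := by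
  intro r X i s c t hL hi hs hc ht
  have hN := E.good.nn_big
  have hX2 : X ≤ X * nn P ^ 2 := lad_le hN X 2
  have hB : topB P r s c ≤ X * nn P ^ 3 := topB_le E.good hL hs hc
  unfold cTop
  refine GT.of_body E (eqs_top P _) (Y := X * nn P ^ 2)
    (by exact ⟨hL.r_nn E.good, hi.trans hX2, hs, Bx.mono hc hX2, ht.trans (hL.N_le.trans hX2)⟩)
    (hL.fit' E.good) (Y' := X * nn P ^ 3) (fun b hb => le_trans hb hB) (hL.fit' E.good) fun n' hn' => ?_
  unfold topS1 topS2 topOut
  dsimp only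
  refine Body.two (St.one E (gt_small E (hL.lo E.good) (hi.trans hX2) hs.1 hs.2 E.good.F0_nn)) ?_
  rintro _ ⟨a, rfl, -⟩
  rw [rd_zero]
  by_cases h1 : a ≤ P.F0
  · rw [if_pos (Or.inl h1)]
    refine ⟨_, St.nil E, fun r2 _ => ?_⟩
    rw [if_pos h1]
    exact ⟨a, rfl, h1.trans (le_max_left _ _)⟩
  · by_cases h2 : r = 0 ∨ P.F0 < radc c
    · rw [if_pos (Or.inr h2)]
      refine ⟨_, St.nil E, fun r2 _ => ?_⟩
      rw [if_neg h1, if_pos h2]
      refine ⟨_, rfl, le_trans ?_ (le_max_right _ _)⟩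
      cases c with
      | none =>
        have h3 : 1 ≤ 2 ^ (r * P.L) := Nat.one_le_two_pow
        dsimp only [capc, Option.elim]
        omega
      | some c => exact min_le_right _ _
    · rw [if_neg (not_or.2 ⟨h1, h2⟩)]
      have hr : 1 ≤ r := by omega
      refine ⟨_, St.one E (gt_top' E (h n' hn').1 (h n' hn').2 hL hr hi hs hc ht), ?_⟩
      rintro _ ⟨b, rfl, hb⟩
      rw [if_neg h1, if_neg h2]
      exact ⟨b, rfl, hb⟩

end Crest.Agent.R288.Sz
end

-- ▼ part PVb/R288/SzsL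
section

/-!
# R288/SzsL: sizes in the small mode (prefix `szsl_`)

Pattern (see `gt_small` in SzsF for a complete example): unfold the call (`unfold cX`), `refine GT.of_body' E (eqs_x P _) (Y := …) (box of the
arguments: `by simp; omega`-like, or `by exact ⟨_, _, …⟩`) (fit: `hL.fit' E.good`) (Y' := …) (box of the result) (fit) ?_`, then
`Body.one E (St.… ) fun r1 hr => …` or `Body.two`; stages by `St.nil/one/two/three/hom`; weaken with `GT.imp`, `GT.mono`;
boxes grow with `Bx.mono h (lad_mono …)`.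
-/

set_option autoImplicit false

namespace Crest.Agent.R288.Sz

open Crest.Agent.Lib.PT RT

variable {P : Par} {mem : ℕ → ℕ} {M n : ℕ}

/-- `GT.of_body` (arguments in the box `X N ^ 11`, result `≤ 2 ^ L · X N ^ 10 ≤ X N ^ 11`); three cases: `hb = 0` (a child,
`pc_bx`, `topB_some_le`), `q = 0` (`St.two`, `optz_le`, `mb_nn`), otherwise `St.three` (`gt_vec`, `gt_avg`, `gt_rnd`, `rnk_le_sz`,
`nIn_nn`, `qbits_nn`); an option has `k0' + (q - 1) N ≤ k0 + q N`. -/
theorem snC_step (E : Env P mem M) (h : ∀ n' < n, TopC P mem M n' ∧ SnC P mem M n') : SnC P mem M n := by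
  intro r X i pl hb p s k0 q t hL hr hi hp hhb hpp hs hk ht
  have G := E.good
  have hN := G.nn_big
  have hX := hL.N_le
  have hL2 := G.powL_nn
  have hLn := G.L_nn
  have h11 := lad_le hN X 11
  have hN2 : nn P ^ 2 ≤ X * nn P ^ 11 := by
    calc nn P ^ 2 = nn P * nn P ^ 1 := by ring
      _ ≤ X * nn P ^ 1 := Nat.mul_le_mul_right _ hX
      _ ≤ X * nn P ^ 11 := lad_mono hN X (by norm_num)
  have hpN : p ≤ nn P := by
    have : 2 ^ (P.L - hb) ≤ 2 ^ P.L := Nat.pow_le_pow_right (by norm_num) (Nat.sub_le _ _)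
    omega
  have hq : q ≤ nn P := by
    have h1 : q * nn P ≤ nn P * nn P := by rw [← sq]; omega
    exact Nat.le_of_mul_le_mul_right h1 (by omega)
  have hres : 2 ^ hb * (X * nn P ^ 10) ≤ X * nn P ^ 11 := by
    have h1 : 2 ^ hb ≤ nn P := (Nat.pow_le_pow_right (by norm_num) hhb).trans hL2
    rw [mul_comm]
    exact lad_mul_N le_rfl h1
  have hfit : X * nn P ^ 11 < 2 ^ M := hL.fit' G
  have hN3 : nn P ≤ nn P ^ 3 := by
    have := lad_pow hN
    omega
  unfold cSN
  refine GT.of_body E (eqs_sn P _) (Y := X * nn P ^ 11)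
    (by
      exact ⟨hL.r_nn G, hi.trans h11, Bx.mono hp (lad_mono hN X (by norm_num)),
        hhb.trans (hLn.trans (hX.trans h11)), hpN.trans (hX.trans h11), hs,
        (Nat.le_add_right _ _).trans (hk.trans hN2), hq.trans (hX.trans h11), ht.trans (hX.trans h11)⟩)
    hfit (Y' := X * nn P ^ 11) (fun b hb' => hb'.trans hres) hfit fun n' hn' => ?_
  obtain ⟨hT, hS⟩ := h n' hn'
  unfold snS1 snS2 snOut
  dsimp only
  by_cases h0 : hb = 0
  · subst h0
    simp only [if_true, true_or]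
    have hc : bx (nn P) (X * nn P ^ 8) (pc pl p) := pc_bx hp p
    have h1 := hT (r - 1) (X * nn P ^ 12) (i * P.b + p) s (some (pc pl p)) t (hL.down G hr) (hL.child G hi hpN)
      (Bx.mono hs (by rw [lad_assoc]; exact lad_mono hN X (by norm_num)))
      ((bx_some _).2 (Bx.mono hc (lad_mono hN X (by norm_num)))) ht
    refine Body.one E (St.one E h1) ?_
    rintro _ ⟨a, rfl, ha⟩
    refine ⟨rfl, a, rfl, ?_⟩
    rw [pow_zero, one_mul]
    exact ha.trans (topB_some_le G hX _ _ hc)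
  by_cases hq0 : q = 0
  · subst hq0
    simp only [h0, if_false, if_true, or_true]
    have hz := optz_le G hp hb p (k0 := k0) (by omega)
    have hm : 0 + P.mb * nn P ≤ nn P ^ 2 := by
      rw [zero_add, sq]
      exact Nat.mul_le_mul_right _ G.mb_nn
    have hpw : 2 ^ (P.L - (hb - 1)) = 2 * 2 ^ (P.L - hb) := by
      rw [show P.L - (hb - 1) = P.L - hb + 1 by omega, pow_succ']
    have h1 := hS r X i pl (hb - 1) (2 * p) (s.1, optz P pl hb p k0) 0 P.mb t hL hr hi hp (by omega) (by omega)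
      ⟨hs.1, hz⟩ hm ht
    have h2 := hS r X i pl (hb - 1) (2 * p + 1) (optz P pl hb p k0, s.2) 0 P.mb t hL hr hi hp (by omega) (by omega)
      ⟨hz, hs.2⟩ hm ht
    refine Body.one E (St.two E h1 h2) ?_
    rintro _ ⟨a, b, rfl, ha, hb'⟩
    refine ⟨rfl, a + b, by rw [rd_zero, rd_one], ?_⟩
    have e : 2 ^ hb = 2 * 2 ^ (hb - 1) := by
      rw [← pow_succ']
      congr 1
      omega
    rw [e, mul_assoc]
    omega
  · simp only [h0, hq0, if_false, or_self]
    have hopt : ∀ (o : Bool) (t' : ℕ), t' ≤ nn P →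
        GT P mem M n' 20 (snOpt P (⟨r⟩, i, pl, hb, p, s, k0, q, t) o t')
          fun v : ℕ => v ≤ 2 ^ hb * (X * nn P ^ 10) := by
      intro o t' ht'
      unfold snOpt
      dsimp only
      refine hS r X i pl hb p s _ (q - 1) t' hL hr hi hp hhb hpp hs ?_ ht'
      have h1 := G.p2_nn (q - 1)
      have h2 : q * nn P = (q - 1) * nn P + nn P := by
        rw [← Nat.succ_mul]
        congr 1
        omega
      split_ifs <;> omega
    have hvec : ∀ o : Bool, GT P mem M n' (20 + 2 + 2)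
        (cVec ((List.range (nIn P t)).map fun k =>
          cAvg (snOpt P (⟨r⟩, i, pl, hb, p, s, k0, q, t) o (rnk P t k)) P.kP))
        fun l : List ℕ => l.length = ((List.range (nIn P t)).map fun k =>
          cAvg (snOpt P (⟨r⟩, i, pl, hb, p, s, k0, q, t) o (rnk P t k)) P.kP).length ∧
            ∀ b ∈ l, b ≤ 2 ^ hb * (X * nn P ^ 10) := by
      intro o
      refine gt_vec E (fun k hk' => ?_) (by simpa using (G.nIn_nn t).trans hN3)
      obtain ⟨j, hj, rfl⟩ := List.mem_map.1 hk'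
      exact gt_avg E (hopt o _ ((G.rnk_le_sz (List.mem_range.1 hj)).trans ht)) (hres.trans_lt hfit) G.kP_nn
    refine Body.two (St.three E (hvec false) (hvec true) (gt_rnd E (G.qbits_nn _))) fun r1 _ => ?_
    refine ⟨_, St.one E (hopt _ t ht), ?_⟩
    rintro _ ⟨a, rfl, ha⟩
    exact ⟨a, rfl, ha⟩

end Crest.Agent.R288.Sz
end

-- ▼ part PVb/R288/Szs
section

/-!
# R288: sizes of calls and results

Suggested proof: `Scheme.szb_of_inv` with an inductive predicate `OkR : Call → (V → Prop) → Prop`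
(`Ok k := ∃ Q, OkR k Q`, `Res k v := ∀ Q, OkR k Q → Q v`, or any other design), one constructor per kind of call.
Boxes: let `A = 8 hh + 8 kP`, `box r = 2 ^ (A (H - r + 1))`.  In a call at block level `r ≤ H` all offsets, all
components of contexts (`|c.1|, |c.2.1|, c.2.2.1`), scales and indices are bounded by `box r · 2^(O(kP))`, radii
`c.2.2.2.n ≤ 2^kP`, times `≤ T`, `i < 2^(L (H - r))`.  Results: `cTop … none` returns a number
`≤ max F0 (2^(rL) + |s.2 - s.1|)` (minimum with the average of the previous round; `orcOut`), `cTop … (some c)` a number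
`≤ max F0 (cap P c)`; scales are `≤ 2^nS ·` such numbers, the grid `zgrid P α σ` lies in `|α| + 5σ`, plans have
boundaries in the grid (or rounded ends), `b + 1` boundaries and at most `b` contexts `ctxAt`; `cSN` returns a sum
of at most `2^hb` values of children.  The gap tests have their own invariant (offsets and thresholds grow by a
factor `≤ 16` per level, `e ≤ 2 hh`), rows have length `2κ + 1` (`κ ≤ 2^kP`) with entries `≤ κ + 1`, symbols are
`< 2^w`.  Every list has length `≤ 2^(4 kP)`, nesting depth is bounded, `hh ≤ 2^kP`.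
-/

set_option autoImplicit false

namespace Crest.Agent.R288

open Crest.Agent.Lib.PT RT Sz

theorem szs_claims {P : Par} {mem : ℕ → ℕ} {M : ℕ} (E : Env P mem M) (n : ℕ) : TopC P mem M n ∧ SnC P mem M n := by
  induction n using Nat.strong_induction_on with
  | _ n ih => exact ⟨topC_step E ih, snC_step E ih⟩

theorem szb_root : ∃ C d : ℕ, ∀ (P : Par) (mem : ℕ → ℕ) (w n c : ℕ), Good P → (∀ a, mem a < 2 ^ w) →
    alg.Cst P n c (root P) →
    sz P ≤ C * (2 ^ P.kP + w + 1) ^ d ∧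
    alg.Szb P (realPrim P mem) (C * (2 ^ P.kP + w + 1) ^ d) n (root P) ∧
      (alg.eval P (realPrim P mem) n (root P)).All fun v => (dec v : ℕ) ≤ 2 ^ (2 * P.hh + 1) := by
  refine ⟨1, 120, fun P mem w n c h hw hc => ?_⟩
  have hN := h.nn_big
  have h1 : nn P ≤ 2 ^ P.kP + w + 1 := by
    unfold nn
    omega
  have h0 : w ≤ 2 ^ P.kP + w + 1 := (Nat.le_add_left _ _).trans (Nat.le_succ _)
  generalize 2 ^ P.kP + w + 1 = U at h0 h1 ⊢
  have h2 : U ≤ U ^ 3 := Nat.le_self_pow (by norm_num) _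
  have E : Env P mem (U ^ 3) := ⟨h, Nat.pow_le_pow_left h1 3, fun a => (hw a).trans_le
    (Nat.pow_le_pow_right (by norm_num) (by omega))⟩
  have hL := lv_root h E.big
  have hlt := h.N_lt
  have h3 : 2 ^ P.hh ≤ 2 ^ (2 * P.hh) := Nat.pow_le_pow_right (by norm_num) (by omega)
  have h4 := hL.h_le
  have h5 := lad_le hN (nn P ^ (2 * P.hh)) 2
  have h6 : ((P.2.1 : ℤ) - P.1).natAbs ≤ 2 ^ P.hh := by omega
  have h7 := ((szs_claims E n).1 P.H _ 0 (0, (P.2.1 : ℤ) - P.1) none P.T hL (Nat.zero_le _)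
    ⟨Nat.zero_le _, h6.trans (by omega)⟩ bx_none h.T_nn).run n le_rfl c hc
  have h8 : (U ^ 3) ^ 40 = 1 * U ^ 120 := by rw [← pow_mul, one_mul]
  refine ⟨?_, h8 ▸ h7.1, h7.2.mono ?_⟩
  · have a1 : sz P.1 ≤ 4 * P.hh + 1 := sz_nat_le_of_lt (by omega)
    have a2 : sz P.2.1 ≤ 4 * P.hh + 1 := sz_nat_le_of_lt (by omega)
    have a3 := h.hh_nn
    have a4 := (lad_pow hN).1
    have a5 : nn P ^ 2 ≤ U ^ 2 := Nat.pow_le_pow_left h1 2
    have a6 : U ^ 2 ≤ U ^ 120 := Nat.pow_le_pow_right (by omega) (by norm_num)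
    rw [sz_prod, sz_prod, sz_un, h.pad_nn]
    omega
  · rintro _ ⟨b, rfl, hb, -⟩
    have a1 := h.F0_hh_sz
    have a2 : 2 ^ (P.H * P.L) ≤ 2 ^ (2 * P.hh) := Nat.pow_le_pow_right (by norm_num) h.HL_le
    simp only [topB, Option.elim, sub_zero] at hb
    rw [dec_enc, pow_succ]
    omega

end Crest.Agent.R288
end

-- ▼ part PVb/R288/Fin

/-!
# R288: final assembly
-/

set_option autoImplicit false

namespace Crest.Agent.R288

open Crest.Agent.Lib.PT Crest.WordRAM Crest.GraphRAM RT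
open Crest.Agent.R309 (Ex Pr ind)

/-- What the analysis of the model delivers. -/
def AnaOk : Prop := ∀ (M : Model) (P : Par), M.Ok P → M.Ratio P P.T (1 + 3 * eta P) ∧
  ∀ r ≤ P.H, ∀ i s t, (M.top r i s none t).All fun v => M.Fr P r i s ≤ v

theorem fin_markov {t : RT ℕ} {F : ℕ} {η ε : ℝ} (hε : 0 < ε) (hη : 18 * η ≤ ε)
    (h1 : t.All fun v => F ≤ v) (h2 : t.mean ≤ (1 + 3 * η) * F) :
    5 / 6 ≤ t.P fun v => F ≤ v ∧ (v : ℝ) ≤ (1 + ε) * F := by
  have h0 : t.All fun v => 0 ≤ (v : ℝ) - F := h1.mono fun v hv => sub_nonneg.2 (Nat.cast_le.2 hv)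
  have e : (t.E fun v => (v : ℝ) - F) = t.mean - F := by rw [E_sub, E_const]; rfl
  have key : (t.P fun v => ¬ (F ≤ v ∧ (v : ℝ) ≤ (1 + ε) * F)) ≤ 1 / 6 := by
    rcases Nat.eq_zero_or_pos F with rfl | hF
    · have := markov h0 (c := 1) one_pos
      rw [e] at this
      refine (P_mono (All_of_forall t fun v hv => ?_)).trans (this.trans ?_)
      · have : v ≠ 0 := fun h => hv (by simp [h])
        have : (1 : ℝ) ≤ v := by exact_mod_cast Nat.one_le_iff_ne_zero.2 this
        simpa using this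
      · simp only [Nat.cast_zero, mul_zero] at h2 ⊢
        linarith
    · have hF' : (0 : ℝ) < F := by exact_mod_cast hF
      have := markov h0 (c := ε * F) (by positivity)
      rw [e] at this
      refine (P_mono (h1.mono fun v hv hv' => ?_)).trans (this.trans ?_)
      · have : (1 + ε) * F < v := not_le.1 fun h => hv' ⟨hv, h⟩
        linarith
      · rw [div_le_iff₀ (by positivity)]
        nlinarith
  rw [P_not] at key
  linarith

theorem fin_ind01 (p : Prop) : 0 ≤ ind p ∧ ind p ≤ 1 := by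
  unfold ind
  split_ifs <;> norm_num

/-- The success probability of the scheme. -/
theorem fin_succ (hA : AnaOk) {P : Par} {mem : ℕ → ℕ} {x y : List ℕ} (hP : Good P)
    (hm : MemOk P mem x y) {n c : ℕ} (hc : alg.Cst P n c (root P)) (hc2 : c ≤ 2 ^ (2 * P.hh))
    {ε : ℝ} (hε : 0 < ε) (hη : 18 * eta P ≤ ε) :
    2 / 3 ≤ (alg.eval P (realPrim P mem) n (root P)).E fun u =>
      ind (editDist x y ≤ (dec u : ℕ) ∧ ((dec u : ℕ) : ℝ) ≤ (1 + ε) * editDist x y) := by
  rw [← Scheme.ev_eq_eval (realPrim_ne_none P mem) hc]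
  have h1 := ideal_hybrid hP hm hc (fun u =>
    ind (editDist x y ≤ (dec u : ℕ) ∧ ((dec u : ℕ) : ℝ) ≤ (1 + ε) * editDist x y))
    fun u => fin_ind01 _
  obtain ⟨a1, a2⟩ := hA _ P (theModel_ok hP hm)
  have hx : x.length ≤ 2 ^ (P.H * P.L) := by
    have := hP.N_lt
    have := Nat.pow_le_pow_right (show 0 < 2 by norm_num) hP.hh_le_HL
    have := hm.hx
    omega
  have hF : (theModel P mem x y).Fr P P.H 0 (0, (P.2.1 : ℤ) - P.1) = editDist x y := by
    show FF x y (P.H * P.L) 0 0 ((P.2.1 : ℤ) - P.1) = _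
    rw [hm.hx, hm.hy]
    exact FF_root x y hx
  have b1 := a1 P.H le_rfl 0 (0, (P.2.1 : ℤ) - P.1)
  have b2 := a2 P.H le_rfl 0 (0, (P.2.1 : ℤ) - P.1) P.T
  rw [hF] at b1 b2
  have b3 := fin_markov hε hη b2 b1
  have b4 : ((theModel P mem x y).top P.H 0 (0, (P.2.1 : ℤ) - P.1) none P.T) =
      (alg.ev P (idealPrim P mem x y) (root P)).map dec := rfl
  rw [b4, P_map] at b3
  have b5 : (c : ℝ) * (1 / 2) ^ (3 * P.hh) ≤ 1 / 6 := by
    have c1 : (c : ℝ) ≤ 2 ^ (2 * P.hh) := by exact_mod_cast hc2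
    have c2 : 3 ≤ P.hh := by
      have := hP.aux_ll_hh
      have := fin_jj_ll hP
      have := hP.big
      omega
    have c3 : (2 : ℝ) ^ 3 ≤ 2 ^ P.hh := pow_le_pow_right₀ (by norm_num) c2
    rw [show 3 * P.hh = 2 * P.hh + P.hh by ring, one_div, inv_pow, pow_add, ← div_eq_mul_inv,
      div_le_iff₀ (by positivity)]
    have c4 : (0 : ℝ) < 2 ^ (2 * P.hh) := by positivity
    nlinarith
  unfold RT.P at b3
  linarith

theorem fin_memOk (x y e : List ℕ) (u : Un) :
    MemOk (x.length, y.length, u) (fun a => (stringsInput x y ++ e).getD a 0) x y := by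
  refine ⟨rfl, rfl, fun l h => ?_, fun l h => ?_⟩
  · rw [show 2 + l = l + 1 + 1 by omega]
    simp only [stringsInput, List.cons_append, List.getD_eq_getElem?_getD, List.getElem?_cons_succ,
      List.append_assoc]
    rw [List.getElem?_append_left h, List.getElem?_eq_getElem h, Option.getD_some]
  · rw [show 2 + x.length + l = x.length + l + 1 + 1 by omega]
    simp only [stringsInput, List.cons_append, List.getD_eq_getElem?_getD, List.getElem?_cons_succ,
      List.append_assoc]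
    rw [List.getElem?_append_right (by omega), Nat.add_sub_cancel_left,
      List.getElem?_append_left h, List.getElem?_eq_getElem h, Option.getD_some]

/-- The program, with explicit bounds in the fast regime. -/
theorem fin_prog (hA : AnaOk) : ∃ (C d C1 C2 c0 : ℕ) (Pg : Program), 64 ≤ c0 ∧
    ∀ (x y e : List ℕ) (w : ℕ), (∀ a ∈ stringsInput x y ++ e, a < 2 ^ w) →
      ((stringsInput x y ++ e).length + 2) ^ 3 ≤ 2 ^ w → 4 ≤ e.length →
      (¬ Fast c0 (x.length + y.length) e.length →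
        ∃ T, ∀ ρ, HaltsWithin Pg w ρ (stringsInput x y ++ e) T [editDist x y]) ∧
      (Fast c0 (x.length + y.length) e.length → ∀ P : Par,
        P = (x.length, y.length, ⟨tgt (x.length, y.length)⟩) →
        (∀ ρ, ∃ v, HaltsWithin Pg w ρ (stringsInput x y ++ e) (C * (2 ^ P.kP + w + 1) ^ d *
          (C1 * (2 ^ (P.hh + C2 * (P.hh / P.jj)) + 2 ^ P.kP + 1) + 1)) [v] ∧ (x = y → v = 0)) ∧
        ∀ ε : ℝ, 1 / 2 ^ e.length ≤ ε → 2 / 3 ≤ probHaltsWith Pg w (stringsInput x y ++ e) fun out =>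
          ∃ D : ℕ, out = [D] ∧ editDist x y ≤ D ∧ (D : ℝ) ≤ (1 + ε) * editDist x y) := by
  obtain ⟨m, C1, m1, m2, m3, hm⟩ := scheme_rm alg algS1_pt algS2_pt algOut_pt tgt tgt_pt root root_pt
  obtain ⟨c, d, hR⟩ := ram_main2 m m1 m2 m3
  obtain ⟨C2, hC⟩ := cst_root
  obtain ⟨Cs, ds, hS⟩ := szb_root
  obtain ⟨C, D, hCD⟩ := R309.RamAux.exists_poly
    (f := fun X => c * (C1 * (X + 1) * (Cs * X ^ ds + 1) ^ 2 + X + 1) ^ d + 1) (by fun_prop)
  obtain ⟨c1, hc1⟩ := fin_space (C * 2 ^ D) D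
  obtain ⟨Pg, hR⟩ := hR (64 + c1 + C2)
  refine ⟨C * 2 ^ D, D, C1, C2, 64 + c1 + C2, Pg, by omega, fun x y e w hinp hlen h4 => ?_⟩
  have hlen' : (stringsInput x y ++ e).length = 2 + x.length + y.length + e.length := by
    simp only [stringsInput, List.length_append, List.length_cons]; omega
  obtain ⟨hslow, hfast⟩ := hR x y e w hinp hlen (by omega)
  refine ⟨hslow, fun hF P hPe => ?_⟩
  have hP : Good P := hPe ▸ good_of_fast (by omega) hF
  have hMem : MemOk P (fun a => (stringsInput x y ++ e).getD a 0) x y := hPe ▸ fin_memOk x y e _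
  have hjj : e.length + (64 + c1 + C2) ≤ P.jj := by
    rw [hPe]; unfold Par.jj Par.ll; exact hF
  have hmem : ∀ a, (stringsInput x y ++ e).getD a 0 < 2 ^ w := fun a => by
    rw [List.getD_eq_getElem?_getD]
    cases h : (stringsInput x y ++ e)[a]? with
    | none => simp
    | some b => exact hinp b (List.mem_of_getElem? h)
  have hc := hC P hP
  obtain ⟨s1, s2, s3⟩ := hS P _ w _ _ hP hmem hc
  obtain ⟨r1, r2, r3, r4, r5⟩ := hm (fun a => (stringsInput x y ++ e).getD a 0) P _ _ _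
    (by rw [hPe]; rfl) hc s2 s1
  have hx := hMem.hx
  have hy := hMem.hy
  have hsp := hc1 P hP (by omega) (stringsInput x y ++ e).length w (by omega) hlen
  set X := 2 ^ P.kP + w + 1 with hX
  set B := C1 * (2 ^ P.kP + 1) * (Cs * X ^ ds + 1) ^ 2 with hB
  have hK : c * (B + w + 1) ^ d + 1 ≤ C * 2 ^ D * X ^ D := by
    have a0 : 2 ^ P.kP + 1 ≤ X + 1 ∧ w ≤ X ∧ X + 1 ≤ 2 * X := by
      rw [hX]; generalize 2 ^ P.kP = z; omega
    have a2 : B + w + 1 ≤ C1 * (X + 1) * (Cs * X ^ ds + 1) ^ 2 + X + 1 :=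
      Nat.add_le_add_right (Nat.add_le_add (Nat.mul_le_mul_right _ (Nat.mul_le_mul_left _ a0.1))
        a0.2.1) _
    have a3 := Nat.mul_le_mul_left c (Nat.pow_le_pow_left a2 d)
    have a4 : C * (X + 1) ^ D ≤ C * 2 ^ D * X ^ D := by
      rw [mul_assoc, ← mul_pow]
      exact Nat.mul_le_mul_left _ (Nat.pow_le_pow_left a0.2.2 D)
    exact (Nat.add_le_add_right a3 1).trans ((hCD X).trans a4)
  have hfast' := hfast hF B r1 (fun l => (r2 l).trans (by omega)) (by omega)
  rw [hP.pad] at r4 r5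
  set n := C1 * (2 ^ (P.hh + C2 * (P.hh / P.jj)) + 2 ^ P.kP + 1) with hn
  have hw1 : 1 ≤ w := by
    by_contra h
    obtain rfl : w = 0 := by omega
    have : 2 ^ 3 ≤ ((stringsInput x y ++ e).length + 2) ^ 3 := Nat.pow_le_pow_left (by omega) 3
    omega
  have hv : 2 ^ (2 * P.hh + 1) < 2 ^ w := by
    refine lt_of_lt_of_le ?_ hlen
    have a1 := hP.N_ge
    have a2 : 1 ≤ P.hh := by have := hP.aux_ll_hh; omega
    have a3 : 2 ^ (2 * P.hh + 1) = 8 * (2 ^ (P.hh - 1)) ^ 2 := by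
      rw [← pow_mul, show 2 * P.hh + 1 = 3 + (P.hh - 1) * 2 by omega, pow_add]
      norm_num
    have a4 : (2 ^ (P.hh - 1) + 8) ^ 3 ≤ ((stringsInput x y ++ e).length + 2) ^ 3 :=
      Nat.pow_le_pow_left (by omega) 3
    rw [a3]
    refine lt_of_lt_of_le ?_ a4
    generalize 2 ^ (P.hh - 1) = z
    nlinarith [Nat.zero_le (z ^ 3), Nat.zero_le (z ^ 2), Nat.zero_le z]
  have hrun : ∀ (ρ : ℕ → ℕ) (v : ℕ), m.fin (m.go (fun a => (stringsInput x y ++ e).getD a 0)
      ((List.range n).map fun i => (ρ i % 2 ^ w).bodd)) = some v →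
      HaltsWithin Pg w ρ (stringsInput x y ++ e) (C * 2 ^ D * X ^ D * (n + 1)) [v] := by
    intro ρ v hfin
    obtain ⟨u, hu, rfl⟩ := r3 _ v hfin _ s3
    obtain ⟨h3, h4⟩ := hfast' ρ n _ (hu.trans_lt hv) hfin
    have h5 := R309.rp_run_of_halted h3
      (Nat.mul_le_mul_right (n + 1) ((Nat.le_succ _).trans hK))
    exact ⟨h5 ▸ h3, h5 ▸ h4⟩
  refine ⟨fun ρ => ?_, fun ε hε => ?_⟩
  · obtain ⟨v, hfin⟩ := Option.isSome_iff_exists.1
      (r4 ((List.range n).map fun i => (ρ i % 2 ^ w).bodd) (by simp))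
    refine ⟨v, hrun ρ v hfin, fun hxy => ?_⟩
    obtain ⟨u, hu, rfl⟩ := r3 _ v hfin (fun u => (dec u : ℕ) = 0) (by
      rw [← Scheme.ev_eq_eval (realPrim_ne_none P _) hc, ev_root_zero hP hMem hxy]
      simp)
    exact hu
  · have hε0 : 0 < ε := lt_of_lt_of_le (by positivity) hε
    have hη : 18 * eta P ≤ ε := by
      refine le_trans ?_ hε
      unfold eta
      have a1 : (2 : ℝ) ^ (e.length + 5) ≤ 2 ^ P.jj := pow_le_pow_right₀ (by norm_num) (by omega)
      rw [mul_one_div, div_le_div_iff₀ (by positivity) (by positivity)]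
      rw [pow_add] at a1
      have : (0 : ℝ) < 2 ^ e.length := by positivity
      linarith
    have hc2 : 2 ^ (P.hh + C2 * (P.hh / P.jj)) ≤ 2 ^ (2 * P.hh) := by
      refine Nat.pow_le_pow_right (by norm_num) ?_
      have : C2 * (P.hh / P.jj) ≤ P.hh :=
        (Nat.mul_le_mul_right _ (by omega)).trans (Nat.mul_div_le P.hh P.jj)
      omega
    refine (fin_succ hA hP hMem hc hc2 hε0 hη).trans ?_
    rw [← r5 fun v => ind (editDist x y ≤ v ∧ (v : ℝ) ≤ (1 + ε) * editDist x y)]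
    refine le_trans (le_of_eq ?_) (fin_prob hw1 (n := n) (T := C * 2 ^ D * X ^ D * (n + 1))
      ((Nat.le_succ n).trans (Nat.le_mul_of_pos_left _ (lt_of_lt_of_le (Nat.succ_pos _) hK)))
      (fun l => ∃ v, m.fin (m.go (fun a => (stringsInput x y ++ e).getD a 0) l) = some v ∧
        editDist x y ≤ v ∧ (v : ℝ) ≤ (1 + ε) * editDist x y) _ ?_)
    · unfold Pr
      congr 1
      funext l
      beta_reduce
      generalize m.fin (m.go (fun a => (stringsInput x y ++ e).getD a 0) l) = o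
      cases o with
      | none => simp [ind]
      | some v => simp
    · rintro ρ ⟨v, hfin, hv⟩
      exact ⟨[v], hrun ρ v hfin, v, rfl, hv⟩

theorem fin_fast {c0 E j N : ℕ} (h : 2 ^ 2 ^ 2 ^ (E + c0 + j) ≤ N) :
    E + c0 + j ≤ Nat.log 2 (Nat.log 2 (Nat.log 2 N)) :=
  Nat.le_log_of_pow_le (by norm_num) (Nat.le_log_of_pow_le (by norm_num)
    (Nat.le_log_of_pow_le (by norm_num) h))

/-- The statement, from the analysis of the model. -/
theorem fin_main (hA : AnaOk) :
    ∃ P : Crest.WordRAM.Program, ∀ (a : ℕ) (ε : ℚ), 0 < ε → ε < 1 →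
      (∀ x y : List ℕ, (∀ s ∈ x ++ y, s < (x.length + y.length + 2) ^ a) →
        2 / 3 ≤ Crest.WordRAM.probHaltsWith P ((a + 3) * Nat.clog 2 ((stringsInput x y ++ ratWords ε).length + 2))
            (stringsInput x y ++ ratWords ε)
            (fun out => ∃ D : ℕ, out = [D] ∧ editDist x y ≤ D ∧
              (D : ℝ) ≤ (1 + (ε : ℝ)) * editDist x y)) ∧
      (∀ x y : List ℕ, (∀ s ∈ x ++ y, s < (x.length + y.length + 2) ^ a) → x = y →
        ∀ ρ : ℕ → ℕ, ∃ T : ℕ, Crest.WordRAM.HaltsWithin P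
            ((a + 3) * Nat.clog 2 ((stringsInput x y ++ ratWords ε).length + 2)) ρ
            (stringsInput x y ++ ratWords ε) T [0]) ∧
      ∀ δ : ℝ, 0 < δ → ∃ N₀ : ℕ, ∀ x y : List ℕ, N₀ ≤ x.length + y.length →
        (∀ s ∈ x ++ y, s < (x.length + y.length + 2) ^ a) →
        Crest.WordRAM.expectedTime P ((a + 3) * Nat.clog 2 ((stringsInput x y ++ ratWords ε).length + 2))
            (stringsInput x y ++ ratWords ε)
          ≤ ENNReal.ofReal (((x.length + y.length : ℕ) : ℝ) ^ (1 + δ)) := by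
  obtain ⟨C, d, C1, C2, c0, Pg, hc0, H⟩ := fin_prog hA
  refine ⟨Pg, fun a ε h0 h1 => ?_⟩
  have h4 := fin_rat_four h0 h1
  have hlen : ∀ x y : List ℕ, (stringsInput x y ++ ratWords ε).length =
      2 + x.length + y.length + (ratWords ε).length := fun x y => by
    simp only [stringsInput, List.length_append, List.length_cons]; omega
  have hpow : ∀ L : ℕ, (L + 2) ^ (a + 3) ≤ 2 ^ ((a + 3) * Nat.clog 2 (L + 2)) := fun L => by
    rw [mul_comm, pow_mul]
    exact Nat.pow_le_pow_left (Nat.le_pow_clog (by norm_num) _) _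
  have hw3 : ∀ L : ℕ, (L + 2) ^ 3 ≤ 2 ^ ((a + 3) * Nat.clog 2 (L + 2)) := fun L =>
    (Nat.pow_le_pow_right (by omega) (by omega)).trans (hpow L)
  have hw1 : ∀ L : ℕ, 1 ≤ (a + 3) * Nat.clog 2 (L + 2) := fun L =>
    Nat.mul_pos (by omega) (Nat.clog_pos (by norm_num) (by omega))
  have H' := fun (x y : List ℕ) (hs : ∀ s ∈ x ++ y, s < (x.length + y.length + 2) ^ a) =>
    H x y (ratWords ε) ((a + 3) * Nat.clog 2 ((stringsInput x y ++ ratWords ε).length + 2)) (by
      intro b hb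
      have e1 := hlen x y
      have e2 : (stringsInput x y ++ ratWords ε).length + 2 ≤
          ((stringsInput x y ++ ratWords ε).length + 2) ^ 3 := Nat.le_self_pow (by norm_num) _
      have e3 := hw3 (stringsInput x y ++ ratWords ε).length
      rcases List.mem_append.1 hb with hb | hb
      · simp only [stringsInput, List.mem_cons] at hb
        rcases hb with rfl | rfl | hb
        · omega
        · omega
        · refine (hs b hb).trans_le (le_trans ?_ (hpow _))
          exact (Nat.pow_le_pow_left (by omega) a).trans (Nat.pow_le_pow_right (by omega) (by omega))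
      · have := fin_rat_mem ε b hb
        omega) (hw3 _) h4
  refine ⟨fun x y hs => ?_, fun x y hs hxy ρ => ?_, fun δ hδ => ?_⟩
  · by_cases hF : Fast c0 (x.length + y.length) (ratWords ε).length
    · exact (((H' x y hs).2 hF _ rfl).2 ε (fin_rat_ge h0))
    · obtain ⟨T, hT⟩ := (H' x y hs).1 hF
      refine le_trans ?_ (fin_prob (hw1 _) (Nat.zero_le T) (fun _ => True) _ fun ρ _ =>
        ⟨_, hT ρ, _, rfl, le_rfl, ?_⟩)
      · simp only [Pr, Ex, ind, if_true]; norm_num
      · have : (0 : ℝ) < ε := by exact_mod_cast h0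
        have : (0 : ℝ) ≤ editDist x y := Nat.cast_nonneg _
        nlinarith
  · by_cases hF : Fast c0 (x.length + y.length) (ratWords ε).length
    · obtain ⟨v, hv, hv0⟩ := ((H' x y hs).2 hF _ rfl).1 ρ
      exact ⟨_, hv0 hxy ▸ hv⟩
    · obtain ⟨T, hT⟩ := (H' x y hs).1 hF
      refine ⟨T, ?_⟩
      have := hT ρ
      rwa [show editDist x y = 0 by rw [hxy]; exact editDist_self y] at this
  · obtain ⟨j0, hj0⟩ := fin_total C d C1 C2 a hδ
    refine ⟨2 ^ 2 ^ 2 ^ ((ratWords ε).length + c0 + j0), fun x y hN hs => ?_⟩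
    have hj := fin_fast hN
    have hF : Fast c0 (x.length + y.length) (ratWords ε).length := by unfold Fast; omega
    have hP := good_of_fast hc0 hF
    have hrun := ((H' x y hs).2 hF _ rfl).1
    obtain ⟨P, hPe⟩ : ∃ P : Par, (x.length, y.length, ⟨tgt (x.length, y.length)⟩) = P := ⟨_, rfl⟩
    rw [hPe] at hP hrun
    have hx : P.1 = x.length := by rw [← hPe]
    have hy : P.2.1 = y.length := by rw [← hPe]
    have hjj : (ratWords ε).length + c0 + j0 ≤ P.jj := by
      unfold Par.jj Par.ll; rw [hx, hy]; exact hj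
    refine (fin_time (hw1 _) fun ρ => (hrun ρ).imp' (fun v => [v]) fun v hv => hv.1).trans ?_
    rw [← ENNReal.ofReal_natCast, ← hx, ← hy]
    refine ENNReal.ofReal_le_ofReal (hj0 P hP (by omega) _ (Nat.mul_le_mul_left _ ?_))
    refine (Nat.clog_le_iff_le_pow (by norm_num)).2 ?_
    have a1 := hP.N_lt
    have a2 := fin_jj_ll hP
    have a3 := hP.aux_ll_hh
    have a4 : P.hh < 2 ^ P.hh := Nat.lt_two_pow_self
    rw [hlen, pow_add]
    omega

end Crest.Agent.R288
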