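import Crest.Agent.PVb.R288.PlanB
import Crest.Agent.PVb.R288.RTb
import Crest.Agent.PVb.R288.Pure
import Crest.Agent.PVb.R288.RTa
import Crest.Agent.PVb.R288.MonoB

-- ▼ part PVb/R288/PlanC
section

/-!
# R288: in a regular block the plan exists with high probability
-/

set_option autoImplicit false

namespace Crest.Agent.R288

open RT

namespace Model

variable {M : Model} {P : Par} {r i : ℕ} {s : ℤ × ℤ} {m φ : ℕ} {Λ : ℝ} {z : ℕ → ℤ} {tabs : List Tab}

theorem planc_sum {A B : Type} {u : A → ℝ} {v : B → ℝ} {l : List A} {l' : List B}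
    (h : List.Forall₂ (fun a b => u a ≤ v b) l l') : (l.map u).sum ≤ (l'.map v).sum := by
  induction h with
  | nil => simp
  | cons h1 _ ih => simp only [List.map_cons, List.sum_cons]; linarith

theorem planc_sum' {A B : Type} {u : A → ℝ} {v : B → ℝ} {l : List A} {l' : List B}
    (h : List.Forall₂ (fun a b => v b ≤ u a) l l') : (l'.map v).sum ≤ (l.map u).sum := by
  induction h with
  | nil => simp
  | cons h1 _ ih => simp only [List.map_cons, List.sum_cons]; linarith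

theorem planc_cast {B : Type} (g : B → ℕ) (l : List B) :
    (((l.map g).sum : ℕ) : ℝ) = (l.map fun b => (g b : ℝ)).sum := by
  rw [Nat.cast_list_sum, List.map_map]
  rfl

theorem planc_range (u : ℕ → ℝ) (n : ℕ) : ((List.range n).map u).sum = ∑ k ∈ Finset.range n, u k :=
  (Finset.sum_list_map_count _ _).trans (by
    rw [List.toFinset_range]
    refine Finset.sum_congr rfl fun k hk => ?_
    rw [List.count_eq_one_of_mem List.nodup_range (by simpa using hk), one_smul])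

theorem planc_tau (hP : Good P) : 0 < tau P ∧ tau P ≤ 1 / 2 := by
  have hg := geo_par hP
  refine ⟨by unfold tau; positivity, ?_⟩
  unfold tau
  refine one_div_le_one_div_of_le (by norm_num) ?_
  calc (2 : ℝ) = 2 ^ 1 := by norm_num
    _ ≤ 2 ^ P.kg := pow_le_pow_right₀ (by norm_num) (by omega)

theorem planc_kx (hP : Good P) : 5 ≤ P.kx ∧ 2 * P.ka ≤ P.kx := by
  have := hP.big
  rw [Par.kx.eq_1, Par.ka.eq_1]
  omega

theorem planc_T0 (hP : Good P) : (0 : ℝ) < P.T0 := by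
  have := hP.two_le_T0
  exact_mod_cast (by omega : 0 < P.T0)

/-- lower bound for the sum of a column of accurate estimates -/
theorem planc_low (hP : Good P) {B : Type} {r i φ : ℕ} {s : ℤ × ℤ} {l : List B} {g : B → ℕ}
    (h : List.Forall₂ (fun k b => (1 - tau P) * M.W r i s none (wnd P φ k) - 1 ≤ (g b : ℝ)) (List.range P.T0) l) :
    ((1 - tau P) * M.Wt P r i s φ - 1) * P.T0 ≤ ((l.map g).sum : ℕ) := by
  have h1 := planc_sum h
  have h2 := planc_T0 hP
  rw [planc_range, Finset.sum_sub_distrib, ← Finset.mul_sum] at h1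
  rw [planc_cast, Wt, sub_mul, mul_assoc, div_mul_cancel₀ _ h2.ne']
  simpa using h1

theorem planc_pow {a b : ℕ} (h : a ≤ b) : (2 : ℝ) ^ a ≤ 2 ^ b := pow_le_pow_right₀ (by norm_num) h

/-- counting: `2^a` events of probability `2^(-5 kg)` -/
theorem planc_count (hP : Good P) {N : ℝ} {a : ℕ} (hN : N ≤ 2 ^ a) (ha : a + 1 ≤ 4 * P.kg) :
    N * (1 / 2 ^ (5 * P.kg)) ≤ tau P / 2 := by
  have _ := hP
  unfold tau
  rw [mul_one_div, div_div, div_le_div_iff₀ (by positivity) (by positivity), one_mul]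
  calc N * (2 ^ P.kg * 2) ≤ 2 ^ a * (2 ^ P.kg * 2) := by gcongr
    _ = 2 ^ (a + (P.kg + 1)) := by rw [pow_add, pow_succ]
    _ ≤ _ := planc_pow (by omega)

theorem Blk.planc_grid (h : M.Blk P r i s m φ Λ z) (tabs : List Tab) {j lv : ℕ} (hj : j ≤ P.b) (hlv : lv < P.nw)
    {y : ℤ} (hd : (gsp P (2 ^ m) : ℤ) ∣ y)
    (hy : (y - rdn (wlv P (2 ^ m) lv) ((czs P s.1 s.2 (2 ^ m) tabs).getD j 0)).natAbs ≤ 2 * wlv P (2 ^ m) lv) :
    y ∈ zgrid P s.1 (2 ^ m) := by
  have hP := h.ok.good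
  have hg := geo_par hP
  have hm := h.kg_le
  have hx := planc_kx hP
  refine mem_zgrid hP (by omega) hd ?_
  have h1 := czs_btw hP s.1 s.2 (2 ^ m) tabs (hb := P.L) (p := 0) (j := j) le_rfl (by simp) (by simp)
    (by rwa [zero_add, one_mul, ← hP.b_eq])
  rw [zero_mul, zero_add, one_mul, ← hP.b_eq, (czs_zero hP _ _ _ _).1, (czs_zero hP _ _ _ _).2] at h1
  have hw : 4 * wlv P (2 ^ m) lv ≤ 2 ^ m := by
    rw [wlv_pow hP (by omega) hlv, show 4 = 2 ^ 2 by norm_num, ← pow_add]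
    exact Nat.pow_le_pow_right two_pos (by omega)
  have hg4 : 4 * gsp P (2 ^ m) ≤ 2 ^ m := by
    rw [gsp_pow hP (by omega), show 4 = 2 ^ 2 by norm_num, ← pow_add]
    exact Nat.pow_le_pow_right two_pos (by omega)
  have hg0 : 0 < gsp P (2 ^ m) := by rw [gsp_pow hP (by omega)]; positivity
  have hw0 : 0 < wlv P (2 ^ m) lv := by rw [wlv_pow hP (by omega) hlv]; positivity
  have h2 := natAbs_sub_rdn_lt hw0 ((czs P s.1 s.2 (2 ^ m) tabs).getD j 0)
  have h3 := natAbs_sub_rdn_lt hg0 s.1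
  have h4 := natAbs_sub_rdn_lt hg0 s.2
  have h5 : (s.2 - s.1).natAbs ≤ 2 ^ m := (h.ok.fok.disp _ _ _ _).trans h.scale.1
  omega

theorem Blk.planc_cert (h : M.Blk P r i s m φ Λ z) (ha : M.TabsAcc P r i s (2 ^ m) φ tabs)
    (hz : Reach P (2 ^ m) (fun j => (czs P s.1 s.2 (2 ^ m) tabs).getD j 0) z) {j : ℕ} (hj : j < P.b)
    {lv : ℕ} (hlv : lv < P.nw) (hc : 2 * Λ * M.fch P r i z j ≤ (wlv P (2 ^ m) lv * 2 ^ P.kx : ℕ)) :
    certOk P (zgrid P s.1 (2 ^ m)) tabs j (ctxAt P (2 ^ m) lv ((czs P s.1 s.2 (2 ^ m) tabs).getD j 0)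
      ((czs P s.1 s.2 (2 ^ m) tabs).getD (j + 1) 0)) = true := by
  have hP := h.ok.good
  have hg := geo_par hP
  have hm := h.kg_le
  have hx := planc_kx hP
  have hτ := planc_tau hP
  have hT := planc_T0 hP
  set c := ctxAt P (2 ^ m) lv ((czs P s.1 s.2 (2 ^ m) tabs).getD j 0)
    ((czs P s.1 s.2 (2 ^ m) tabs).getD (j + 1) 0) with hcdef
  have hcw : cw c = wlv P (2 ^ m) lv := cw_ctxAt hP _ hlv _ _
  have h2 : 2 ∣ c.2.2.2.n := by
    rw [hcdef, ctxAt]
    dsimp only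
    rw [hP.p2_eq (by omega)]
    exact dvd_pow_self 2 (by omega)
  have hdw : (gsp P (2 ^ m) : ℤ) ∣ (wlv P (2 ^ m) lv : ℤ) := by
    rw [wlv]
    push_cast
    exact dvd_mul_right _ _
  rw [certOk, Bool.and_eq_true, decide_eq_true_eq, List.all_eq_true]
  refine ⟨fun s' hs' => ?_, ?_⟩
  · have h3 := om_near h2 hs'
    obtain ⟨⟨a, -, ea⟩, b, -, eb⟩ := mem_om.1 hs'
    rw [hcw] at h3
    rw [Bool.and_eq_true, List.contains_iff_mem, List.contains_iff_mem]
    refine ⟨h.planc_grid tabs hj.le hlv ?_ h3.1, h.planc_grid tabs (j := j + 1) hj hlv ?_ h3.2⟩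
    · rw [ea]
      exact dvd_add (hdw.trans (rdn_dvd _ _)) (dvd_mul_right _ _)
    · rw [eb]
      exact dvd_add (hdw.trans (rdn_dvd _ _)) (dvd_mul_right _ _)
  · have hmem : (z j, z (j + 1)) ∈ om c := by
      have a1 := hz j hj.le
      have a2 := hz (j + 1) hj
      dsimp only at a1 a2
      exact mem_om_ctxAt hP _ hlv (h.comp.dvd j) (h.comp.dvd (j + 1)) (czs_dvd hP _ _ _ _ _) (czs_dvd hP _ _ _ _ _)
        (by dsimp only; omega) (by dsimp only; omega)
    have h4 := mn_le (List.mem_map_of_mem (f := fun s' : ℤ × ℤ =>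
      (tabs.map fun tab => tget (zgrid P s.1 (2 ^ m)) tab j s'.1 s'.2).sum) hmem)
    have h5 : (((tabs.map fun tab => tget (zgrid P s.1 (2 ^ m)) tab j (z j) (z (j + 1))).sum : ℕ) : ℝ) ≤
        P.T0 * ((1 + tau P) * (Λ * M.fch P r i z j)) := by
      rw [planc_cast]
      refine (planc_sum' (u := fun _ : ℕ => (1 + tau P) * (Λ * M.fch P r i z j)) (gval_imp ha fun k _ tab ht => ?_)).trans ?_
      · have a1 := (ht.tget hj (h.mem_grid hj.le) (h.mem_grid (j := j + 1) hj)).1.2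
        exact a1.trans (mul_le_mul_of_nonneg_left (h.Wk_bounds k j _ _).2 (by linarith))
      · simp
    have h6 : 32 * cw c ≤ cap P c := by
      rw [cap_eq hP, mul_comm]
      exact Nat.mul_le_mul_left _ (le_trans (by norm_num) (Nat.pow_le_pow_right two_pos hx.1))
    rw [← hcw, ← cap_eq hP] at hc
    have h7 : (32 * cw c : ℝ) ≤ cap P c := by exact_mod_cast h6
    have h8 : (0 : ℝ) ≤ Λ * M.fch P r i z j := by
      have := h.Λ1
      have : 0 < eta P := by unfold eta; positivity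
      exact mul_nonneg (by linarith) (Nat.cast_nonneg _)
    have h9 : (1 + tau P) * (Λ * M.fch P r i z j) + 8 * cw c ≤ cap P c := by nlinarith
    have h10 : ((tabs.map fun tab => tget (zgrid P s.1 (2 ^ m)) tab j (z j) (z (j + 1))).sum +
        8 * cw c * P.T0 ≤ cap P c * P.T0) := by
      have : (((tabs.map fun tab => tget (zgrid P s.1 (2 ^ m)) tab j (z j) (z (j + 1))).sum : ℕ) : ℝ) +
          8 * cw c * P.T0 ≤ cap P c * P.T0 := by nlinarith
      exact_mod_cast this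
    dsimp only at h4
    omega

/-- Let `δ = wlv 0 = σ / 2^kd`, `f = fch j`.  The least level with `wlv lv ≥ 2 Λ f / 2^kx` exists (`wlv (L+1) = σ / 2^kx`,
`Λ f ≤ σ / 8`), it is certified by the state `(z j, z (j+1))` (`mem_om_ctxAt`, `mem_zgrid`,
`(1+τ) Λ f + 8 w ≤ cap`), and `find?` returns a level that is not larger. -/
theorem Blk.ctxOf_some (h : M.Blk P r i s m φ Λ z) (ha : M.TabsAcc P r i s (2 ^ m) φ tabs)
    (hz : Reach P (2 ^ m) (fun j => (czs P s.1 s.2 (2 ^ m) tabs).getD j 0) z) {j : ℕ} (hj : j < P.b) :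
    ∃ c, ctxOf P (zgrid P s.1 (2 ^ m)) (2 ^ m) tabs (czs P s.1 s.2 (2 ^ m) tabs) j = some c ∧
      (cap P c : ℝ) ≤ 2 ^ m / 2 ^ (P.L + 1) + 4 * Λ * M.fch P r i z j := by
  classical
  have hP := h.ok.good
  have hg := geo_par hP
  have hm := h.kg_le
  have hw : ∀ lv < P.nw, wlv P (2 ^ m) lv * 2 ^ P.kx = 2 ^ (m - (P.L + 1) + lv) := fun lv hlv => by
    rw [wlv_pow hP (by omega) hlv, ← pow_add]
    congr 1
    omega
  have hΛ : 0 ≤ Λ := by
    have := h.Λ1
    have : 0 < eta P := by unfold eta; positivity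
    linarith
  have hf : Λ * M.fch P r i z j ≤ 2 ^ m / 8 := by
    refine le_trans (mul_le_mul_of_nonneg_left ?_ hΛ) h.sum_fch'.2
    exact_mod_cast List.single_le_sum (fun _ _ => Nat.zero_le _) _ (List.mem_map_of_mem (List.mem_range.2 hj))
  have hf0 : 0 ≤ Λ * M.fch P r i z j := mul_nonneg hΛ (Nat.cast_nonneg _)
  have hex : ∃ lv, lv < P.nw ∧ 2 * Λ * M.fch P r i z j ≤ (wlv P (2 ^ m) lv * 2 ^ P.kx : ℕ) := by
    refine ⟨P.L + 1, by omega, ?_⟩
    rw [hw _ (by omega), show m - (P.L + 1) + (P.L + 1) = m by omega]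
    push_cast
    have : (0 : ℝ) < 2 ^ m := by positivity
    linarith
  have h0 := Nat.find_spec hex
  have hcert := h.planc_cert ha hz hj h0.1 h0.2
  have hex1 : ∃ lv, certOk P (zgrid P s.1 (2 ^ m)) tabs j (ctxAt P (2 ^ m) lv
      ((czs P s.1 s.2 (2 ^ m) tabs).getD j 0) ((czs P s.1 s.2 (2 ^ m) tabs).getD (j + 1) 0)) = true := ⟨_, hcert⟩
  have h1 : Nat.find hex1 ≤ Nat.find hex := Nat.find_min' hex1 hcert
  refine ⟨ctxAt P (2 ^ m) (Nat.find hex1) ((czs P s.1 s.2 (2 ^ m) tabs).getD j 0)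
    ((czs P s.1 s.2 (2 ^ m) tabs).getD (j + 1) 0), ?_, ?_⟩
  · rw [ctxOf, List.find?_map, Option.map_eq_some_iff]
    refine ⟨Nat.find hex1, List.find?_range_eq_some.2 ⟨Nat.find_spec hex1, List.mem_range.2 (by omega),
      fun k hk => ?_⟩, rfl⟩
    simpa using Nat.find_min hex1 hk
  · rw [cap_eq hP, cw_ctxAt hP _ (by omega)]
    have h2 : ((wlv P (2 ^ m) (Nat.find hex1) * 2 ^ P.kx : ℕ) : ℝ) ≤ (wlv P (2 ^ m) (Nat.find hex) * 2 ^ P.kx : ℕ) := by
      exact_mod_cast Nat.mul_le_mul_right _ (wlv_mono hP _ h1 h0.1)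
    refine h2.trans ?_
    have h3 : (2 : ℝ) ^ m / 2 ^ (P.L + 1) = 2 ^ (m - (P.L + 1)) := by
      rw [div_eq_iff (by positivity), ← pow_add]
      congr 1
      omega
    rcases Nat.eq_zero_or_pos (Nat.find hex) with e | e
    · rw [e, hw _ (by omega), h3]
      push_cast
      rw [add_zero]
      linarith
    · have h4 := Nat.find_min hex (m := Nat.find hex - 1) (by omega)
      rw [not_and, not_le] at h4
      have h5 := h4 (by omega)
      rw [hw _ (by omega)] at h5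
      rw [hw _ h0.1, show m - (P.L + 1) + Nat.find hex = m - (P.L + 1) + (Nat.find hex - 1) + 1 by omega, pow_succ]
      push_cast at h5 ⊢
      have : (0 : ℝ) < 2 ^ m / 2 ^ (P.L + 1) := by positivity
      linarith

/-- The certificate bounds the window average: `(1-τ) Wt s' - 1 + 8w ≤ cap`, `w ≥ 1`. -/
theorem Blk.mbar_le_cap (h : M.Blk P r i s m φ Λ z) (ha : M.TabsAcc P r i s (2 ^ m) φ tabs) {j : ℕ}
    (hj : j < P.b) {cz : List ℤ} {c : Ctx}
    (hc : ctxOf P (zgrid P s.1 (2 ^ m)) (2 ^ m) tabs cz j = some c) :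
    M.mbar P (r - 1) (i * P.b + j) c φ ≤ 2 * cap P c := by
  have hP := h.ok.good
  have hm := h.kg_le
  have hτ := planc_tau hP
  have hT := planc_T0 hP
  obtain ⟨lv, hlv, e⟩ := List.mem_map.1 (List.mem_of_find?_eq_some hc)
  have h5 : certOk P (zgrid P s.1 (2 ^ m)) tabs j c = true := List.find?_some hc
  rw [certOk, Bool.and_eq_true, decide_eq_true_eq] at h5
  obtain ⟨s0, hs0, e0⟩ := List.mem_map.1 (mn_mem (l := (om c).map fun s' =>
    (tabs.map fun tab => tget (zgrid P s.1 (2 ^ m)) tab j s'.1 s'.2).sum) (by simpa using om_ne_nil _))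
  have hgrid : s0.1 ∈ zgrid P s.1 (2 ^ m) ∧ s0.2 ∈ zgrid P s.1 (2 ^ m) := by
    simpa using List.all_eq_true.1 h5.1 s0 hs0
  have h6 := planc_low (M := M) hP (r := r - 1) (i := i * P.b + j) (φ := φ) (s := s0)
    (g := fun tab => tget (zgrid P s.1 (2 ^ m)) tab j s0.1 s0.2)
    (gval_imp ha fun k _ tab ht => (ht.tget hj hgrid.1 hgrid.2).1.1)
  have h7 := h5.2
  rw [← e0] at h7
  have h8 : (((tabs.map fun tab => tget (zgrid P s.1 (2 ^ m)) tab j s0.1 s0.2).sum : ℕ) : ℝ) + 8 * cw c * P.T0 ≤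
      cap P c * P.T0 := by exact_mod_cast h7
  have h9 : 1 ≤ cw c := by
    rw [← e, cw_ctxAt hP _ (List.mem_range.1 hlv), wlv_pow hP (by omega) (List.mem_range.1 hlv)]
    exact Nat.one_le_two_pow
  have h10 : (1 : ℝ) ≤ cw c := by exact_mod_cast h9
  have h11 : (1 - tau P) * M.Wt P (r - 1) (i * P.b + j) s0 φ - 1 + 8 * cw c ≤ cap P c := by
    refine le_of_mul_le_mul_right ?_ hT
    rw [add_mul]
    linarith
  have h12 := mbar_le (M := M) (P := P) (r := r - 1) (i := i * P.b + j) hs0 φ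
  have h13 := mbar_nonneg (M := M) (P := P) (r - 1) (i * P.b + j) c φ
  nlinarith

theorem Blk.goodPlan (h : M.Blk P r i s m φ Λ z) (ha : M.TabsAcc P r i s (2 ^ m) φ tabs)
    (hreg : Regular P (2 ^ m) (M.Gs P r i s m φ z) z) :
    M.GoodPlan P r i s (2 ^ m) φ z (planOf P s.1 s.2 (2 ^ m) tabs) := by
  have hP := h.ok.good
  have hz := h.reach ha hreg
  have h1 : ∀ j, ∃ c : Ctx, j < P.b → ctxOf P (zgrid P s.1 (2 ^ m)) (2 ^ m) tabs (czs P s.1 s.2 (2 ^ m) tabs) j = some c ∧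
      (cap P c : ℝ) ≤ 2 ^ m / 2 ^ (P.L + 1) + 4 * Λ * M.fch P r i z j := by
    intro j
    by_cases hj : j < P.b
    · obtain ⟨c, hc⟩ := h.ctxOf_some ha hz hj
      exact ⟨c, fun _ => hc⟩
    · exact ⟨(0, 0, 0, ⟨0⟩), fun h' => absurd h' hj⟩
  choose cs hcs using h1
  have h3 : ((List.range P.b).map fun j => cap P (cs j)).sum ≤ 2 ^ m := by
    have a1 : ((((List.range P.b).map fun j => cap P (cs j)).sum : ℕ) : ℝ) ≤ 2 ^ m := by
      have a2 := h.sum_fch'.2
      rw [planc_cast, planc_range] at a2 ⊢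
      refine (Finset.sum_le_sum fun j hj => (hcs j (Finset.mem_range.1 hj)).2).trans ?_
      rw [Finset.sum_add_distrib, ← Finset.mul_sum, Finset.sum_const, Finset.card_range, nsmul_eq_mul]
      have a3 : (P.b : ℝ) * (2 ^ m / 2 ^ (P.L + 1)) = 2 ^ m / 2 := by
        rw [hP.b_eq, pow_succ]
        push_cast
        field_simp
      rw [a3]
      linarith
    exact_mod_cast a1
  obtain ⟨pl, hpl⟩ := planOf_eq_some hP ((h.ok.fok.disp _ _ _ _).trans h.scale.1) (fun j hj => (hcs j hj).1) h3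
  obtain ⟨-, h5, h6, -⟩ := planOf_some hP hpl
  refine ⟨pl, hpl, planOk_of hP h.ok.fok (by simpa using ha.length_eq.symm) (fun tab htab => ?_) hpl, ?_,
    fun j hj => h.mbar_le_cap ha hj (h6 j hj)⟩
  · obtain ⟨k, -, hk⟩ := valida_mem ha htab
    exact hk.mono fun _ _ _ _ _ _ _ hv => hv.2
  · have : pz pl = fun j => (czs P s.1 s.2 (2 ^ m) tabs).getD j 0 := funext fun j => by rw [pz, h5]
    rw [this]
    exact hz

/-- `avg_acc` with `R = 2^kR` (values `≤ R F ≤ R W`): failure `≤ 2^(kR + 2kg - kP)`. -/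
theorem est_acc (h : M.Ok P) (hr : r ≤ P.H) (i : ℕ) (s : ℤ × ℤ) (t : ℕ) :
    ((M.est P r i s none t).P fun v => ¬ (((1 - tau P) * M.W r i s none t - 1 ≤ v ∧
      (v : ℝ) ≤ (1 + tau P) * M.W r i s none t) ∧ M.Fr P r i s ≤ v)) ≤ 1 / 2 ^ (5 * P.kg) := by
  have hP := h.good
  have hg := geo_par hP
  have hτ := planc_tau hP
  have hv := vn h hr t i s
  have hW := (W_none_bounds h hr i s t).1
  have h1 := avg_acc (M.top r i s none t) P.kP (R := 2 ^ P.kR) (by positivity) hτ.1 (hv.mono fun v hv' => by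
    have a1 : (v : ℝ) ≤ 2 ^ P.kR * M.Fr P r i s := by exact_mod_cast hv'.2
    exact a1.trans (mul_le_mul_of_nonneg_left hW (by positivity)))
  refine le_trans (P_mono ((All_avg_ge (hv.mono fun v hv' => hv'.1) P.kP).mono fun v hF hn hA => hn ⟨hA, hF⟩))
    (h1.trans ?_)
  unfold tau
  rw [div_le_div_iff₀ (by positivity) (by positivity), one_mul, div_pow, one_pow, one_div_mul_eq_div,
    le_div_iff₀ (by positivity), ← pow_mul, ← pow_add, ← pow_add]
  exact planc_pow (by omega)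

/-- Union bound (`P_seq_map_not`, four levels) over `T0 · b · |zgrid|² ≤ 2^(3 kg)` entries. -/
theorem tabs_acc (h : M.Ok P) (hrH : r ≤ P.H) (i : ℕ) (s : ℤ × ℤ) (σ φ : ℕ) :
    ((M.tabs P r i s σ φ).P fun tabs => ¬ M.TabsAcc P r i s σ φ tabs) ≤ tau P / 2 := by
  have hP := h.good
  have hg := geo_par hP
  have h1 := hP.kT_add
  have h2 := hP.ll_kR
  refine le_trans (P_seq_map_not _ _ _ (P.b * ((zgrid P s.1 σ).length * ((zgrid P s.1 σ).length *
    (1 / 2 ^ (5 * P.kg))))) fun k _ => ?_) ?_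
  · refine le_trans (P_seq_map_not _ _ _ ((zgrid P s.1 σ).length * ((zgrid P s.1 σ).length *
      (1 / 2 ^ (5 * P.kg)))) fun j _ => ?_) (by rw [List.length_range])
    refine P_seq_map_not _ _ _ _ fun z1 _ => P_seq_map_not _ _ _ _ fun z2 _ => ?_
    exact est_acc h (by omega) _ _ _
  · have h3 : ((zgrid P s.1 σ).length : ℝ) ≤ 2 ^ (P.kg + 4) := by
      have : (zgrid P s.1 σ).length ≤ 2 ^ (P.kg + 4) := by
        have : 0 < 2 ^ (P.kg + 2) := by positivity
        rw [length_zgrid hP, show P.kg + 4 = P.kg + 2 + 2 by ring, pow_add 2 (P.kg + 2) 2]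
        omega
      exact_mod_cast this
    rw [List.length_range, ← mul_assoc, ← mul_assoc, ← mul_assoc]
    refine planc_count hP (a := P.kT + P.L + (P.kg + 4) + (P.kg + 4)) ?_ (by omega)
    rw [hP.T0_eq, hP.b_eq, pow_add, pow_add, pow_add]
    push_cast
    gcongr

theorem Blk.plan_good (h : M.Blk P r i s m φ Λ z) (hreg : Regular P (2 ^ m) (M.Gs P r i s m φ z) z) :
    ((M.plan P r i s (2 ^ m) φ).P fun o => ¬ M.GoodPlan P r i s (2 ^ m) φ z o) ≤ tau P / 2 := by
  rw [plan, P_map]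
  exact le_trans (P_mono (All_of_forall _ fun tabs hn ha => hn (h.goodPlan ha hreg)))
    (tabs_acc h.ok h.rH i s (2 ^ m) φ)

/-- The own plan is good (`E_seq_getD` twice, `PlanOk.usable`) and the rows are accurate. -/
theorem Blk.fix_good (h : M.Blk P r i s m φ Λ z) (hreg : Regular P (2 ^ m) (M.Gs P r i s m φ z) z)
    {c : Ctx} (hc : M.Cert P r i c) (hs : s ∈ om c) {j : ℕ} (hj : j < P.nC) (hσ : sclC P c j = 2 ^ m) :
    ((M.fix P r i c φ).P fun f =>
      ¬ (M.GoodPlan P r i s (2 ^ m) φ z ((f.2.getD j []).getD ((om c).idxOf s) none) ∧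
        (1 - tau P) * M.mbar P r i c φ / 2 ^ (2 * P.ka) - 3 + 16 * cw c ≤ f.1)) ≤ tau P := by
  have hP := h.ok.good
  have hg := geo_par hP
  have hm := h.kg_le
  have hx := planc_kx hP
  have hτ := planc_tau hP
  have hT := planc_T0 hP
  have hidx : (om c).idxOf s < (om c).length := List.idxOf_lt_length_iff.2 hs
  -- the rows
  have hrows : ((seq ((List.range P.T0).map fun k =>
      seq ((om c).map fun s => M.est P r i s none (wnd P φ k)))).P fun rows =>
      ¬ List.Forall₂ (fun k row => List.Forall₂ (fun s (v : ℕ) =>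
        (1 - tau P) * M.W r i s none (wnd P φ k) - 1 ≤ v) (om c) row) (List.range P.T0) rows) ≤ tau P / 2 := by
    refine le_trans (P_seq_map_not _ _ _ ((om c).length * (1 / 2 ^ (5 * P.kg))) fun k _ =>
      P_seq_map_not _ _ _ _ fun s' _ => ?_) ?_
    · refine le_trans (P_mono (All_of_forall _ fun v hn hA => ?_)) (est_acc h.ok h.rH i s' _)
      exact hn hA.1.1
    · have h1 := hP.kT_add
      have h2 := hP.ll_kR
      have h3 : ((om c).length : ℝ) ≤ 2 ^ (2 * P.kg + 4) := by exact_mod_cast hc.length_om hP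
      rw [List.length_range, ← mul_assoc]
      refine planc_count hP (a := P.kT + (2 * P.kg + 4)) ?_ (by omega)
      rw [hP.T0_eq, pow_add]
      push_cast
      gcongr
  -- the plans
  have hpls : ((seq ((List.range P.nC).map fun j =>
      seq ((om c).map fun s => M.plan P r i s (sclC P c j) φ))).P fun pls =>
      ¬ M.GoodPlan P r i s (2 ^ m) φ z ((pls.getD j []).getD ((om c).idxOf s) none)) ≤ tau P / 2 := by
    refine le_trans (le_of_eq ?_) (h.plan_good hreg)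
    unfold RT.P
    rw [E_seq_getD _ j (by simpa using hj) [] fun l =>
      Crest.Agent.R309.ind (¬ M.GoodPlan P r i s (2 ^ m) φ z (l.getD ((om c).idxOf s) none))]
    rw [List.getElem_map, List.getElem_range, E_seq_getD _ _ (by simpa using hidx) none fun o =>
      Crest.Agent.R309.ind (¬ M.GoodPlan P r i s (2 ^ m) φ z o)]
    rw [List.getElem_map, List.getElem_idxOf, hσ]
  have hA : ∀ rows pls, M.GoodPlan P r i s (2 ^ m) φ z ((pls.getD j []).getD ((om c).idxOf s) none) →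
      M.GoodPlan P r i s (2 ^ m) φ z (((fixOut P c rows pls).2.getD j []).getD ((om c).idxOf s) none) := by
    rintro rows pls ⟨pl, e, hpl, hrest⟩
    refine ⟨pl, ?_, hpl, hrest⟩
    have hu := hpl.usable hP h.ok.fok hc hs (by omega) hσ
    rw [fixOut]
    dsimp only
    rw [List.getD_eq_getElem (n := j) _ _ (by simpa using hj), List.getElem_map, List.getElem_range]
    rw [List.getD_eq_getElem?_getD] at e ⊢
    rw [List.getElem?_map]
    cases e' : (pls.getD j [])[(om c).idxOf s]? with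
    | none => rw [e'] at e; cases e
    | some o =>
      rw [e'] at e
      obtain rfl : o = some pl := e
      simp [hu]
  have hB : ∀ rows pls, List.Forall₂ (fun k row => List.Forall₂ (fun s (v : ℕ) =>
        (1 - tau P) * M.W r i s none (wnd P φ k) - 1 ≤ v) (om c) row) (List.range P.T0) rows →
      (1 - tau P) * M.mbar P r i c φ / 2 ^ (2 * P.ka) - 3 + 16 * cw c ≤ (fixOut P c rows pls).1 := by
    intro rows pls hr
    rw [fixOut]
    dsimp only
    obtain ⟨k, hk, e⟩ := List.mem_map.1 (mn_mem (l := (List.range (om c).length).map fun k =>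
      (rows.map fun row => row.getD k 0).sum) (by simpa using om_ne_nil c))
    have hk' := List.mem_range.1 hk
    have h1 := planc_low (M := M) hP (r := r) (i := i) (φ := φ) (s := (om c)[k]) (g := fun row : List ℕ => row.getD k 0)
      (gval_imp hr fun k' _ row hrow => valid_getD hrow hk' 0)
    have h2 := mbar_le (M := M) (P := P) (r := r) (i := i) (List.getElem_mem hk') φ
    rw [← e, hP.p2_eq (by omega), hP.T0_eq]
    rw [hP.T0_eq] at h1
    set A := (rows.map fun row => row.getD k 0).sum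
    have h3 := (rtb_floor A P.kT).2
    have h4 := (rtb_floor (A / 2 ^ P.kT) (2 * P.ka)).2
    have h5 : (1 - tau P) * M.mbar P r i c φ - 1 ≤ (A : ℝ) / 2 ^ P.kT := by
      rw [le_div_iff₀ (by positivity)]
      push_cast at h1
      refine le_trans (mul_le_mul_of_nonneg_right ?_ (by positivity)) h1
      have := mul_le_mul_of_nonneg_left h2 (show 0 ≤ 1 - tau P by linarith)
      linarith
    have h6 : ((1 - tau P) * M.mbar P r i c φ - 2) / 2 ^ (2 * P.ka) ≤ ((A / 2 ^ P.kT : ℕ) : ℝ) / 2 ^ (2 * P.ka) :=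
      div_le_div_of_nonneg_right (by linarith) (by positivity)
    have h7 : (2 : ℝ) / 2 ^ (2 * P.ka) ≤ 2 := div_le_self (by norm_num) (one_le_pow₀ (by norm_num))
    rw [sub_div] at h6
    rw [Nat.cast_add, Nat.cast_mul]
    have h8 : ((16 : ℕ) : ℝ) = 16 := by norm_num
    rw [h8]
    linarith
  rw [fix, P_bind]
  refine le_trans (E_mono' _ (g := fun rows => tau P / 2 + Crest.Agent.R309.ind
    (¬ List.Forall₂ (fun k row => List.Forall₂ (fun s (v : ℕ) =>
        (1 - tau P) * M.W r i s none (wnd P φ k) - 1 ≤ v) (om c) row) (List.range P.T0) rows)) fun rows => ?_) ?_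
  · rw [P_map]
    by_cases hr : List.Forall₂ (fun k row => List.Forall₂ (fun s (v : ℕ) =>
        (1 - tau P) * M.W r i s none (wnd P φ k) - 1 ≤ v) (om c) row) (List.range P.T0) rows
    · refine le_trans (P_mono (All_of_forall _ fun pls hn hG => hn ⟨hA rows pls hG, hB rows pls hr⟩))
        (hpls.trans (le_add_of_nonneg_right ?_))
      unfold Crest.Agent.R309.ind
      split_ifs <;> norm_num
    · refine (P_le_one _ _).trans ?_
      unfold Crest.Agent.R309.ind
      rw [if_pos hr]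
      linarith
  · rw [E_add, E_const]
    unfold RT.P at hrows
    linarith

theorem fix_length (M : Model) (P : Par) (r i : ℕ) (c : Ctx) (φ : ℕ) :
    (M.fix P r i c φ).All fun f => ∀ j, (f.2.getD j []).length ≤ (om c).length := by
  rw [fix, All_bind]
  refine All_of_forall _ fun rows => ?_
  rw [All_map]
  refine (All_seq _ (fun l => l.length ≤ (om c).length) fun t ht => ?_).mono fun pls hp j => ?_
  · obtain ⟨j, -, rfl⟩ := List.mem_map.1 ht
    exact (All_seq_length _).mono fun l hl => by rw [hl, List.length_map]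
  · have h1 : (pls.getD j []).length ≤ (om c).length := by
      rw [List.getD_eq_getElem?_getD]
      cases e : pls[j]? with
      | none => simp
      | some l => exact hp.2 l (List.mem_of_getElem? e)
    rw [fixOut]
    dsimp only
    by_cases hj : j < P.nC
    · rw [List.getD_eq_getElem _ _ (by simpa using hj), List.getElem_map, List.getElem_range, List.length_map]
      exact h1
    · rw [List.getD_eq_default _ _ (by simpa using hj)]
      simp

end Model

end Crest.Agent.R288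
end

-- ▼ part PVb/R288/Learn
section

/-!
# R288: the learner (optimistic gradient descent with postponed retraction)
-/

set_option autoImplicit false

namespace Crest.Agent.R288

variable {Q xh : ℤ}

theorem learn_clamp (hQ : 0 ≤ Q) (a : ℤ) : 0 ≤ clampZ 0 Q a ∧ clampZ 0 Q a ≤ Q := by
  unfold clampZ
  omega

theorem learn_proj (a : ℤ) {z : ℤ} (h0 : 0 ≤ z) (h1 : z ≤ Q) : 0 ≤ (clampZ 0 Q a - a) * (z - clampZ 0 Q a) := by
  rcases le_total a z with h | h
  · rcases le_total a 0 with h' | h'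
    · exact mul_nonneg (by unfold clampZ; omega) (by unfold clampZ; omega)
    · rw [show clampZ 0 Q a - a = 0 by unfold clampZ; omega, zero_mul]
  · exact mul_nonneg_of_nonpos_of_nonpos (by unfold clampZ; omega) (by unfold clampZ; omega)

theorem learn_snoc (Q xh : ℤ) (ds : List ℤ) (d : ℤ) :
    (ds ++ [d]).foldl (lstep Q xh) (0, 0) = lstep Q xh (ds.foldl (lstep Q xh) (0, 0)) d := by
  rw [List.foldl_append, List.foldl_cons, List.foldl_nil]

theorem learn_range (hQ : 0 ≤ Q) (xh : ℤ) (ds : List ℤ) : 0 ≤ learn Q xh ds ∧ learn Q xh ds ≤ Q := by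
  unfold learn
  induction ds using List.reverseRecOn with
  | nil => exact ⟨le_rfl, hQ⟩
  | append_singleton ds d ih =>
    rw [learn_snoc, lstep]
    dsimp only
    split_ifs
    · exact learn_clamp hQ _
    · exact ih

/-- The weight never moves uphill. -/
theorem learn_dir (Q xh : ℤ) (ds : List ℤ) (d : ℤ) :
    (learn Q xh (ds ++ [d]) - learn Q xh ds) * clampZ (-xh) xh d ≤ 0 := by
  unfold learn
  rw [learn_snoc, lstep]
  dsimp only
  split_ifs with h
  · exact h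
  · rw [sub_self, zero_mul]

/-- invariant of the state `s`, `e` being the previous clamped signal -/
def learnInv (Q xh : ℤ) (s : ℤ × ℤ) (e : ℤ) : Prop :=
  0 ≤ s.1 ∧ s.1 ≤ Q ∧ |e| ≤ xh ∧ |s.2 - s.1| ≤ xh ∧ |s.2 - clampZ 0 Q (s.1 - e)| ≤ xh ∧
    (s.2 - clampZ 0 Q (s.1 - e)) * e ≤ 0

theorem learn_inv (hx : 0 ≤ xh) {s : ℤ × ℤ} {e : ℤ} (h : learnInv Q xh s e) (d : ℤ) :
    learnInv Q xh (lstep Q xh s d) (clampZ (-xh) xh d) := by
  obtain ⟨h1, h2, -, h3, -⟩ := h
  have h4 : |clampZ (-xh) xh d| ≤ xh := by rw [abs_le]; unfold clampZ; omega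
  unfold learnInv lstep
  dsimp only
  generalize clampZ (-xh) xh d = c at *
  refine ⟨(learn_clamp (h1.trans h2) _).1, (learn_clamp (h1.trans h2) _).2, h4, ?_⟩
  split_ifs with h5
  · simp only [sub_self, zero_mul, abs_zero, le_refl, hx, and_true]
    rw [abs_le] at h4 ⊢
    unfold clampZ
    omega
  · refine ⟨?_, ?_, by linarith⟩ <;>
    · rw [abs_le] at h3 h4 ⊢
      rcases pos_and_pos_or_neg_and_neg_of_mul_pos (not_le.1 h5) with h6 | h6 <;>
      · unfold clampZ at h6 ⊢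
        omega

theorem learn_one {s : ℤ × ℤ} {e c u : ℤ} (h : learnInv Q xh s e) (hc : |c| ≤ xh) (hu : 0 ≤ u) (hu' : u ≤ Q) :
    2 * ((s.2 - u) * c) + (u - clampZ 0 Q (s.1 - c)) ^ 2 ≤ (u - s.1) ^ 2 + 8 * xh * |c - e| := by
  obtain ⟨h1, h2, h3, -, h4, h5⟩ := h
  have a1 := learn_proj (s.1 - c) hu hu'
  have a2 := learn_proj (s.1 - e) (learn_clamp (h1.trans h2) (s.1 - c)).1 (learn_clamp (h1.trans h2) (s.1 - c)).2
  have a3 : |clampZ 0 Q (s.1 - e) - clampZ 0 Q (s.1 - c)| ≤ 2 * xh := by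
    rw [abs_le] at h3 hc ⊢
    unfold clampZ
    omega
  generalize clampZ 0 Q (s.1 - e) = y at *
  generalize clampZ 0 Q (s.1 - c) = q at *
  have a4 : (s.2 - y) * (c - e) ≤ xh * |c - e| :=
    (le_abs_self _).trans ((abs_mul _ _).trans_le (mul_le_mul_of_nonneg_right h4 (abs_nonneg _)))
  have a5 : (y - q) * (c - e) ≤ 2 * xh * |c - e| :=
    (le_abs_self _).trans ((abs_mul _ _).trans_le (mul_le_mul_of_nonneg_right a3 (abs_nonneg _)))
  have a6 : 0 ≤ xh * |c - e| := mul_nonneg ((abs_nonneg _).trans hc) (abs_nonneg _)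
  linarith [sq_nonneg (q - y), sq_nonneg (y - s.1)]

/-- Let `d k` be the clamped signals, `d (-1) = 0`, `(q k, p k)` the states, `y (k+1) = Π (q (k+1) - d k)`,
`y 0 = 0`.  Invariants: `|p k - q k| ≤ xh`, `|p k - y k| ≤ xh`, `(p k - y k) d (k-1) ≤ 0`, hence
`(p k - y k) d k ≤ xh |d k - d (k-1)|`.  Optimistic descent:
`(y k - u) d k = (y k - q (k+1)) (d k - d (k-1)) + (y k - q (k+1)) d (k-1) + (q (k+1) - u) d k` with
`|y k - q (k+1)| ≤ |d k - d (k-1)| ≤ 2 xh`,
`2 (y k - q (k+1)) d (k-1) ≤ (q (k+1) - q k)² - (q (k+1) - y k)² - (y k - q k)²` and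
`2 (q (k+1) - u) d k ≤ (u - q k)² - (u - q (k+1))² - (q (k+1) - q k)²`. -/
theorem learn_regret (hQ : 0 ≤ Q) (hx : 0 ≤ xh) (d : ℕ → ℤ) (n : ℕ) {u : ℤ} (hu : 0 ≤ u) (hu' : u ≤ Q) :
    2 * ∑ k ∈ Finset.range n, (learn Q xh ((List.range k).map d) - u) * clampZ (-xh) xh (d k) ≤
      Q ^ 2 + 8 * xh * ∑ k ∈ Finset.range n,
        |clampZ (-xh) xh (d k) - if k = 0 then 0 else clampZ (-xh) xh (d (k - 1))| := by
  have key : learnInv Q xh (((List.range n).map d).foldl (lstep Q xh) (0, 0))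
        (if n = 0 then 0 else clampZ (-xh) xh (d (n - 1))) ∧
      2 * ∑ k ∈ Finset.range n, (learn Q xh ((List.range k).map d) - u) * clampZ (-xh) xh (d k) +
        (u - (((List.range n).map d).foldl (lstep Q xh) (0, 0)).1) ^ 2 ≤
      u ^ 2 + 8 * xh * ∑ k ∈ Finset.range n,
        |clampZ (-xh) xh (d k) - if k = 0 then 0 else clampZ (-xh) xh (d (k - 1))| := by
    induction n with
    | zero => simp [learnInv, clampZ, hQ, hx]
    | succ n ih =>
      have h1 := learn_inv hx ih.1 (d n)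
      have h2 := learn_one ih.1 h1.2.2.1 hu hu'
      rw [List.range_succ, List.map_append, List.map_singleton, learn_snoc, Finset.sum_range_succ,
        Finset.sum_range_succ, if_neg n.succ_ne_zero]
      refine ⟨h1, ?_⟩
      have h3 := ih.2
      unfold learn at h3 ⊢
      unfold lstep at h3 h2 ⊢
      linarith
  have h1 : u ^ 2 ≤ Q ^ 2 := pow_le_pow_left₀ hu hu' 2
  linarith [key.2, sq_nonneg (u - (((List.range n).map d).foldl (lstep Q xh) (0, 0)).1)]

end Crest.Agent.R288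
end

-- ▼ part PVb/R288/Choice
section

/-!
# R288: the annealed learner

`A k`, `B k` are the estimates of the two options in round `k`.  The weight after `n` rounds is a function of
the first `n` pairs of estimates, so all `pbar k`, `k ≤ n`, are expectations over one sample of length `n`
(`RT.seq_append`, `List.range_succ`, `E_comm`).
-/

set_option autoImplicit false

namespace Crest.Agent.R288

open RT

/-- Expected weight of the second option in round `n`. -/
noncomputable def pbar (Q xh : ℤ) (A B : ℕ → RT ℕ) (n : ℕ) : ℝ :=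
  (seq ((List.range n).map A)).E fun a1 => (seq ((List.range n).map B)).E fun a2 =>
    (learn Q xh (List.zipWith (fun x1 x2 : ℕ => (x2 : ℤ) - x1) a1 a2) : ℝ)

theorem ch_count (N : ℕ) {p : ℤ} (h0 : 0 ≤ p) (h1 : p ≤ N) :
    ∑ u ∈ Finset.range N, (if (u : ℤ) < p then (1 : ℝ) else 0) = p := by
  obtain ⟨m, rfl⟩ := Int.eq_ofNat_of_zero_le h0
  have hm : m ≤ N := by exact_mod_cast h1
  rw [← Finset.sum_filter]
  have : (Finset.range N).filter (fun u : ℕ => (u : ℤ) < (m : ℤ)) = Finset.range m := by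
    ext u
    simp only [Finset.mem_filter, Finset.mem_range, Nat.cast_lt]
    omega
  rw [this]
  simp

theorem ch_succ (A : ℕ → RT ℕ) (n : ℕ) (f : List ℕ → ℝ) :
    (seq ((List.range (n + 1)).map A)).E f =
      (seq ((List.range n).map A)).E fun l => (A n).E fun a => f (l ++ [a]) := by
  rw [List.range_succ, List.map_append, seq_append, E_bind]
  simp only [E_bind, List.map_cons, List.map_nil, seq_single, E_map, E_pure]

theorem ch_len (A : ℕ → RT ℕ) (n : ℕ) : (seq ((List.range n).map A)).All fun l => l.length = n := by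
  simpa using All_seq_length ((List.range n).map A)

theorem ch_take (A : ℕ → RT ℕ) {k n : ℕ} (h : k ≤ n) (f : List ℕ → ℝ) :
    ((seq ((List.range n).map A)).E fun l => f (l.take k)) = (seq ((List.range k).map A)).E f := by
  induction n, h using Nat.le_induction with
  | base => exact E_congr ((ch_len A k).mono fun l hl => by rw [List.take_of_length_le hl.le])
  | succ n hk ih =>
    rw [ch_succ, ← ih]
    refine E_congr ((ch_len A n).mono fun l hl => ?_)
    have : ∀ a : ℕ, (l ++ [a]).take k = l.take k := fun a =>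
      List.take_append_of_le_length (by omega)
    simp only [this, E_const]

theorem ch_getD (A : ℕ → RT ℕ) {k n : ℕ} (h : k < n) (f : ℕ → ℝ) :
    ((seq ((List.range n).map A)).E fun l => f (l.getD k 0)) = (A k).E f := by
  rw [E_seq_getD _ k (by simpa using h)]
  simp

theorem ch_clamp {xh d : ℤ} {D : ℝ} (hD : |D| ≤ xh) : |((clampZ (-xh) xh d : ℤ) : ℝ) - D| ≤ |(d : ℝ) - D| := by
  rw [abs_le] at hD
  unfold clampZ
  push_cast
  rcases le_total (xh : ℝ) d with h | h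
  · rw [min_eq_left h, max_eq_right (by linarith), abs_of_nonneg (by linarith), abs_of_nonneg (by linarith)]
    linarith
  · rw [min_eq_right h]
    rcases le_total (-xh : ℝ) d with h' | h'
    · rw [max_eq_right h']
    · rw [max_eq_left h', abs_of_nonpos (by linarith), abs_of_nonpos (by linarith)]
      linarith

theorem ch_clamp2 {xh : ℤ} (x y : ℕ) {w1 w2 : ℝ} (hD : |w2 - w1| ≤ xh) :
    |((clampZ (-xh) xh ((y : ℤ) - x) : ℤ) : ℝ) - (w2 - w1)| ≤ |(x : ℝ) - w1| + |(y : ℝ) - w2| := by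
  refine (ch_clamp hD).trans ?_
  push_cast
  have : (y : ℝ) - x - (w2 - w1) = -((x : ℝ) - w1) + ((y : ℝ) - w2) := by ring
  rw [this]
  refine (abs_add_le _ _).trans ?_
  rw [abs_neg]

theorem ch_zip {a1 a2 : List ℕ} {n k : ℕ} (h1 : a1.length = n) (h2 : a2.length = n) (hk : k ≤ n) :
    List.zipWith (fun x1 x2 : ℕ => (x2 : ℤ) - x1) (a1.take k) (a2.take k) =
      (List.range k).map fun i => ((a2.getD i 0 : ℕ) : ℤ) - (a1.getD i 0 : ℕ) := by
  apply List.ext_getElem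
  · simp only [List.length_zipWith, List.length_take, List.length_map, List.length_range]
    omega
  · intro i hi hi'
    simp only [List.length_map, List.length_range] at hi'
    simp only [List.getElem_zipWith, List.getElem_take, List.getElem_map, List.getElem_range]
    rw [List.getD_eq_getElem _ _ (by omega), List.getD_eq_getElem _ _ (by omega)]

theorem ch_pbar (Q xh : ℤ) (A B : ℕ → RT ℕ) {k n : ℕ} (hk : k ≤ n) :
    pbar Q xh A B k = (seq ((List.range n).map A)).E fun a1 => (seq ((List.range n).map B)).E fun a2 =>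
      (learn Q xh ((List.range k).map fun i => ((a2.getD i 0 : ℕ) : ℤ) - (a1.getD i 0 : ℕ)) : ℝ) := by
  unfold pbar
  rw [← ch_take A hk]
  refine E_congr ((ch_len A n).mono fun a1 h1 => ?_)
  rw [← ch_take B hk]
  refine E_congr ((ch_len B n).mono fun a2 h2 => ?_)
  rw [ch_zip h1 h2 hk]

theorem ch_err (A B : ℕ → RT ℕ) {k n : ℕ} (hk : k < n) {w1 w2 ε : ℝ}
    (h1 : ((A k).E fun v => |(v : ℝ) - w1|) ≤ ε) (h2 : ((B k).E fun v => |(v : ℝ) - w2|) ≤ ε) :
    ((seq ((List.range n).map A)).E fun a1 => (seq ((List.range n).map B)).E fun a2 =>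
      |((a1.getD k 0 : ℕ) : ℝ) - w1| + |((a2.getD k 0 : ℕ) : ℝ) - w2|) ≤ 2 * ε := by
  simp only [E_add, E_const]
  rw [ch_getD A hk fun v => |(v : ℝ) - w1|, ch_getD B hk fun v => |(v : ℝ) - w2|]
  linarith

/-- A choice node. -/
theorem choice_mean (qb : ℕ) (xh : ℤ) (A B : ℕ → RT ℕ) (n : ℕ) (T : Bool → RT ℕ) :
    ((seq ((List.range n).map A)).bind fun a1 => (seq ((List.range n).map B)).bind fun a2 =>
      (rnd qb).bind fun u => T (decide ((u : ℤ) < learn (2 ^ qb) xh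
        (List.zipWith (fun x1 x2 : ℕ => (x2 : ℤ) - x1) a1 a2)))).mean =
      (T false).mean + pbar (2 ^ qb) xh A B n / 2 ^ qb * ((T true).mean - (T false).mean) := by
  simp only [mean, E_bind]
  have key : ∀ ds : List ℤ, ((rnd qb).E fun u => (T (decide ((u : ℤ) < learn (2 ^ qb) xh ds))).E fun v => (v : ℝ)) =
      ((T false).E fun v => (v : ℝ)) + (learn (2 ^ qb) xh ds : ℝ) / 2 ^ qb *
        (((T true).E fun v => (v : ℝ)) - (T false).E fun v => (v : ℝ)) := by
    intro ds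
    have hr := learn_range (Q := 2 ^ qb) (by positivity) xh ds
    have hc := ch_count (2 ^ qb) hr.1 (by exact_mod_cast hr.2)
    have h2 : ∀ u : ℕ, ((T (decide ((u : ℤ) < learn (2 ^ qb) xh ds))).E fun v => (v : ℝ)) =
        ((T false).E fun v => (v : ℝ)) + (if (u : ℤ) < learn (2 ^ qb) xh ds then (1 : ℝ) else 0) *
          (((T true).E fun v => (v : ℝ)) - (T false).E fun v => (v : ℝ)) := by
      intro u
      by_cases h : (u : ℤ) < learn (2 ^ qb) xh ds
      · simp [h]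
      · simp [h]
    rw [E_rnd]
    simp only [h2, Finset.sum_add_distrib, ← Finset.sum_mul, hc, Finset.sum_const, Finset.card_range,
      nsmul_eq_mul]
    push_cast
    field_simp
  simp only [key, E_add, E_const, E_mul_right, E_div, pbar]

theorem pbar_range {Q : ℤ} (hQ : 0 ≤ Q) (xh : ℤ) (A B : ℕ → RT ℕ) (n : ℕ) :
    0 ≤ pbar Q xh A B n ∧ pbar Q xh A B n ≤ Q := by
  unfold pbar
  refine ⟨E_nonneg _ fun a1 => E_nonneg _ fun a2 => ?_,
    E_le (All_of_forall _ fun a1 => E_le (All_of_forall _ fun a2 => ?_))⟩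
  · exact_mod_cast (learn_range hQ xh _).1
  · exact_mod_cast (learn_range hQ xh _).2

/-- `|clamp d - D| ≤ |d - D|` if `|D| ≤ xh`; `learn_dir`. -/
theorem pbar_dir {Q xh : ℤ} (hQ : 0 ≤ Q) (A B : ℕ → RT ℕ) (n : ℕ) {w1 w2 ε : ℝ}
    (h1 : ((A n).E fun v => |(v : ℝ) - w1|) ≤ ε) (h2 : ((B n).E fun v => |(v : ℝ) - w2|) ≤ ε)
    (hD : |w2 - w1| ≤ xh) :
    (pbar Q xh A B (n + 1) - pbar Q xh A B n) * (w2 - w1) ≤ Q * (2 * ε) := by
  rw [ch_pbar Q xh A B (le_refl (n + 1)), ch_pbar Q xh A B (Nat.le_succ n)]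
  have he := ch_err A B (Nat.lt_succ_self n) h1 h2
  have hQ' : (0 : ℝ) ≤ Q := by exact_mod_cast hQ
  refine le_trans ?_ (mul_le_mul_of_nonneg_left he hQ')
  simp only [← E_sub, ← E_mul_right, ← E_mul_left]
  refine E_mono' _ fun a1 => E_mono' _ fun a2 => ?_
  rw [List.range_succ, List.map_append, List.map_singleton]
  set ds := (List.range n).map fun i => ((a2.getD i 0 : ℕ) : ℤ) - (a1.getD i 0 : ℕ)
  have hd := learn_dir Q xh ds (((a2.getD n 0 : ℕ) : ℤ) - (a1.getD n 0 : ℕ))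
  have hc := ch_clamp2 (a1.getD n 0) (a2.getD n 0) hD
  have r1 := learn_range hQ xh ds
  have r2 := learn_range hQ xh (ds ++ [((a2.getD n 0 : ℕ) : ℤ) - (a1.getD n 0 : ℕ)])
  set c := clampZ (-xh) xh (((a2.getD n 0 : ℕ) : ℤ) - (a1.getD n 0 : ℕ))
  set p1 := learn Q xh ds
  set p2 := learn Q xh (ds ++ [((a2.getD n 0 : ℕ) : ℤ) - (a1.getD n 0 : ℕ)])
  have hd' : ((p2 : ℝ) - p1) * c ≤ 0 := by exact_mod_cast hd
  have ha : |(p2 : ℝ) - p1| ≤ Q := by
    have : |p2 - p1| ≤ Q := abs_le.2 ⟨by omega, by omega⟩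
    exact_mod_cast this
  have h3 : ((p2 : ℝ) - p1) * ((w2 - w1) - c) ≤ Q * |(c : ℝ) - (w2 - w1)| := by
    refine (le_abs_self _).trans ?_
    rw [abs_mul, abs_sub_comm (w2 - w1)]
    exact mul_le_mul_of_nonneg_right ha (abs_nonneg _)
  have h4 := mul_le_mul_of_nonneg_left hc hQ'
  nlinarith

/-- `learn_regret`. -/
theorem pbar_regret {Q xh : ℤ} (hQ : 0 ≤ Q) (hx : 0 ≤ xh) (A B : ℕ → RT ℕ) (n : ℕ) {w1 w2 : ℕ → ℝ} {ε : ℝ}
    (h1 : ∀ k < n, ((A k).E fun v => |(v : ℝ) - w1 k|) ≤ ε)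
    (h2 : ∀ k < n, ((B k).E fun v => |(v : ℝ) - w2 k|) ≤ ε)
    (hD : ∀ k < n, |w2 k - w1 k| ≤ xh) {u : ℤ} (hu : 0 ≤ u) (hu' : u ≤ Q) :
    2 * ∑ k ∈ Finset.range n, (pbar Q xh A B k - u) * (w2 k - w1 k) ≤
      (Q : ℝ) ^ 2 + 8 * xh * (∑ k ∈ Finset.range n,
        |(w2 k - w1 k) - if k = 0 then 0 else w2 (k - 1) - w1 (k - 1)| + n * (4 * ε)) +
        n * Q * (4 * ε) := by
  have hQ' : (0 : ℝ) ≤ Q := by exact_mod_cast hQ
  have hx' : (0 : ℝ) ≤ xh := by exact_mod_cast hx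
  -- the error in round `k`
  set e : ℕ → List ℕ → List ℕ → ℝ := fun k a1 a2 =>
    |((a1.getD k 0 : ℕ) : ℝ) - w1 k| + |((a2.getD k 0 : ℕ) : ℝ) - w2 k| with he
  have hE : ∀ k < n, ((seq ((List.range n).map A)).E fun a1 => (seq ((List.range n).map B)).E fun a2 =>
      e k a1 a2) ≤ 2 * ε := fun k hk => ch_err A B hk (h1 k hk) (h2 k hk)
  have hL : 2 * ∑ k ∈ Finset.range n, (pbar Q xh A B k - u) * (w2 k - w1 k) =
      (seq ((List.range n).map A)).E fun a1 => (seq ((List.range n).map B)).E fun a2 =>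
        2 * ∑ k ∈ Finset.range n, ((learn Q xh ((List.range k).map fun i =>
          ((a2.getD i 0 : ℕ) : ℤ) - (a1.getD i 0 : ℕ)) : ℝ) - u) * (w2 k - w1 k) := by
    simp only [E_mul_left, E_sum, E_mul_right, E_sub, E_const]
    congr 1
    refine Finset.sum_congr rfl fun k hk => ?_
    rw [ch_pbar Q xh A B (Finset.mem_range.1 hk).le]
  have hpt : ∀ a1 a2 : List ℕ, 2 * ∑ k ∈ Finset.range n, ((learn Q xh ((List.range k).map fun i =>
          ((a2.getD i 0 : ℕ) : ℤ) - (a1.getD i 0 : ℕ)) : ℝ) - u) * (w2 k - w1 k) ≤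
      (Q : ℝ) ^ 2 + 8 * xh * (∑ k ∈ Finset.range n,
        |(w2 k - w1 k) - if k = 0 then 0 else w2 (k - 1) - w1 (k - 1)| +
          ∑ k ∈ Finset.range n, (e k a1 a2 + e (k - 1) a1 a2)) +
        2 * Q * ∑ k ∈ Finset.range n, e k a1 a2 := by
    intro a1 a2
    set d : ℕ → ℤ := fun i => ((a2.getD i 0 : ℕ) : ℤ) - (a1.getD i 0 : ℕ) with hd
    have hr := learn_regret hQ hx d n hu hu'
    have hr' : 2 * ∑ k ∈ Finset.range n, ((learn Q xh ((List.range k).map d) : ℝ) - u) *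
        (clampZ (-xh) xh (d k) : ℝ) ≤ (Q : ℝ) ^ 2 + 8 * xh * ∑ k ∈ Finset.range n,
        |(clampZ (-xh) xh (d k) : ℝ) - if k = 0 then 0 else (clampZ (-xh) xh (d (k - 1)) : ℝ)| := by
      exact_mod_cast hr
    have hc : ∀ k < n, |(clampZ (-xh) xh (d k) : ℝ) - (w2 k - w1 k)| ≤ e k a1 a2 := fun k hk =>
      ch_clamp2 (a1.getD k 0) (a2.getD k 0) (hD k hk)
    have s1 : ∑ k ∈ Finset.range n, ((learn Q xh ((List.range k).map d) : ℝ) - u) * (w2 k - w1 k) ≤
        ∑ k ∈ Finset.range n, ((learn Q xh ((List.range k).map d) : ℝ) - u) * (clampZ (-xh) xh (d k) : ℝ) +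
          Q * ∑ k ∈ Finset.range n, e k a1 a2 := by
      rw [Finset.mul_sum, ← Finset.sum_add_distrib]
      refine Finset.sum_le_sum fun k hk => ?_
      have r := learn_range hQ xh ((List.range k).map d)
      have ha : |(learn Q xh ((List.range k).map d) : ℝ) - u| ≤ Q := by
        have : |learn Q xh ((List.range k).map d) - u| ≤ Q := abs_le.2 ⟨by omega, by omega⟩
        exact_mod_cast this
      have h3 : ((learn Q xh ((List.range k).map d) : ℝ) - u) * ((w2 k - w1 k) - clampZ (-xh) xh (d k)) ≤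
          Q * |(clampZ (-xh) xh (d k) : ℝ) - (w2 k - w1 k)| := by
        refine (le_abs_self _).trans ?_
        rw [abs_mul, abs_sub_comm (w2 k - w1 k)]
        exact mul_le_mul_of_nonneg_right ha (abs_nonneg _)
      have h4 := mul_le_mul_of_nonneg_left (hc k (Finset.mem_range.1 hk)) hQ'
      nlinarith
    have s2 : ∑ k ∈ Finset.range n,
        |(clampZ (-xh) xh (d k) : ℝ) - if k = 0 then 0 else (clampZ (-xh) xh (d (k - 1)) : ℝ)| ≤
        ∑ k ∈ Finset.range n, |(w2 k - w1 k) - if k = 0 then 0 else w2 (k - 1) - w1 (k - 1)| +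
          ∑ k ∈ Finset.range n, (e k a1 a2 + e (k - 1) a1 a2) := by
      rw [← Finset.sum_add_distrib]
      refine Finset.sum_le_sum fun k hk => ?_
      have hk' := Finset.mem_range.1 hk
      have c1 := abs_le.1 (hc k hk')
      have c2 := abs_le.1 (hc (k - 1) (by omega))
      have c3 : 0 ≤ e (k - 1) a1 a2 := (abs_nonneg _).trans (hc (k - 1) (by omega))
      split_ifs with h0
      · have := le_abs_self (w2 k - w1 k - 0)
        have := neg_abs_le (w2 k - w1 k - 0)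
        exact abs_le.2 ⟨by linarith, by linarith⟩
      · have := le_abs_self (w2 k - w1 k - (w2 (k - 1) - w1 (k - 1)))
        have := neg_abs_le (w2 k - w1 k - (w2 (k - 1) - w1 (k - 1)))
        exact abs_le.2 ⟨by linarith, by linarith⟩
    have s3 := mul_le_mul_of_nonneg_left s2 (by positivity : (0 : ℝ) ≤ 8 * xh)
    linarith
  rw [hL]
  refine (E_mono' _ fun a1 => E_mono' _ fun a2 => hpt a1 a2).trans ?_
  simp only [E_add, E_const, E_mul_left, E_sum]
  have t1 : ∑ k ∈ Finset.range n, ((seq ((List.range n).map A)).E fun a1 =>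
      (seq ((List.range n).map B)).E fun a2 => e k a1 a2) ≤ n * (2 * ε) := by
    refine (Finset.sum_le_card_nsmul _ _ (2 * ε) fun k hk => hE k (Finset.mem_range.1 hk)).trans ?_
    simp
  have t2 : ∑ k ∈ Finset.range n, (((seq ((List.range n).map A)).E fun a1 =>
      (seq ((List.range n).map B)).E fun a2 => e k a1 a2) + (seq ((List.range n).map A)).E fun a1 =>
      (seq ((List.range n).map B)).E fun a2 => e (k - 1) a1 a2) ≤ n * (4 * ε) := by
    refine (Finset.sum_le_card_nsmul _ _ (4 * ε) fun k hk => ?_).trans (by simp)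
    have hk' := Finset.mem_range.1 hk
    linarith [hE k hk', hE (k - 1) (by omega)]
  have t3 := mul_le_mul_of_nonneg_left t1 (by positivity : (0 : ℝ) ≤ 2 * Q)
  have t4 := mul_le_mul_of_nonneg_left t2 (by positivity : (0 : ℝ) ≤ 8 * xh)
  nlinarith

/-- Total variation of an almost decreasing sequence. -/
theorem tv_le {w : ℕ → ℝ} {B a : ℝ} {n : ℕ} (ha : 0 ≤ a) (hB : 0 ≤ B) (h0 : ∀ k < n, 0 ≤ w k ∧ w k ≤ B)
    (h : ∀ k, k + 1 < n → w (k + 1) ≤ w k + a) :
    ∑ k ∈ Finset.range (n - 1), |w (k + 1) - w k| ≤ B + 2 * n * a := by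
  rcases n with _ | n
  · simpa using hB
  have s : ∑ k ∈ Finset.range n, |w (k + 1) - w k| ≤ ∑ k ∈ Finset.range n, (2 * a + (w k - w (k + 1))) := by
    refine Finset.sum_le_sum fun k hk => ?_
    have := h k (by have := Finset.mem_range.1 hk; omega)
    exact abs_le.2 ⟨by linarith, by linarith⟩
  rw [Finset.sum_add_distrib, Finset.sum_range_sub', Finset.sum_const, Finset.card_range, nsmul_eq_mul] at s
  have b0 := h0 0 (by omega)
  have bn := h0 n (by omega)
  simp only [Nat.add_sub_cancel]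
  push_cast
  nlinarith

/-- The value `μ k = w1 k + pbar k / Q (w2 k - w1 k)` of a choice node: almost decreasing, small regret. -/
theorem choice_bounds {Q xh : ℤ} (hQ : 0 < Q) (hx : 0 ≤ xh) (A B : ℕ → RT ℕ) (n : ℕ) {w1 w2 : ℕ → ℝ}
    {ε a Bd : ℝ} (hε : 0 ≤ ε) (ha : 0 ≤ a) (hB : 0 ≤ Bd)
    (h1 : ∀ k < n, ((A k).E fun v => |(v : ℝ) - w1 k|) ≤ ε)
    (h2 : ∀ k < n, ((B k).E fun v => |(v : ℝ) - w2 k|) ≤ ε)
    (hD : ∀ k < n, |w2 k - w1 k| ≤ xh)
    (b1 : ∀ k < n, 0 ≤ w1 k ∧ w1 k ≤ Bd) (b2 : ∀ k < n, 0 ≤ w2 k ∧ w2 k ≤ Bd)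
    (m1 : ∀ k, k + 1 < n → w1 (k + 1) ≤ w1 k + a) (m2 : ∀ k, k + 1 < n → w2 (k + 1) ≤ w2 k + a) :
    (∀ k, k + 1 < n → w1 (k + 1) + pbar Q xh A B (k + 1) / Q * (w2 (k + 1) - w1 (k + 1)) ≤
      w1 k + pbar Q xh A B k / Q * (w2 k - w1 k) + a + 2 * ε) ∧
    ∀ o : Bool, ∑ k ∈ Finset.range n, (w1 k + pbar Q xh A B k / Q * (w2 k - w1 k)) ≤
      ∑ k ∈ Finset.range n, (if o = true then w2 k else w1 k) +
        (Q / 2 + 4 * xh / Q * (xh + 2 * Bd + 4 * n * a + 4 * n * ε) + 2 * n * ε) := by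
  have hQ' : (0 : ℝ) < Q := by exact_mod_cast hQ
  have hx' : (0 : ℝ) ≤ xh := by exact_mod_cast hx
  refine ⟨fun k hk => ?_, fun o => ?_⟩
  · have hd := pbar_dir hQ.le A B k (h1 k (by omega)) (h2 k (by omega)) (hD k (by omega))
    have hr := pbar_range hQ.le xh A B (k + 1)
    have t0 : 0 ≤ pbar Q xh A B (k + 1) / Q := div_nonneg hr.1 hQ'.le
    have t1 : pbar Q xh A B (k + 1) / Q ≤ 1 := (div_le_one hQ').2 hr.2
    have hd' : (pbar Q xh A B (k + 1) / Q - pbar Q xh A B k / Q) * (w2 k - w1 k) ≤ 2 * ε := by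
      rw [← sub_div, div_mul_eq_mul_div, div_le_iff₀ hQ']
      linarith
    have e1 := mul_le_mul_of_nonneg_left (m1 k hk) (sub_nonneg.2 t1)
    have e2 := mul_le_mul_of_nonneg_left (m2 k hk) t0
    nlinarith
  · have hr := pbar_regret hQ.le hx A B n h1 h2 hD (u := if o = true then Q else 0)
      (by split_ifs <;> omega) (by split_ifs <;> omega)
    have tv : ∑ k ∈ Finset.range n, |(w2 k - w1 k) - if k = 0 then 0 else w2 (k - 1) - w1 (k - 1)| ≤
        xh + 2 * Bd + 4 * n * a := by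
      have tv1 := tv_le ha hB b1 m1
      have tv2 := tv_le ha hB b2 m2
      rcases n with _ | n
      · simp only [Finset.range_zero, Finset.sum_empty, Nat.cast_zero]
        linarith
      rw [Finset.sum_range_succ']
      simp only [Nat.add_sub_cancel, if_true, sub_zero, Nat.succ_ne_zero, if_false] at tv1 tv2 ⊢
      have s : ∑ k ∈ Finset.range n, |(w2 (k + 1) - w1 (k + 1)) - (w2 k - w1 k)| ≤
          ∑ k ∈ Finset.range n, |w1 (k + 1) - w1 k| + ∑ k ∈ Finset.range n, |w2 (k + 1) - w2 k| := by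
        rw [← Finset.sum_add_distrib]
        refine Finset.sum_le_sum fun k _ => ?_
        have : (w2 (k + 1) - w1 (k + 1)) - (w2 k - w1 k) = -(w1 (k + 1) - w1 k) + (w2 (k + 1) - w2 k) := by
          ring
        rw [this]
        refine (abs_add_le _ _).trans ?_
        rw [abs_neg]
      have := hD 0 (by omega)
      linarith
    have e1 : ∑ k ∈ Finset.range n, (w1 k + pbar Q xh A B k / Q * (w2 k - w1 k)) =
        ∑ k ∈ Finset.range n, (if o = true then w2 k else w1 k) +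
        (∑ k ∈ Finset.range n, (pbar Q xh A B k - ((if o = true then Q else 0 : ℤ) : ℝ)) * (w2 k - w1 k)) / Q := by
      rw [Finset.sum_div, ← Finset.sum_add_distrib]
      refine Finset.sum_congr rfl fun k _ => ?_
      split_ifs
      · field_simp
        ring
      · push_cast
        ring
    rw [e1]
    refine add_le_add le_rfl ?_
    rw [div_le_iff₀ hQ']
    have t4 := mul_le_mul_of_nonneg_left tv (by positivity : (0 : ℝ) ≤ 8 * xh)
    have e2 : (Q / 2 + 4 * xh / Q * (xh + 2 * Bd + 4 * n * a + 4 * n * ε) + 2 * n * ε : ℝ) * Q =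
        Q ^ 2 / 2 + 4 * xh * (xh + 2 * Bd + 4 * n * a + 4 * n * ε) + 2 * n * ε * Q := by
      field_simp
    rw [e2]
    nlinarith

end Crest.Agent.R288
end

-- ▼ part PVb/R288/SBa
section

/-!
# R288: the small mode of a block: range, monotonicity
-/

set_option autoImplicit false

namespace Crest.Agent.R288

open RT

namespace Model

/-- A valid plan at a scale that is a power of two, with small window averages. -/
structure SB (M : Model) (P : Par) (r i : ℕ) (s : ℤ × ℤ) (m φ : ℕ) (pl : Plan) : Prop where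
  ok : M.Ok P
  r1 : 1 ≤ r
  rH : r ≤ P.H
  φ1 : 1 ≤ φ
  lo : P.kg + 4 ≤ m
  hi : m < 4 * P.hh
  plan : M.PlanOk P r i s (2 ^ m) pl
  mb : ∀ j < P.b, M.mbar P (r - 1) (i * P.b + j) (pc pl j) φ ≤ 2 * cap P (pc pl j)

/-- Admissible arguments of a node of the small mode. -/
structure NodeOk (P : Par) (σ : ℕ) (pl : Plan) (hb p : ℕ) (s' : ℤ × ℤ) (k0 q : ℕ) : Prop where
  hhb : hb ≤ P.L
  hp : p < 2 ^ (P.L - hb)
  w1 : InW P σ pl (p * 2 ^ hb) s'.1
  w2 : InW P σ pl ((p + 1) * 2 ^ hb) s'.2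
  hq : q ≤ P.mb
  hk : k0 + 2 ^ q ≤ 2 ^ P.mb

variable {M : Model} {P : Par} {r i : ℕ} {s : ℤ × ℤ} {m φ : ℕ} {pl : Plan}

theorem sba_blk_succ (hb p : ℕ) : blk (hb + 1) p = blk hb (2 * p) ++ blk hb (2 * p + 1) := by
  unfold blk
  rw [show (2 * p + 1) * 2 ^ hb = 2 * p * 2 ^ hb + 1 * 2 ^ hb by ring, List.range'_append,
    show p * 2 ^ (hb + 1) = 2 * p * 2 ^ hb by ring, show 2 ^ (hb + 1) = 2 ^ hb + 2 ^ hb by ring]

theorem sba_blk_lt (hP : Good P) {hb p j : ℕ} (hhb : hb ≤ P.L) (hp : p < 2 ^ (P.L - hb))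
    (hj : j ∈ blk hb p) : j < P.b := by
  rw [blk, List.mem_range'_1] at hj
  rw [hP.b_eq, show P.L = P.L - hb + hb by omega, pow_add]
  have := Nat.mul_le_mul_right (2 ^ hb) (Nat.succ_le_of_lt hp)
  rw [Nat.succ_mul] at this
  omega

theorem NodeOk.sba_left (hP : Good P) {σ : ℕ} (hpl : M.PlanOk P r i s σ pl) {hb p : ℕ} {s' : ℤ × ℤ}
    {k0 : ℕ} (hn : NodeOk P σ pl (hb + 1) p s' k0 0) :
    NodeOk P σ pl hb (2 * p) (s'.1, optz P pl (hb + 1) p k0) 0 P.mb ∧
      NodeOk P σ pl hb (2 * p + 1) (optz P pl (hb + 1) p k0, s'.2) 0 P.mb := by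
  obtain ⟨hhb, hp, h1, h2, -, hk⟩ := hn
  have e : 2 ^ (P.L - hb) = 2 * 2 ^ (P.L - (hb + 1)) := by
    rw [show P.L - hb = P.L - (hb + 1) + 1 by omega, pow_succ']
  have hm := hpl.inW_optz hP (Nat.le_add_left 1 hb) hhb hp (k0 := k0) (by simpa using hk)
  rw [Nat.add_sub_cancel] at hm
  exact ⟨⟨by omega, by omega, by rwa [show 2 * p * 2 ^ hb = p * 2 ^ (hb + 1) by ring], hm, le_rfl, by omega⟩,
    ⟨by omega, by omega, hm, by rwa [show (2 * p + 1 + 1) * 2 ^ hb = (p + 1) * 2 ^ (hb + 1) by ring],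
      le_rfl, by omega⟩⟩

theorem NodeOk.sba_opt {σ hb p : ℕ} {s' : ℤ × ℤ} {k0 q : ℕ} (hn : NodeOk P σ pl hb p s' k0 (q + 1)) :
    NodeOk P σ pl hb p s' k0 q ∧ NodeOk P σ pl hb p s' (k0 + 2 ^ q) q := by
  obtain ⟨hhb, hp, h1, h2, hq, hk⟩ := hn
  rw [pow_succ] at hk
  exact ⟨⟨hhb, hp, h1, h2, by omega, by omega⟩, ⟨hhb, hp, h1, h2, by omega, by omega⟩⟩

theorem NodeOk.sba_leaf (hP : Good P) {σ : ℕ} (hpl : M.PlanOk P r i s σ pl) {p : ℕ} {s' : ℤ × ℤ}
    {k0 q : ℕ} (hn : NodeOk P σ pl 0 p s' k0 q) : p < P.b ∧ s' ∈ om (pc pl p) := by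
  obtain ⟨-, hp, h1, h2, -, -⟩ := hn
  simp only [pow_zero, mul_one, Nat.sub_zero] at hp h1 h2
  rw [← hP.b_eq] at hp
  exact ⟨hp, hpl.mem_om hP hp h1 h2⟩

theorem sba_kx (P : Par) : P.kx = 4 * P.ka := by unfold Par.kx; rfl
theorem sba_ka (P : Par) : P.ka = 10 * P.jj := by unfold Par.ka; rfl
theorem sba_kP (P : Par) : P.kP = 2 * (8 * P.kR) := by unfold Par.kP; rfl

theorem SB.sba_cw (h : M.SB P r i s m φ pl) {j : ℕ} (hj : j < P.b) :
    2 ^ (P.kg - P.kd + 4) ≤ cw (pc pl j) := by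
  have hP := h.ok.good
  obtain ⟨-, g2, -, g4, -, -, g7⟩ := geo_par hP
  have h1 := h.plan.wlv_le_cw hP hj
  have := h.lo
  rw [wlv_pow hP (by omega) (by omega)] at h1
  exact (Nat.pow_le_pow_right (by norm_num) (by omega)).trans h1

theorem SB.sba_omg (h : M.SB P r i s m φ pl) {hb p : ℕ} (hhb : hb ≤ P.L) (hp : p < 2 ^ (P.L - hb)) :
    2 ^ (P.kg - P.kd + 4) ≤ omg P pl hb p := by
  have hj : p * 2 ^ hb ∈ blk hb p := by
    rw [blk, List.mem_range'_1]
    exact ⟨le_rfl, Nat.lt_add_of_pos_right (by positivity)⟩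
  refine (h.sba_cw (sba_blk_lt h.ok.good hhb hp hj)).trans ?_
  rw [omg, blkP_eq h.ok.good hhb]
  exact List.le_sum_of_mem (List.mem_map_of_mem (f := fun j => cw (pc pl j)) hj)

/-- The mean of a choice node in round `k` (`choice_mean`, `rnk_rd0`, `nIn_rd0`). -/
theorem sn_choice (h : M.Ok P) (hr : 1 ≤ r) (hrH : r ≤ P.H) (hφ : 1 ≤ φ) (i : ℕ) (pl : Plan) {hb : ℕ}
    (h1 : 1 ≤ hb) (hhb : hb ≤ P.L) (p : ℕ) (s' : ℤ × ℤ) (k0 : ℕ) {q : ℕ} (hq : q + 1 ≤ P.mb) {k : ℕ}
    (hk : k < P.T0) :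
    (M.sn r i pl hb p s' k0 (q + 1) (rd0 P φ k)).mean =
      (M.sn r i pl hb p s' k0 q (rd0 P φ k)).mean +
        pbar (2 ^ qbits P (omg P pl hb p)) (omg P pl hb p * P.p2 (2 * P.ka + 2))
          (fun k' => (M.sn r i pl hb p s' k0 q (rd0 P φ k')).avg P.kP)
          (fun k' => (M.sn r i pl hb p s' (k0 + 2 ^ q) q (rd0 P φ k')).avg P.kP) k /
          2 ^ qbits P (omg P pl hb p) *
        ((M.sn r i pl hb p s' (k0 + 2 ^ q) q (rd0 P φ k)).mean -
          (M.sn r i pl hb p s' k0 q (rd0 P φ k)).mean) := by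
  rw [h.sn r hr hrH i pl hb hhb p s' k0 _ hq _ (T0_lt_rd0 hφ k), sn', if_neg (by omega),
    if_neg (Nat.succ_ne_zero q)]
  simp only [nIn_rd0 φ hk, rnk_rd0 φ hk, choose2]
  rw [choice_mean _ _ _ _ _ fun o => M.opt r i pl hb p s' k0 (q + 1) o (rd0 P φ k)]
  simp only [opt, Nat.add_sub_cancel, Bool.false_eq_true, if_false, if_true]

theorem sn_split (h : M.Ok P) (hr : 1 ≤ r) (hrH : r ≤ P.H) (i : ℕ) (pl : Plan) {hb : ℕ}
    (hhb : hb + 1 ≤ P.L) (p : ℕ) (s' : ℤ × ℤ) (k0 : ℕ) {t : ℕ} (ht : P.T0 < t) :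
    (M.sn r i pl (hb + 1) p s' k0 0 t).mean =
      (M.sn r i pl hb (2 * p) (s'.1, optz P pl (hb + 1) p k0) 0 P.mb t).mean +
        (M.sn r i pl hb (2 * p + 1) (optz P pl (hb + 1) p k0, s'.2) 0 P.mb t).mean := by
  rw [h.sn r hr hrH i pl _ hhb p s' k0 0 (Nat.zero_le _) t ht, sn', if_neg (Nat.succ_ne_zero hb), if_pos rfl,
    Nat.add_sub_cancel]
  simp only [mean, E_bind, E_map, Nat.cast_add, E_add, E_const]

theorem sn_leaf (h : M.Ok P) (hr : 1 ≤ r) (hrH : r ≤ P.H) (i : ℕ) (pl : Plan) (p : ℕ) (s' : ℤ × ℤ)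
    (k0 : ℕ) {q : ℕ} (hq : q ≤ P.mb) {t : ℕ} (ht : P.T0 < t) :
    (M.sn r i pl 0 p s' k0 q t).mean = M.W (r - 1) (i * P.b + p) s' (some (pc pl p)) t := by
  rw [h.sn r hr hrH i pl 0 (Nat.zero_le _) p s' k0 q hq t ht, sn', if_pos rfl, W]

/-- The mean of a node lies between the sums of the extreme values of the children (induction on `hb`, `q`;
at a choice node use `E_bind`, `le_E`, `E_le`). -/
theorem sn_range (h : M.Ok P) (hr : 1 ≤ r) (hrH : r ≤ P.H) {σ : ℕ} (hpl : M.PlanOk P r i s σ pl) {t : ℕ}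
    (ht : P.T0 < t) {lo hi : ℕ → ℝ}
    (hw : ∀ j < P.b, ∀ s' ∈ om (pc pl j), lo j ≤ M.W (r - 1) (i * P.b + j) s' (some (pc pl j)) t ∧
      M.W (r - 1) (i * P.b + j) s' (some (pc pl j)) t ≤ hi j)
    {hb p : ℕ} {s' : ℤ × ℤ} {k0 q : ℕ} (hn : NodeOk P σ pl hb p s' k0 q) :
    ((blk hb p).map lo).sum ≤ (M.sn r i pl hb p s' k0 q t).mean ∧
      (M.sn r i pl hb p s' k0 q t).mean ≤ ((blk hb p).map hi).sum := by
  induction hb generalizing p s' k0 q with
  | zero =>
    obtain ⟨hp, hs⟩ := hn.sba_leaf h.good hpl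
    rw [sn_leaf h hr hrH i pl p s' k0 hn.hq ht]
    simpa [blk] using hw p hp s' hs
  | succ hb ih =>
    induction q generalizing k0 with
    | zero =>
      obtain ⟨n1, n2⟩ := hn.sba_left h.good hpl
      rw [sn_split h hr hrH i pl hn.hhb p s' k0 ht, sba_blk_succ, List.map_append, List.map_append,
        List.sum_append, List.sum_append]
      exact ⟨add_le_add (ih n1).1 (ih n2).1, add_le_add (ih n1).2 (ih n2).2⟩
    | succ q ihq =>
      have ho : ∀ o : Bool, ((blk (hb + 1) p).map lo).sum ≤ (M.opt r i pl (hb + 1) p s' k0 (q + 1) o t).mean ∧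
          (M.opt r i pl (hb + 1) p s' k0 (q + 1) o t).mean ≤ ((blk (hb + 1) p).map hi).sum := by
        intro o
        cases o
        · exact ihq hn.sba_opt.1
        · exact ihq hn.sba_opt.2
      rw [h.sn r hr hrH i pl _ hn.hhb p s' k0 _ hn.hq t ht, sn', if_neg (Nat.succ_ne_zero hb),
        if_neg (Nat.succ_ne_zero q)]
      simp only [mean, E_bind]
      exact ⟨le_E (All_of_forall _ fun _ => le_E (All_of_forall _ fun _ => le_E (All_of_forall _ fun _ =>
        (ho _).1))), E_le (All_of_forall _ fun _ => E_le (All_of_forall _ fun _ => E_le (All_of_forall _ fun _ =>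
        (ho _).2)))⟩

/-- Two options of a node have close means: by `W_some_lip` the values of child `j` lie in an interval of length
`2 cap / 2^(2ka) + 24 w + 1 ≤ 4 w 2^(2ka)` (take `lo j` = the least value over `om`). -/
theorem SB.close (h : M.SB P r i s m φ pl) {k : ℕ} (hk : k < P.T0) {hb p : ℕ} {s' s'' : ℤ × ℤ}
    {k0 q k0' q' : ℕ} (hn : NodeOk P (2 ^ m) pl hb p s' k0 q) (hn' : NodeOk P (2 ^ m) pl hb p s'' k0' q') :
    |(M.sn r i pl hb p s' k0 q (rd0 P φ k)).mean - (M.sn r i pl hb p s'' k0' q' (rd0 P φ k)).mean| ≤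
      (omg P pl hb p * 2 ^ (2 * P.ka + 2) : ℕ) := by
  classical
  have hP := h.ok.good
  have ht := T0_lt_rd0 (P := P) h.φ1 k
  have hmin : ∀ j, ∃ s0 ∈ om (pc pl j), ∀ s1 ∈ om (pc pl j),
      M.W (r - 1) (i * P.b + j) s0 (some (pc pl j)) (rd0 P φ k) ≤
        M.W (r - 1) (i * P.b + j) s1 (some (pc pl j)) (rd0 P φ k) := by
    intro j
    obtain ⟨s0, h0, h1⟩ := Finset.exists_min_image (om (pc pl j)).toFinset
      (fun s1 => M.W (r - 1) (i * P.b + j) s1 (some (pc pl j)) (rd0 P φ k))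
      ⟨_, List.mem_toFinset.2 (center_mem_om _)⟩
    exact ⟨s0, List.mem_toFinset.1 h0, fun s1 hs => h1 s1 (List.mem_toFinset.2 hs)⟩
  choose s0 h0 h1 using hmin
  have hw : ∀ j < P.b, ∀ s1 ∈ om (pc pl j),
      M.W (r - 1) (i * P.b + j) (s0 j) (some (pc pl j)) (rd0 P φ k) ≤
        M.W (r - 1) (i * P.b + j) s1 (some (pc pl j)) (rd0 P φ k) ∧
      M.W (r - 1) (i * P.b + j) s1 (some (pc pl j)) (rd0 P φ k) ≤
        M.W (r - 1) (i * P.b + j) (s0 j) (some (pc pl j)) (rd0 P φ k) +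
          (cw (pc pl j) : ℝ) * 2 ^ (2 * P.ka + 2) := by
    intro j hj s1 hs
    refine ⟨h1 j s1 hs, (W_some_lip h.ok (by have := h.rH; omega) (h.plan.cert j hj) hs (h0 j) ht).trans ?_⟩
    have a1 := h.mb j hj
    rw [cap_eq hP, sba_kx, show 4 * P.ka = 2 * P.ka + 2 * P.ka by ring, pow_add] at a1
    push_cast at a1
    have a2 : (1 : ℝ) ≤ cw (pc pl j) := by
      exact_mod_cast (Nat.one_le_two_pow).trans (h.sba_cw hj)
    have a3 : (16 : ℝ) ≤ 2 ^ (2 * P.ka) := by
      have := hP.big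
      have e := sba_ka P
      calc (16 : ℝ) = 2 ^ 4 := by norm_num
        _ ≤ _ := pow_le_pow_right₀ one_le_two (by omega)
    have a4 : M.mbar P (r - 1) (i * P.b + j) (pc pl j) φ / 2 ^ (2 * P.ka) ≤
        2 * (cw (pc pl j) * 2 ^ (2 * P.ka)) := by
      rw [div_le_iff₀ (by positivity)]
      linarith
    rw [phs_rd0 φ hk, pow_add]
    nlinarith
  have b1 := sn_range h.ok h.r1 h.rH h.plan ht hw hn
  have b2 := sn_range h.ok h.r1 h.rH h.plan ht hw hn'
  have e : ((blk hb p).map fun j => (cw (pc pl j) : ℝ) * 2 ^ (2 * P.ka + 2)).sum =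
      (omg P pl hb p * 2 ^ (2 * P.ka + 2) : ℕ) := by
    rw [List.sum_map_mul_right, omg, blkP_eq hP hn.hhb]
    push_cast
    rw [List.map_map]
    rfl
  rw [List.sum_map_add, e] at b1 b2
  rw [abs_le]
  constructor <;> linarith [b1.1, b1.2, b2.1, b2.2]

/-- Accuracy of the estimates (`avg_l1` with `kP = 2 (8 kR)`, `sn_valid`;
`omg ≥ wlv 0 = 2^(m - kd) ≥ 2^(kg + 4 - kd)`). -/
theorem SB.acc (h : M.SB P r i s m φ pl) (k : ℕ) {hb p : ℕ} {s' : ℤ × ℤ} {k0 q : ℕ}
    (hn : NodeOk P (2 ^ m) pl hb p s' k0 q) :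
    (((M.sn r i pl hb p s' k0 q (rd0 P φ k)).avg P.kP).E fun v =>
      |(v : ℝ) - (M.sn r i pl hb p s' k0 q (rd0 P φ k)).mean|) ≤
      omg P pl hb p / 2 ^ (P.kg - P.kd + 3) := by
  have hP := h.ok.good
  obtain ⟨-, g2, g3, -, -, -, g7⟩ := geo_par hP
  have ht := T0_lt_rd0 (P := P) h.φ1 k
  have hv := sn_valid h.ok h.r1 h.rH ht (vs h.ok (by have := h.rH; omega) ht) h.plan hn.hhb hn.hp hn.w1 hn.w2
    hn.hq hn.hk
  rw [sba_kP]
  refine (avg_l1 _ _ (B := (omg P pl hb p : ℝ) * 2 ^ P.kx) (hv.mono fun v hv => by exact_mod_cast hv.2)).trans ?_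
  have a1 : (2 : ℝ) ^ (P.kg - P.kd + 4) ≤ omg P pl hb p := by exact_mod_cast h.sba_omg hn.hhb hn.hp
  have a2 : (2 : ℝ) ^ P.kx * 2 ^ (P.kg - P.kd + 4) ≤ 2 ^ (8 * P.kR) := by
    rw [← pow_add]
    exact pow_le_pow_right₀ one_le_two (by omega)
  have a3 : (omg P pl hb p : ℝ) * 2 ^ P.kx / 2 ^ (8 * P.kR) ≤ omg P pl hb p / 2 ^ (P.kg - P.kd + 4) := by
    rw [div_le_div_iff₀ (by positivity) (by positivity), mul_assoc]
    exact mul_le_mul_of_nonneg_left a2 (by positivity)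
  have a4 : (1 : ℝ) ≤ omg P pl hb p / 2 ^ (P.kg - P.kd + 4) := (one_le_div (by positivity)).2 a1
  have a5 : (omg P pl hb p : ℝ) / 2 ^ (P.kg - P.kd + 3) = 2 * (omg P pl hb p / 2 ^ (P.kg - P.kd + 4)) := by
    rw [pow_succ (2 : ℝ) (P.kg - P.kd + 3)]
    field_simp
  linarith

theorem sba_step {Q π π' w1 w2 w1' w2' a ε : ℝ} (hQ : 0 < Q) (h0 : 0 ≤ π') (h1 : π' ≤ Q)
    (hd : (π' - π) * (w2 - w1) ≤ Q * (2 * ε)) (m1 : w1' ≤ w1 + a) (m2 : w2' ≤ w2 + a) :
    w1' + π' / Q * (w2' - w1') ≤ w1 + π / Q * (w2 - w1) + (a + 2 * ε) := by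
  have a0 : 0 ≤ π' / Q := by positivity
  have a1 : π' / Q ≤ 1 := (div_le_one hQ).2 h1
  have a2 : (π' / Q - π / Q) * (w2 - w1) ≤ 2 * ε := by
    rw [← sub_div, div_mul_eq_mul_div, div_le_iff₀ hQ]
    linarith
  nlinarith [mul_le_mul_of_nonneg_left m2 a0, mul_le_mul_of_nonneg_left m1 (sub_nonneg.2 a1)]

/-- Induction on `hb`, `q`; leaves by `W_some_succ`, choice nodes by `choice_bounds` (or `pbar_dir`). -/
theorem SB.mono' (h : M.SB P r i s m φ pl) {k : ℕ} (hk : k + 1 < P.T0) {hb p : ℕ} {s' : ℤ × ℤ}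
    {k0 q : ℕ} (hn : NodeOk P (2 ^ m) pl hb p s' k0 q) :
    (M.sn r i pl hb p s' k0 q (rd0 P φ (k + 1))).mean ≤ (M.sn r i pl hb p s' k0 q (rd0 P φ k)).mean +
      (hb * P.mb + q : ℕ) * (omg P pl hb p / 2 ^ (P.kg - P.kd + 2)) := by
  have hP := h.ok.good
  induction hb generalizing p s' k0 q with
  | zero =>
    obtain ⟨hp, hs⟩ := hn.sba_leaf hP h.plan
    rw [sn_leaf h.ok h.r1 h.rH i pl p s' k0 hn.hq (T0_lt_rd0 h.φ1 _),
      sn_leaf h.ok h.r1 h.rH i pl p s' k0 hn.hq (T0_lt_rd0 h.φ1 _)]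
    exact (W_some_succ h.ok (by have := h.rH; omega) (h.plan.cert p hp) hs h.φ1 hk).trans
      (le_add_of_nonneg_right (by positivity))
  | succ hb ih =>
    induction q generalizing k0 with
    | zero =>
      obtain ⟨n1, n2⟩ := hn.sba_left hP h.plan
      have a1 := ih n1
      have a2 := ih n2
      rw [sn_split h.ok h.r1 h.rH i pl hn.hhb p s' k0 (T0_lt_rd0 h.φ1 _),
        sn_split h.ok h.r1 h.rH i pl hn.hhb p s' k0 (T0_lt_rd0 h.φ1 _), omg_succ hP pl hn.hhb,
        show (hb + 1) * P.mb + 0 = hb * P.mb + P.mb by ring, Nat.cast_add (omg P pl hb (2 * p)), add_div,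
        mul_add]
      linarith
    | succ q ihq =>
      obtain ⟨n1, n2⟩ := hn.sba_opt
      have hk' : k < P.T0 := by omega
      have hc := h.close hk' n2 n1
      obtain ⟨g1, -, g3, -, -, -, g7⟩ := geo_par hP
      have e1 := sba_kx P
      rw [← hP.p2_eq (e := 2 * P.ka + 2) (by omega)] at hc
      have hd := pbar_dir (Q := 2 ^ qbits P (omg P pl (hb + 1) p))
        (xh := omg P pl (hb + 1) p * P.p2 (2 * P.ka + 2)) (by positivity)
        (fun k' => (M.sn r i pl (hb + 1) p s' k0 q (rd0 P φ k')).avg P.kP)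
        (fun k' => (M.sn r i pl (hb + 1) p s' (k0 + 2 ^ q) q (rd0 P φ k')).avg P.kP) k
        (h.acc k n1) (h.acc k n2) (by exact_mod_cast hc)
      have hr := pbar_range (Q := 2 ^ qbits P (omg P pl (hb + 1) p)) (by positivity)
        (omg P pl (hb + 1) p * P.p2 (2 * P.ka + 2))
        (fun k' => (M.sn r i pl (hb + 1) p s' k0 q (rd0 P φ k')).avg P.kP)
        (fun k' => (M.sn r i pl (hb + 1) p s' (k0 + 2 ^ q) q (rd0 P φ k')).avg P.kP) (k + 1)
      push_cast at hd hr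
      rw [sn_choice h.ok h.r1 h.rH h.φ1 i pl (Nat.le_add_left 1 hb) hn.hhb p s' k0 hn.hq hk,
        sn_choice h.ok h.r1 h.rH h.φ1 i pl (Nat.le_add_left 1 hb) hn.hhb p s' k0 hn.hq hk']
      refine (sba_step (by positivity) hr.1 hr.2 hd (ihq n1) (ihq n2)).trans (le_of_eq ?_)
      rw [pow_succ (2 : ℝ) (P.kg - P.kd + 2)]
      push_cast
      field_simp
      ring

theorem SB.mono (h : M.SB P r i s m φ pl) {k : ℕ} (hk : k + 1 < P.T0) {hb p : ℕ} {s' : ℤ × ℤ}
    {k0 q : ℕ} (hn : NodeOk P (2 ^ m) pl hb p s' k0 q) :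
    (M.sn r i pl hb p s' k0 q (rd0 P φ (k + 1))).mean ≤ (M.sn r i pl hb p s' k0 q (rd0 P φ k)).mean +
      omg P pl hb p / 2 ^ P.kR := by
  have hP := h.ok.good
  refine (h.mono' hk hn).trans (add_le_add le_rfl ?_)
  obtain ⟨-, g2, g3, -, -, -, g7⟩ := geo_par hP
  have a1 := hP.mb_add
  have a2 := hP.kR_lt
  have a3 := hP.small_ll
  have a4 := hP.ll_kR
  have a5 : hb * P.mb + q ≤ 2 ^ P.L * 2 ^ (2 * P.jj + 4) := by
    have b1 : hb + 1 ≤ 2 ^ P.L := (Nat.succ_le_succ hn.hhb).trans Nat.lt_two_pow_self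
    have b2 : P.mb ≤ 2 ^ (2 * P.jj + 4) := by rw [pow_succ]; omega
    calc hb * P.mb + q ≤ (hb + 1) * P.mb := by rw [add_mul, one_mul]; exact Nat.add_le_add_left hn.hq _
      _ ≤ _ := Nat.mul_le_mul b1 b2
  have a6 : ((hb * P.mb + q : ℕ) : ℝ) * 2 ^ P.kR ≤ 2 ^ (P.kg - P.kd + 2) := by
    have : (hb * P.mb + q) * 2 ^ P.kR ≤ 2 ^ (P.kg - P.kd + 2) := by
      refine (Nat.mul_le_mul_right _ a5).trans ?_
      rw [← pow_add, ← pow_add]
      exact Nat.pow_le_pow_right (by norm_num) (by omega)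
    exact_mod_cast this
  rw [mul_div_assoc', div_le_div_iff₀ (by positivity) (by positivity), mul_right_comm, mul_comm]
  exact mul_le_mul_of_nonneg_left a6 (by positivity)

theorem PlanOk.nodeOk_root (hP : Good P) {σ : ℕ} (h : M.PlanOk P r i s σ pl) :
    NodeOk P σ pl P.L 0 (pz pl 0, pz pl P.b) 0 P.mb := by
  refine ⟨le_rfl, by positivity, ?_, ?_, le_rfl, by omega⟩
  · rw [zero_mul]
    exact h.inW_pz (Nat.zero_le _)
  · rw [zero_add, one_mul, ← hP.b_eq]
    exact h.inW_pz le_rfl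

end Model

end Crest.Agent.R288
end

-- ▼ part PVb/R288/SBb
section

/-!
# R288: regret of the small mode
-/

set_option autoImplicit false

namespace Crest.Agent.R288

open RT

namespace Model

variable {M : Model} {P : Par} {r i : ℕ} {s : ℤ × ℤ} {m φ : ℕ} {pl : Plan}

theorem sbb_num {ω K S n a ε : ℝ} (hω : 1 ≤ ω) (hK : 4 ≤ K) (h1 : ω ≤ S) (h2 : S ≤ 2 * ω) (ha0 : 0 ≤ n * a)
    (hε0 : 0 ≤ n * ε) (ha : n * a ≤ ω) (hε : n * ε ≤ ω) :
    S * K ^ 3 / 2 + 4 * (4 * ω * K ^ 2) / (S * K ^ 3) *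
      (4 * ω * K ^ 2 + 2 * (ω * K ^ 4) + 4 * n * a + 4 * n * ε) + 2 * n * ε ≤ 64 * (ω * K ^ 3) := by
  have hK0 : 0 < K := by linarith
  have hS : 0 < S := by linarith
  have k2 : 16 ≤ K ^ 2 := by nlinarith
  have k3 : 1 ≤ K ^ 3 := one_le_pow₀ (by linarith)
  have k4 : 4 * K ^ 2 + 8 ≤ K ^ 4 := by nlinarith
  have b1 : S * K ^ 3 / 2 ≤ ω * K ^ 3 := by nlinarith
  have b2 : 4 * (4 * ω * K ^ 2) / (S * K ^ 3) ≤ 16 / K := by
    rw [div_le_div_iff₀ (by positivity) hK0]
    have : ω * K ^ 3 ≤ S * K ^ 3 := mul_le_mul_of_nonneg_right h1 (by positivity)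
    nlinarith
  have b3 : 4 * ω * K ^ 2 + 2 * (ω * K ^ 4) + 4 * n * a + 4 * n * ε ≤ 3 * (ω * K ^ 4) := by
    have : ω * (4 * K ^ 2 + 8) ≤ ω * K ^ 4 := mul_le_mul_of_nonneg_left k4 (by linarith)
    nlinarith
  have b0 : 0 ≤ 4 * ω * K ^ 2 + 2 * (ω * K ^ 4) + 4 * n * a + 4 * n * ε := by
    have : 0 ≤ 4 * ω * K ^ 2 + 2 * (ω * K ^ 4) := by positivity
    nlinarith
  have b4 : 4 * (4 * ω * K ^ 2) / (S * K ^ 3) * (4 * ω * K ^ 2 + 2 * (ω * K ^ 4) + 4 * n * a + 4 * n * ε) ≤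
      16 / K * (3 * (ω * K ^ 4)) := mul_le_mul b2 b3 b0 (by positivity)
  have b5 : 16 / K * (3 * (ω * K ^ 4)) = 48 * (ω * K ^ 3) := by
    field_simp
    ring
  have b6 : ω ≤ ω * K ^ 3 := le_mul_of_one_le_right (by linarith) k3
  nlinarith

theorem sbb_le_b (hP : Good P) {hb p : ℕ} (hhb : hb ≤ P.L) (hp : p < 2 ^ (P.L - hb)) :
    (p + 1) * 2 ^ hb ≤ P.b := by
  rw [hP.b_eq, show P.L = P.L - hb + hb by omega, pow_add]
  exact Nat.mul_le_mul_right _ hp

theorem sbb_omg_pos (h : M.SB P r i s m φ pl) {hb p : ℕ} (hhb : hb ≤ P.L) (hp : p < 2 ^ (P.L - hb)) :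
    1 ≤ omg P pl hb p := by
  have hP := h.ok.good
  have hg := geo_par hP
  have hlo := h.lo
  have h0 : 0 < 2 ^ hb := by positivity
  have hj : p * 2 ^ hb ∈ blk hb p := mem_blk.2 ⟨le_rfl, by rw [add_one_mul]; omega⟩
  have hb' := sbb_le_b hP hhb hp
  have h1 := h.plan.wlv_le_cw hP (j := p * 2 ^ hb) (by rw [add_one_mul] at hb'; omega)
  rw [wlv_pow hP (by omega) (by omega)] at h1
  have h2 : 0 < 2 ^ (m - P.kd + 0) := by positivity
  rw [omg, blkP_eq hP hhb]
  exact (h2.trans_le h1).trans_le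
    (List.single_le_sum (fun _ _ => Nat.zero_le _) _ (List.mem_map_of_mem (f := fun j => cw (pc pl j)) hj))

theorem sbb_bd (h : M.SB P r i s m φ pl) (k : ℕ) {hb p : ℕ} {s' : ℤ × ℤ} {k0 q : ℕ}
    (hn : NodeOk P (2 ^ m) pl hb p s' k0 q) :
    (M.sn r i pl hb p s' k0 q (rd0 P φ k)).mean ≤ omg P pl hb p * 2 ^ P.kx := by
  have hP := h.ok.good
  have hr : r - 1 ≤ P.H := by have := h.rH; omega
  have a := (sn_range h.ok h.r1 h.rH h.plan (T0_lt_rd0 h.φ1 k) (lo := fun _ => 0)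
    (hi := fun j => (cw (pc pl j) : ℝ) * 2 ^ P.kx) (fun j hj s'' hs'' => ⟨mean_nonneg _, by
      have := (W_some_bounds h.ok hr (h.plan.cert j hj) hs'' (T0_lt_rd0 h.φ1 k)).2
      rwa [cap_eq hP, Nat.cast_mul, Nat.cast_pow, Nat.cast_ofNat] at this⟩) hn).2
  rw [List.sum_map_mul_right] at a
  rw [omg, blkP_eq hP hn.hhb, Nat.cast_list_sum, List.map_map]
  exact a

/-- `choice_bounds` with `ω = omg`, `Q = 2^qbits ∈ (ω 2^(3ka), 2 ω 2^(3ka)]` (`ω ≤ 2^m < 2^(4hh)`, `ω ≥ 1`),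
`xh = ω 2^(2ka+2)`, `Bd = ω 2^(4ka)`, `a = ω / 2^kR`, `ε = ω / 2^(kg-kd+3)`, `n = T0 ≤ 2^ll`. -/
theorem SB.choice_regret (h : M.SB P r i s m φ pl) {hb p : ℕ} (h1 : 1 ≤ hb) {s' : ℤ × ℤ} {k0 q : ℕ}
    (hn : NodeOk P (2 ^ m) pl hb p s' k0 (q + 1)) (o : Bool) :
    ∑ k ∈ Finset.range P.T0, (M.sn r i pl hb p s' k0 (q + 1) (rd0 P φ k)).mean ≤
      ∑ k ∈ Finset.range P.T0,
        (M.sn r i pl hb p s' (if o = true then k0 + 2 ^ q else k0) q (rd0 P φ k)).mean +
        64 * (omg P pl hb p * 2 ^ (3 * P.ka)) := by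
  have hP := h.ok.good
  have hg := geo_par hP
  have hn1 : NodeOk P (2 ^ m) pl hb p s' k0 q :=
    ⟨hn.hhb, hn.hp, hn.w1, hn.w2, by have := hn.hq; omega, by have := hn.hk; rw [pow_succ] at this; omega⟩
  have hn2 : NodeOk P (2 ^ m) pl hb p s' (k0 + 2 ^ q) q :=
    ⟨hn.hhb, hn.hp, hn.w1, hn.w2, by have := hn.hq; omega, by have := hn.hk; rw [pow_succ] at this; omega⟩
  have hkx : P.kx = 4 * P.ka := Par.kx.eq_1 P
  have hka : P.ka = 10 * P.jj := Par.ka.eq_1 P
  have hbig := hP.big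
  have hp2 : P.p2 (2 * P.ka + 2) = 2 ^ (2 * P.ka + 2) := hP.p2_eq (by omega)
  have hω1 : 1 ≤ omg P pl hb p := sbb_omg_pos h hn.hhb hn.hp
  have hω2 : omg P pl hb p * 2 ^ P.kx ≤ 2 ^ m := h.plan.omg_le hP hn.hhb hn.hp
  have hω3 : omg P pl hb p < 2 ^ (4 * P.hh) :=
    lt_of_le_of_lt ((Nat.le_mul_of_pos_right _ (by positivity)).trans hω2)
      (Nat.pow_lt_pow_right one_lt_two h.hi)
  have hqb : qbits P (omg P pl hb p) = (omg P pl hb p).size + 3 * P.ka := by
    rw [qbits, min_eq_left (Nat.size_le.2 hω3)]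
  have hs1 : omg P pl hb p ≤ 2 ^ (omg P pl hb p).size := (Nat.lt_size_self _).le
  have hs2 : 2 ^ (omg P pl hb p).size ≤ 2 * omg P pl hb p := by
    obtain ⟨e, he⟩ : ∃ e, (omg P pl hb p).size = e + 1 :=
      ⟨(omg P pl hb p).size - 1, by have := Nat.size_pos.2 hω1; omega⟩
    have : 2 ^ e ≤ omg P pl hb p := Nat.lt_size.1 (by omega)
    rw [he, pow_succ]
    omega
  have hkT := hP.kT_add
  have hll := hP.ll_kR
  have hT1 : (P.T0 : ℝ) ≤ 2 ^ P.kR := by
    rw [hP.T0_eq]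
    exact_mod_cast Nat.pow_le_pow_right two_pos (by omega)
  have hT2 : (P.T0 : ℝ) ≤ 2 ^ (P.kg - P.kd + 3) := by
    rw [hP.T0_eq]
    exact_mod_cast Nat.pow_le_pow_right two_pos (by omega)
  have hK : (4 : ℝ) ≤ 2 ^ P.ka := by
    have : 2 ^ 2 ≤ 2 ^ P.ka := Nat.pow_le_pow_right two_pos (by omega)
    exact_mod_cast this
  have cb := (choice_bounds (Q := 2 ^ qbits P (omg P pl hb p)) (xh := omg P pl hb p * P.p2 (2 * P.ka + 2))
    (by positivity) (by positivity)
    (fun k' => (M.sn r i pl hb p s' k0 q (rd0 P φ k')).avg P.kP)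
    (fun k' => (M.sn r i pl hb p s' (k0 + 2 ^ q) q (rd0 P φ k')).avg P.kP) P.T0
    (w1 := fun k => (M.sn r i pl hb p s' k0 q (rd0 P φ k)).mean)
    (w2 := fun k => (M.sn r i pl hb p s' (k0 + 2 ^ q) q (rd0 P φ k)).mean)
    (ε := omg P pl hb p / 2 ^ (P.kg - P.kd + 3)) (a := omg P pl hb p / 2 ^ P.kR)
    (Bd := omg P pl hb p * 2 ^ P.kx) (by positivity) (by positivity) (by positivity)
    (fun k _ => h.acc k hn1) (fun k _ => h.acc k hn2)
    (fun k hk => (h.close hk hn2 hn1).trans_eq (by rw [hp2]; push_cast; ring))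
    (fun k _ => ⟨mean_nonneg _, sbb_bd h k hn1⟩) (fun k _ => ⟨mean_nonneg _, sbb_bd h k hn2⟩)
    (fun k hk => h.mono hk hn1) (fun k hk => h.mono hk hn2)).2 o
  have e1 : ∑ k ∈ Finset.range P.T0, (M.sn r i pl hb p s' k0 (q + 1) (rd0 P φ k)).mean =
      ∑ k ∈ Finset.range P.T0, ((M.sn r i pl hb p s' k0 q (rd0 P φ k)).mean +
        pbar (2 ^ qbits P (omg P pl hb p)) (omg P pl hb p * P.p2 (2 * P.ka + 2))
          (fun k' => (M.sn r i pl hb p s' k0 q (rd0 P φ k')).avg P.kP)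
          (fun k' => (M.sn r i pl hb p s' (k0 + 2 ^ q) q (rd0 P φ k')).avg P.kP) k /
          ((2 ^ qbits P (omg P pl hb p) : ℤ) : ℝ) *
        ((M.sn r i pl hb p s' (k0 + 2 ^ q) q (rd0 P φ k)).mean -
          (M.sn r i pl hb p s' k0 q (rd0 P φ k)).mean)) := by
    refine Finset.sum_congr rfl fun k hk => ?_
    rw [sn_choice h.ok h.r1 h.rH h.φ1 i pl h1 hn.hhb p s' k0 hn.hq (Finset.mem_range.1 hk)]
    push_cast
    rfl
  have e2 : ∑ k ∈ Finset.range P.T0,
      (M.sn r i pl hb p s' (if o = true then k0 + 2 ^ q else k0) q (rd0 P φ k)).mean =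
      ∑ k ∈ Finset.range P.T0, (if o = true then (M.sn r i pl hb p s' (k0 + 2 ^ q) q (rd0 P φ k)).mean
        else (M.sn r i pl hb p s' k0 q (rd0 P φ k)).mean) := by
    refine Finset.sum_congr rfl fun k _ => ?_
    split_ifs <;> rfl
  rw [e1, e2]
  refine cb.trans (add_le_add le_rfl ?_)
  have f1 : ((2 ^ qbits P (omg P pl hb p) : ℤ) : ℝ) = (2 ^ (omg P pl hb p).size : ℕ) * (2 ^ P.ka) ^ 3 := by
    rw [hqb]
    push_cast
    ring
  have f2 : ((omg P pl hb p * P.p2 (2 * P.ka + 2) : ℤ) : ℝ) = 4 * omg P pl hb p * (2 ^ P.ka) ^ 2 := by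
    rw [hp2]
    push_cast
    ring
  have f3 : (2 : ℝ) ^ P.kx = (2 ^ P.ka) ^ 4 := by rw [hkx]; ring
  have f4 : (2 : ℝ) ^ (3 * P.ka) = (2 ^ P.ka) ^ 3 := by ring
  rw [f1, f2, f3, f4]
  refine sbb_num (by exact_mod_cast hω1) hK (by exact_mod_cast hs1) (by exact_mod_cast hs2)
    (by positivity) (by positivity) ?_ ?_
  · rw [← mul_div_assoc, div_le_iff₀ (by positivity), mul_comm]
    exact mul_le_mul_of_nonneg_left hT1 (by positivity)
  · rw [← mul_div_assoc, div_le_iff₀ (by positivity), mul_comm]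
    exact mul_le_mul_of_nonneg_left hT2 (by positivity)

/-- Descent through the choice nodes towards the option `ks`. -/
theorem sbb_desc (h : M.SB P r i s m φ pl) {hb p : ℕ} (h1 : 1 ≤ hb) {s' : ℤ × ℤ} (ks q k0 : ℕ)
    (hn : NodeOk P (2 ^ m) pl hb p s' k0 q) (hk1 : k0 ≤ ks) (hk2 : ks < k0 + 2 ^ q) :
    ∑ k ∈ Finset.range P.T0, (M.sn r i pl hb p s' k0 q (rd0 P φ k)).mean ≤
      ∑ k ∈ Finset.range P.T0, (M.sn r i pl hb p s' ks 0 (rd0 P φ k)).mean +
        64 * q * (omg P pl hb p * 2 ^ (3 * P.ka)) := by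
  induction q generalizing k0 with
  | zero =>
    obtain rfl : k0 = ks := by rw [pow_zero] at hk2; omega
    simp
  | succ q ih =>
    have hq := hn.hq
    have hk := hn.hk
    rw [pow_succ] at hk hk2
    by_cases hc : ks < k0 + 2 ^ q
    · have a := h.choice_regret h1 hn false
      have b := ih k0 ⟨hn.hhb, hn.hp, hn.w1, hn.w2, by omega, by omega⟩ hk1 hc
      simp only [Bool.false_eq_true, if_false] at a
      push_cast
      linarith
    · have a := h.choice_regret h1 hn true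
      have b := ih (k0 + 2 ^ q) ⟨hn.hhb, hn.hp, hn.w1, hn.w2, by omega, by omega⟩ (by omega) (by omega)
      simp only [if_true] at a
      push_cast
      linarith

theorem sbb_node (hP : Good P) {z : ℕ → ℤ} (hz : Reach P (2 ^ m) (pz pl) z)
    (hd : ∀ j, (gsp P (2 ^ m) : ℤ) ∣ z j) {hb p : ℕ} (hhb : hb ≤ P.L) (hp : p < 2 ^ (P.L - hb)) :
    NodeOk P (2 ^ m) pl hb p (z (p * 2 ^ hb), z ((p + 1) * 2 ^ hb)) 0 P.mb := by
  have hb' := sbb_le_b hP hhb hp
  have h1 := hz (p * 2 ^ hb) ((Nat.mul_le_mul_right _ (Nat.le_succ p)).trans hb')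
  have h2 := hz ((p + 1) * 2 ^ hb) hb'
  exact ⟨hhb, hp, ⟨hd _, by dsimp only; omega⟩, ⟨hd _, by dsimp only; omega⟩, le_rfl, by omega⟩

/-- The option that selects the midpoint of the comparator. -/
theorem sbb_idx (h : M.SB P r i s m φ pl) {z : ℕ → ℤ} (hz : Reach P (2 ^ m) (pz pl) z)
    (hd : ∀ j, (gsp P (2 ^ m) : ℤ) ∣ z j) {hb p : ℕ} (hhb : hb + 1 ≤ P.L) (hp : p < 2 ^ (P.L - (hb + 1))) :
    ∃ ks < 2 ^ P.mb, optz P pl (hb + 1) p ks = z ((2 * p + 1) * 2 ^ hb) := by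
  have hP := h.ok.good
  have hg := geo_par hP
  have hm := hP.mb_add
  have hlo := h.lo
  have hb0 : 0 < P.b := by rw [hP.b_eq]; positivity
  have hi : (2 * p + 1) * 2 ^ hb ≤ P.b := by
    refine le_trans ?_ (sbb_le_b hP hhb hp)
    rw [pow_succ', ← mul_assoc]
    exact Nat.mul_le_mul_right _ (by omega)
  have hg0 : (0 : ℤ) < gsp P (2 ^ m) := by
    rw [gsp_pow hP (by omega)]
    positivity
  obtain ⟨a, ha⟩ := (hd ((2 * p + 1) * 2 ^ hb)).sub (h.plan.dvd _ hi)
  have h1 := hz _ hi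
  rw [ha, wlv, hP.p2_eq (by omega), add_zero, Nat.cast_mul, ← mul_neg] at h1
  have a1 : -((2 ^ (P.kg - P.kd) : ℕ) : ℤ) ≤ a := le_of_mul_le_mul_left h1.1 hg0
  have a2 : a < ((2 ^ (P.kg - P.kd) : ℕ) : ℤ) := lt_of_mul_lt_mul_left h1.2 hg0.le
  refine ⟨(a + (2 ^ (P.kg - P.kd) : ℕ)).toNat, ?_, ?_⟩
  · rw [show P.mb = P.kg - P.kd + 1 by omega, pow_succ]
    omega
  · rw [optz, h.plan.gsp_eq hP hb0, Nat.add_sub_cancel, hP.p2_eq (by omega), hP.p2_eq (by omega),
      hP.p2_eq (by omega), show P.mb - 1 = P.kg - P.kd by omega,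
      show p * 2 ^ (hb + 1) + 2 ^ hb = (2 * p + 1) * 2 ^ hb by ring, Int.toNat_of_nonneg (by omega),
      add_sub_cancel_right, ← ha, add_sub_cancel]

/-- Induction on `hb`, `q`.  For `hb ≥ 1` the index `k* = (z mid - pz mid) / g + 2^(mb-1)` of the comparator's
midpoint stays in `[k0, k0 + 2^q)`. -/
theorem SB.regret' (h : M.SB P r i s m φ pl) {z : ℕ → ℤ} (hz : Reach P (2 ^ m) (pz pl) z)
    (hd : ∀ j, (gsp P (2 ^ m) : ℤ) ∣ z j) {hb p : ℕ} (hhb : hb ≤ P.L) (hp : p < 2 ^ (P.L - hb)) :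
    ∑ k ∈ Finset.range P.T0,
        (M.sn r i pl hb p (z (p * 2 ^ hb), z ((p + 1) * 2 ^ hb)) 0 P.mb (rd0 P φ k)).mean ≤
      ((blk hb p).map fun j => M.Sum P φ (r - 1) (i * P.b + j) (z j, z (j + 1)) (some (pc pl j))).sum +
        64 * hb * P.mb * (omg P pl hb p * 2 ^ (3 * P.ka)) := by
  have hP := h.ok.good
  induction hb generalizing p with
  | zero =>
    rw [blk_zero]
    simp only [pow_zero, mul_one, List.map_singleton, List.sum_singleton, Nat.cast_zero, mul_zero, zero_mul,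
      add_zero, Model.Sum]
    refine le_of_eq (Finset.sum_congr rfl fun k _ => ?_)
    exact sn_leaf h.ok h.r1 h.rH i pl p _ 0 le_rfl (T0_lt_rd0 h.φ1 k)
  | succ hb ih =>
    have hp2 : 2 * p + 1 < 2 ^ (P.L - hb) := by
      rw [show P.L - hb = P.L - (hb + 1) + 1 by omega, pow_succ]
      omega
    obtain ⟨ks, hks, hopt⟩ := sbb_idx h hz hd hhb hp
    have a1 := sbb_desc h (Nat.succ_le_succ (Nat.zero_le hb)) ks P.mb 0
      (sbb_node hP hz hd hhb hp) (Nat.zero_le _) (by omega)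
    have a2 := ih (p := 2 * p) (by omega) (by omega)
    have a3 := ih (p := 2 * p + 1) (by omega) hp2
    have i1 : p * 2 ^ (hb + 1) = 2 * p * 2 ^ hb := by ring
    have i2 : (p + 1) * 2 ^ (hb + 1) = (2 * p + 1 + 1) * 2 ^ hb := by ring
    have e : ∑ k ∈ Finset.range P.T0, (M.sn r i pl (hb + 1) p
        (z (p * 2 ^ (hb + 1)), z ((p + 1) * 2 ^ (hb + 1))) ks 0 (rd0 P φ k)).mean =
        ∑ k ∈ Finset.range P.T0, (M.sn r i pl hb (2 * p)
          (z (2 * p * 2 ^ hb), z ((2 * p + 1) * 2 ^ hb)) 0 P.mb (rd0 P φ k)).mean +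
        ∑ k ∈ Finset.range P.T0, (M.sn r i pl hb (2 * p + 1)
          (z ((2 * p + 1) * 2 ^ hb), z ((2 * p + 1 + 1) * 2 ^ hb)) 0 P.mb (rd0 P φ k)).mean := by
      rw [← Finset.sum_add_distrib]
      refine Finset.sum_congr rfl fun k _ => ?_
      rw [sn_split h.ok h.r1 h.rH i pl hhb p _ ks (T0_lt_rd0 h.φ1 k), hopt, i1, i2]
    rw [e] at a1
    have e2 : (omg P pl (hb + 1) p : ℝ) = omg P pl hb (2 * p) + omg P pl hb (2 * p + 1) := by
      rw [omg_succ hP pl hhb p, Nat.cast_add]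
    rw [blk_succ, List.map_append, List.sum_append]
    rw [e2] at a1 ⊢
    push_cast
    linarith

theorem SB.regret (h : M.SB P r i s m φ pl) {z : ℕ → ℤ} (hz : Reach P (2 ^ m) (pz pl) z)
    (hd : ∀ j, (gsp P (2 ^ m) : ℤ) ∣ z j) (h0 : z 0 = pz pl 0) (hb : z P.b = pz pl P.b) :
    ∑ k ∈ Finset.range P.T0, (M.sroot P r i pl (rd0 P φ k)).mean ≤
      ((List.range P.b).map fun j =>
        M.Sum P φ (r - 1) (i * P.b + j) (z j, z (j + 1)) (some (pc pl j))).sum +
        64 * P.L * P.mb * 2 ^ m / 2 ^ P.ka := by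
  have hP := h.ok.good
  have hp : 0 < 2 ^ (P.L - P.L) := by positivity
  have a := h.regret' hz hd (hb := P.L) (p := 0) le_rfl hp
  rw [zero_mul, zero_add, one_mul, blk_top, ← hP.b_eq, h0, hb] at a
  refine a.trans (add_le_add le_rfl ?_)
  have h1 : (omg P pl P.L 0 : ℝ) * 2 ^ P.kx ≤ 2 ^ m := by exact_mod_cast h.plan.omg_le hP le_rfl hp
  rw [mul_div_assoc]
  refine mul_le_mul_of_nonneg_left ?_ (by positivity)
  rw [le_div_iff₀ (by positivity), mul_assoc, ← pow_add, show 3 * P.ka + P.ka = P.kx by rw [Par.kx.eq_1]; ring]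
  exact h1

end Model

end Crest.Agent.R288
end

-- ▼ part PVb/R288/HintA
section

/-!
# R288: concentration of hints
-/

set_option autoImplicit false

namespace Crest.Agent.R288

open RT

namespace Model

variable {M : Model} {P : Par} {r i : ℕ} {s : ℤ × ℤ} {c : Ctx} {j m t : ℕ} {pl : Plan}

theorem hinta_range (n : ℕ) (f : ℕ → ℝ) : ((List.range n).map f).sum = ∑ k ∈ Finset.range n, f k := by
  rw [← List.sum_toFinset _ List.nodup_range, List.toFinset_range]

theorem hinta_flat {A B : Type} (l : List A) (n : A → ℕ) (u : A → B) (g : B → ℝ) :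
    ((l.flatMap fun a => List.replicate (n a) (u a)).map g).sum = (l.map fun a => (n a : ℝ) * g (u a)).sum := by
  induction l with
  | nil => rfl
  | cons a l ih => simp [List.flatMap_cons, ih]

theorem hinta_E_sum {A B : Type} (u : RT A) (l : List B) (f : B → A → ℝ) :
    (u.E fun a => (l.map fun p => f p a).sum) = (l.map fun p => u.E (f p)).sum := by
  induction l with
  | nil => simp
  | cons p l ih => simp only [List.map_cons, List.sum_cons, E_add, ih]

theorem hinta_par (hP : Good P) : P.kK = 2 * P.kx + 2 * P.jj + 14 ∧ 4 * P.kg ≤ 2 ^ (2 * P.jj + 12) := by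
  refine ⟨Par.kK.eq_1 P, ?_⟩
  have h1 := hP.kR_lt
  have h2 := (geo_par hP).2.1
  rw [show 2 * P.jj + 12 = 2 * P.jj + 3 + 9 by ring, pow_add]
  omega

theorem hinta_exp (hP : Good P) {A : ℝ} (hA : 2 ^ (2 * P.jj + 12) ≤ A) : Real.exp (-A) ≤ 1 / 2 ^ (4 * P.kg) := by
  have h1 : ((4 * P.kg : ℕ) : ℝ) ≤ A := le_trans (by exact_mod_cast (hinta_par hP).2) hA
  rw [Real.exp_neg, one_div]
  refine inv_anti₀ (by positivity) (le_trans ?_ (Real.exp_le_exp.2 h1))
  rw [← mul_one ((4 * P.kg : ℕ) : ℝ), Real.exp_nat_mul]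
  exact pow_le_pow_left₀ zero_le_two (by have := Real.add_one_le_exp 1; linarith) _

theorem hinta_keys (hP : Good P) {σ lv lv' : ℕ} (hlv : lv < P.nw) (hlv' : lv' < P.nw) {z1 z2 : ℤ}
    (h : ctxAt P σ lv' z1 z2 ∈ tabKeys P c σ lv) : lv = lv' := by
  have := geo_par hP
  obtain ⟨a1, -, h⟩ := List.mem_flatMap.1 h
  obtain ⟨a2, -, h⟩ := List.mem_map.1 h
  have h1 : P.p2 (P.kg - P.kd + lv + 1) = P.p2 (P.kg - P.kd + lv' + 1) := congrArg (fun c : Ctx => c.2.2.2.n) h
  rw [hP.p2_eq (by omega), hP.p2_eq (by omega)] at h1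
  have := Nat.pow_right_injective (le_refl 2) h1
  omega

theorem mean_cent (M : Model) (P : Par) (r i : ℕ) (pl : Plan) (t : ℕ) :
    (M.cent P r i pl t).mean = ((List.range P.b).map fun j =>
      M.W (r - 1) (i * P.b + j) ((pc pl j).1, (pc pl j).2.1) (some (pc pl j)) t).sum := by
  rw [mean, cent, E_map]
  simp only [Nat.cast_list_sum]
  rw [E_seq_sum, List.map_map]
  rfl

theorem hinta_in (L : List Ctx) (T : Ctx → RT ℕ) {c' : Ctx} (hc : c' ∈ L) :
    (∀ B : ℕ, (T c').All (fun v => v ≤ B) → (seq (L.map T)).All fun es => es.getD (L.idxOf c') 0 ≤ B) ∧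
      ((seq (L.map T)).E fun es => (es.getD (L.idxOf c') 0 : ℝ)) = (T c').mean := by
  have hn := List.idxOf_lt_length_of_mem hc
  refine ⟨fun B hB => (All_seq_map L T (fun a v => a = c' → v ≤ B) fun a _ => ?_).mono fun es hes =>
    valid_getD hes hn 0 (List.getElem_idxOf hn), ?_⟩
  · by_cases ha : a = c'
    · exact ha ▸ hB.mono fun v hv _ => hv
    · exact All_of_forall _ fun v h => absurd h ha
  · rw [E_seq_getD _ _ (by simpa using hn) 0 fun v : ℕ => (v : ℝ), List.getElem_map, List.getElem_idxOf hn]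
    rfl

theorem hinta_out (L : List Ctx) (T : Ctx → RT ℕ) {c' : Ctx} (hc : c' ∉ L) :
    (seq (L.map T)).All fun es => es.getD (L.idxOf c') 0 = 0 :=
  (All_seq_length _).mono fun es hes => by
    rw [List.idxOf_of_notMem hc, List.getD_eq_default _ _ (by simpa using hes.le)]

/-- One draw at level `lv`: the term of the plan is `2^(nw - lv)` times the value of a uniform child `k` at the
centre of its context if that context has level `lv` (then it is in `tabKeys … lv`, because the plan is usable and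
the level is determined by the radius `2^(kg - kd + lv + 1)`), and `0` otherwise (`idxOf` = length).
Values are `≤ cap = wlv · 2^kx = 2^(m - kd + lv + kx)`. -/
theorem draw_term (h : M.Ok P) (hr : 1 ≤ r) (hrH : r ≤ P.H) (ht : P.T0 < t) (hm : P.kg ≤ m)
    (hj : P.kg ≤ j) (hσ : sclC P c j = 2 ^ m) (hu : usable P c j pl = true)
    (hpl : M.PlanOk P r i s (2 ^ m) pl) :
    (∀ lv < P.nw, (M.draw P r i c (2 ^ m) lv t).All fun d =>
      dterm P c (2 ^ m) pl d ≤ 2 ^ (P.nw + m - P.kd + P.kx)) ∧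
    (((List.range P.nw).flatMap fun lv =>
        List.replicate (2 ^ (P.kK + lv)) (M.draw P r i c (2 ^ m) lv t)).map fun u =>
      u.E fun d => (dterm P c (2 ^ m) pl d : ℝ)).sum =
      2 ^ (P.kK + P.nw) / 2 ^ P.L * (M.cent P r i pl t).mean := by
  have hP := h.good
  have hg := geo_par hP
  have hb := hP.b_eq
  have hv := vs h (r := r - 1) (by omega) ht
  choose! lk hlk hctx using hpl.ctx
  have hmem : ∀ k < P.b, ∀ lv < P.nw, pc pl k ∈ tabKeys P c (2 ^ m) lv ↔ lv = lk k := fun k hk lv hlv => by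
    refine ⟨fun h1 => hinta_keys hP hlv (hlk k hk) (hctx k hk ▸ h1), fun h1 => ?_⟩
    rw [usable, Bool.or_eq_true, decide_eq_true_eq, List.all_eq_true] at hu
    obtain ⟨lv', h2, h3⟩ := List.any_eq_true.1 ((hu.resolve_left (by omega)) k (List.mem_range.2 hk))
    rw [decide_eq_true_eq, hσ] at h3
    rw [h1, ← hinta_keys hP (List.mem_range.1 h2) (hlk k hk) (hctx k hk ▸ h3)]
    exact h3
  refine ⟨fun lv hlv => ?_, ?_⟩
  · rw [draw, All_bind]
    refine (All_rnd _).mono fun k hk => ?_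
    rw [All_map]
    rw [← hb] at hk
    by_cases h1 : pc pl k ∈ tabKeys P c (2 ^ m) lv
    · refine ((hinta_in _ (fun c' => M.top (r - 1) (i * P.b + k) (c'.1, c'.2.1) (some c') t) h1).1 _
        ((hv _ _ _ (hpl.cert k hk) (center_mem_om _)).mono fun v hv' => hv'.2.1)).mono fun es hes => ?_
      refine (Nat.mul_le_mul_left _ hes).trans (le_of_eq ?_)
      rw [cap_eq hP, hctx k hk, cw_ctxAt hP _ (hlk k hk), wlv_pow hP hm (hlk k hk), ← (hmem k hk lv hlv).1 h1,
        hP.p2_eq (by omega), ← pow_add, ← pow_add]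
      congr 1
      omega
    · refine (hinta_out _ _ h1).mono fun es hes => ?_
      rw [dterm, hes]
      exact Nat.zero_le _
  · rw [hinta_flat, hinta_range, mean_cent, hinta_range, Finset.mul_sum]
    have e : ∀ lv ∈ Finset.range P.nw, ((2 ^ (P.kK + lv) : ℕ) : ℝ) *
        (M.draw P r i c (2 ^ m) lv t).E (fun d => (dterm P c (2 ^ m) pl d : ℝ)) =
        ∑ k ∈ Finset.range P.b, if lv = lk k then 2 ^ (P.kK + P.nw) / 2 ^ P.L *
          M.W (r - 1) (i * P.b + k) ((pc pl k).1, (pc pl k).2.1) (some (pc pl k)) t else 0 := fun lv hlv => by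
      rw [Finset.mem_range] at hlv
      rw [draw, E_bind, E_rnd, ← hb, mul_div_assoc', Finset.mul_sum, Finset.sum_div]
      refine Finset.sum_congr rfl fun k hk => ?_
      rw [Finset.mem_range] at hk
      rw [E_map]
      simp only [dterm, Nat.cast_mul, E_mul_left]
      split_ifs with h1
      · rw [(hinta_in _ (fun c' => M.top (r - 1) (i * P.b + k) (c'.1, c'.2.1) (some c') t)
          ((hmem k hk lv hlv).2 h1)).2, hP.p2_eq (by omega), W,
          show P.kK + P.nw = P.kK + lv + (P.nw - lv) by omega, pow_add (2 : ℝ) (P.kK + lv)]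
        push_cast
        ring
      · rw [E_congr (g := fun _ => 0) ((hinta_out _ _ fun h2 => h1 ((hmem k hk lv hlv).1 h2)).mono
          fun es hes => by rw [hes, Nat.cast_zero]), E_const]
        simp
    rw [Finset.sum_congr rfl e, Finset.sum_comm]
    refine Finset.sum_congr rfl fun k hk => ?_
    rw [Finset.sum_ite_eq', if_pos (Finset.mem_range.2 (hlk k (Finset.mem_range.1 hk)))]

/-- `tail_seq` for `f d = dterm · 2^L / 2^(kK+nw) ≤ σ / 2^(kK+1)`, `μ₀ = σ`, `y = σ / 2^kx`; the exponent is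
`2^(2 jj + 13)`, and `kg < 2^(2 jj + 4)`. -/
theorem draws_tail (h : M.Ok P) (hr : 1 ≤ r) (hrH : r ≤ P.H) (ht : P.T0 < t) (hm : P.kg ≤ m)
    (hj : P.kg ≤ j) (hσ : sclC P c j = 2 ^ m) (hu : usable P c j pl = true)
    (hpl : M.PlanOk P r i s (2 ^ m) pl) :
    ((M.draws P r i c (2 ^ m) t).E fun ds =>
      max (|((ds.map (dterm P c (2 ^ m) pl)).sum : ℕ) * (2 ^ P.L / 2 ^ (P.kK + P.nw) : ℝ) -
        (M.cent P r i pl t).mean| - 2 ^ m / 2 ^ P.kx) 0) ≤ 2 ^ m / 2 ^ (4 * P.kg) := by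
  have hP := h.good
  have hg := geo_par hP
  have hK := (hinta_par hP).1
  obtain ⟨h1, h2⟩ := draw_term h hr hrH ht hm hj hσ hu hpl
  have hU : (M.cent P r i pl t).mean ≤ 2 ^ m :=
    E_le ((cent_valid h (vs h (by omega) ht) hpl).mono fun v hv => by exact_mod_cast hv.2)
  set ts := (List.range P.nw).flatMap fun lv => List.replicate (2 ^ (P.kK + lv)) (M.draw P r i c (2 ^ m) lv t)
    with hts
  set a : ℝ := 2 ^ P.L / 2 ^ (P.kK + P.nw) with ha
  have ha0 : 0 < a := by positivity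
  have hμ : (ts.map fun u => u.E fun d => (dterm P c (2 ^ m) pl d : ℝ) * a).sum = (M.cent P r i pl t).mean := by
    simp only [E_mul_right]
    rw [List.sum_map_mul_right, h2, ha]
    field_simp
  have hy1 : (1 : ℝ) ≤ 2 ^ P.kx := one_le_pow₀ one_le_two
  obtain ⟨t1, t2⟩ := tail_seq ts (fun d => (dterm P c (2 ^ m) pl d : ℝ) * a) (B := 2 ^ m / 2 ^ (P.kK + 1))
    (μ₀ := 2 ^ m) (y := 2 ^ m / 2 ^ P.kx) (by positivity) (fun u hu' => by
      obtain ⟨lv, hlv, hu'⟩ := List.mem_flatMap.1 hu'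
      rw [List.eq_of_mem_replicate hu']
      refine (h1 lv (List.mem_range.1 hlv)).mono fun d hd => ⟨by positivity, ?_⟩
      have : (dterm P c (2 ^ m) pl d : ℝ) ≤ 2 ^ (P.nw + m - P.kd + P.kx) := by exact_mod_cast hd
      refine (mul_le_mul_of_nonneg_right this ha0.le).trans (le_of_eq ?_)
      rw [ha, mul_div_assoc', div_eq_div_iff (by positivity) (by positivity), ← pow_add, ← pow_add, ← pow_add]
      congr 1
      omega) (hμ.le.trans hU) (by positivity)
    ((div_le_self (by positivity) hy1).trans (by have : (0 : ℝ) < 2 ^ m := by positivity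
                                                 linarith))
  rw [hμ] at t1 t2
  have e1 : (2 : ℝ) * (2 ^ m / 2 ^ (P.kK + 1)) * 2 ^ m / (2 ^ m / 2 ^ P.kx) ≤ 2 ^ m / 2 := by
    have : (2 : ℝ) * (2 ^ m / 2 ^ (P.kK + 1)) * 2 ^ m / (2 ^ m / 2 ^ P.kx) =
        2 ^ m / 2 * (2 ^ (P.kx + 1) / 2 ^ P.kK) := by
      rw [pow_succ, pow_succ]; field_simp
    rw [this]
    exact mul_le_of_le_one_right (by positivity)
      ((div_le_one (by positivity)).2 (pow_le_pow_right₀ one_le_two (by omega)))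
  have e2 := hinta_exp hP (A := ((2 : ℝ) ^ m / 2 ^ P.kx) ^ 2 / (4 * (2 ^ m / 2 ^ (P.kK + 1)) * 2 ^ m)) (by
    have : ((2 : ℝ) ^ m / 2 ^ P.kx) ^ 2 / (4 * (2 ^ m / 2 ^ (P.kK + 1)) * 2 ^ m) = 2 ^ (2 * P.jj + 13) := by
      rw [hK]; field_simp; ring
    rw [this]
    exact pow_le_pow_right₀ one_le_two (by omega))
  have e3 := mul_le_mul e1 e2 (Real.exp_pos _).le (by positivity)
  refine le_trans (E_mono' _ fun ds => ?_) (((E_add _ _ _).le.trans (add_le_add (t1.trans e3) (t2.trans e3))).trans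
    (le_of_eq (by ring)))
  rw [Nat.cast_list_sum, List.map_map, ← List.sum_map_mul_right]
  simp only [Function.comp_def]
  refine max_le ?_ (add_nonneg (le_max_right _ _) (le_max_right _ _))
  rcases abs_cases ((ds.map fun d => (dterm P c (2 ^ m) pl d : ℝ) * a).sum - (M.cent P r i pl t).mean) with
    ⟨e, -⟩ | ⟨e, -⟩
  · rw [e]
    exact le_add_of_le_of_nonneg (le_max_left _ _) (le_max_right _ _)
  · rw [e, neg_sub]
    exact le_add_of_nonneg_of_le (le_max_right _ _) (le_max_left _ _)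

/-- `avg_tail` with `B = σ`, `y = σ / 2^kx`. -/
theorem avgK_tail (hP : Good P) (u : RT ℕ) {m : ℕ} (hu : u.All fun v => v ≤ 2 ^ m) :
    ((u.avg P.kK).E fun v => max ((v : ℝ) - u.mean - 2 ^ m / 2 ^ P.kx) 0) ≤ tau P * 2 ^ m ∧
      ((u.avg P.kK).E fun v => max (u.mean - v - (2 ^ m / 2 ^ P.kx + 1)) 0) ≤ tau P * 2 ^ m := by
  have hg := geo_par hP
  have hK := (hinta_par hP).1
  have hy1 : (1 : ℝ) ≤ 2 ^ P.kx := one_le_pow₀ one_le_two
  obtain ⟨t1, t2⟩ := avg_tail u P.kK (B := 2 ^ m) (y := 2 ^ m / 2 ^ P.kx) (by positivity)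
    (hu.mono fun v hv => by exact_mod_cast hv) (by positivity)
    ((div_le_self (by positivity) hy1).trans (by have : (0 : ℝ) < 2 ^ m := by positivity
                                                 linarith))
  have e1 : (2 : ℝ) * (2 ^ m) ^ 2 / (2 ^ P.kK * (2 ^ m / 2 ^ P.kx)) ≤ 2 ^ m := by
    have : (2 : ℝ) * (2 ^ m) ^ 2 / (2 ^ P.kK * (2 ^ m / 2 ^ P.kx)) = 2 ^ m * (2 ^ (P.kx + 1) / 2 ^ P.kK) := by
      rw [pow_succ (2 : ℝ) P.kx]; field_simp
    rw [this]
    exact mul_le_of_le_one_right (by positivity)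
      ((div_le_one (by positivity)).2 (pow_le_pow_right₀ one_le_two (by omega)))
  have e2 := hinta_exp hP (A := ((2 : ℝ) ^ m / 2 ^ P.kx) ^ 2 * 2 ^ P.kK / (4 * (2 ^ m) ^ 2)) (le_of_eq (by
    rw [hK]; field_simp; ring))
  have e3 : (1 : ℝ) / 2 ^ (4 * P.kg) ≤ tau P :=
    one_div_le_one_div_of_le (by positivity) (pow_le_pow_right₀ one_le_two (by omega))
  have e4 := (mul_le_mul e1 (e2.trans e3) (Real.exp_pos _).le (by positivity)).trans (mul_comm _ _).le
  exact ⟨t1.trans e4, t2.trans e4⟩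

/-- The selected plan `pl*` has `Û pl* ≤ Û pl`, so `U pl* ≤ U pl + 2xσ +` the sum of the tails of all plans
(at most `2^(2kg+4)` plans); the value of the hint exceeds `U pl*` by `xσ` + tail; `cjunc_le`, `dist1_om`,
`2g ≤ xσ`. -/
theorem hint_tail (h : M.Ok P) (hr : 1 ≤ r) (hrH : r ≤ P.H) (ht : P.T0 < t) (hm : P.kg ≤ m)
    (hc : M.Cert P r i c) (hs : s ∈ om c) (hj : P.kg ≤ j) (hσ : sclC P c j = 2 ^ m)
    {pls : List (Option Plan)} (hl : pls.length ≤ (om c).length) (hp : M.PlsOk P r i c j pls)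
    (hpl : some pl ∈ pls) :
    ((M.hint P r i c (2 ^ m) pls t).E fun oh => oh.elim 0 fun g =>
      max ((hval s g : ℝ) - (M.cent P r i pl t).mean - 8 * cw c - 6 * (2 ^ m / 2 ^ P.kx)) 0) ≤
      2 * tau P * 2 ^ m := by
  have hP := h.good
  have hg := geo_par hP
  have hmem : ∀ pl, pl ∈ pls.filterMap id ↔ some pl ∈ pls := fun pl => by simp
  set a : ℝ := 2 ^ P.L / 2 ^ (P.kK + P.nw) with ha
  have ha0 : 0 < a := by positivity
  set y : ℝ := 2 ^ m / 2 ^ P.kx with hy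
  set tl : Plan → List Drw → ℝ := fun p ds =>
    max (|((ds.map (dterm P c (2 ^ m) p)).sum : ℕ) * a - (M.cent P r i p t).mean| - y) 0 with htl
  have htau : 0 ≤ tau P * 2 ^ m := by unfold tau; positivity
  have hle : ∀ p, some p ∈ pls → ∀ ds, tl p ds ≤ ((pls.filterMap id).map fun p => tl p ds).sum := fun p hp' ds =>
    List.single_le_sum (fun v hv => by
      obtain ⟨q, -, rfl⟩ := List.mem_map.1 hv
      exact le_max_right _ _) _ (List.mem_map.2 ⟨p, (hmem p).2 hp', rfl⟩)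
  rw [hint, E_bind]
  refine (E_mono' _ (g := fun ds => tau P * 2 ^ m + 2 * ((pls.filterMap id).map fun p => tl p ds).sum)
    fun ds => ?_).trans ?_
  · have h0 : 0 ≤ tl pl ds := le_max_right _ _
    have h1 := hle pl hpl ds
    cases hsel : selP P c (2 ^ m) pls ds with
    | none =>
      rw [Option.elim_none, E_pure, Option.elim_none]
      linarith
    | some q =>
      have hq := (hmem q).1 (List.argmin_mem hsel)
      obtain ⟨-, s', hs', hok⟩ := hp q hq
      rw [hσ] at hok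
      have h2 := hle q hq ds
      have h3 : (((ds.map (dterm P c (2 ^ m) q)).sum : ℕ) : ℝ) ≤ ((ds.map (dterm P c (2 ^ m) pl)).sum : ℕ) := by
        exact_mod_cast List.le_of_mem_argmin (f := fun pl => (ds.map (dterm P c (2 ^ m) pl)).sum)
          ((hmem pl).2 hpl) hsel
      have h4 := mul_le_mul_of_nonneg_right h3 ha0.le
      have h5 : (M.cent P r i q t).mean - ((ds.map (dterm P c (2 ^ m) q)).sum : ℕ) * a - y ≤ tl q ds :=
        le_trans (sub_le_sub_right ((neg_sub _ _).ge.trans (neg_le_abs _)) _) (le_max_left _ _)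
      have h6 : ((ds.map (dterm P c (2 ^ m) pl)).sum : ℕ) * a - (M.cent P r i pl t).mean - y ≤ tl pl ds :=
        le_trans (sub_le_sub_right (le_abs_self _) _) (le_max_left _ _)
      have h7 : (cjunc P q : ℝ) + dist1 s (cends P q) ≤ 8 * cw c + 3 * y := by
        have k1 := hok.cjunc_le hP (by rw [gsp_pow hP hm]; positivity) s
        have k2 := dist1_om hc.two_dvd hs hs'
        have k3 : ((((List.range P.b).map fun j => cw (pc q j)).sum : ℕ) : ℝ) ≤ y := by
          rw [hy, le_div_iff₀ (by positivity)]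
          exact_mod_cast hok.sum_cw hP
        have k4 : 2 * (gsp P (2 ^ m) : ℝ) ≤ y := by
          rw [hy, le_div_iff₀ (by positivity), gsp_pow hP hm, Nat.cast_pow, Nat.cast_ofNat, ← pow_succ', ← pow_add]
          exact pow_le_pow_right₀ one_le_two (by omega)
        have k5 : (cjunc P q : ℝ) + dist1 s (cends P q) ≤ 8 * cw c + 2 * (gsp P (2 ^ m) : ℝ) +
            2 * ((((List.range P.b).map fun j => cw (pc q j)).sum : ℕ) : ℝ) := by
          exact_mod_cast k1.trans (by omega)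
        linarith
      have h8 := (avgK_tail hP (M.cent P r i q t)
        ((cent_valid h (vs h (by omega) ht) hok).mono fun v hv => hv.2)).1
      rw [Option.elim_some, E_map]
      refine (E_mono' _ (g := fun v : ℕ => max ((v : ℝ) - (M.cent P r i q t).mean - y) 0 + (tl q ds + tl pl ds))
        fun v => ?_).trans ?_
      · have h9 : 0 ≤ tl q ds := le_max_right _ _
        have h10 := le_max_left ((v : ℝ) - (M.cent P r i q t).mean - y) 0
        have h11 := le_max_right ((v : ℝ) - (M.cent P r i q t).mean - y) 0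
        simp only [Option.elim_some, hval]
        push_cast
        exact max_le (by linarith) (by linarith)
      · rw [E_add, E_const]
        linarith
  · rw [E_add, E_const, E_mul_left, hinta_E_sum]
    have h1 := List.sum_le_card_nsmul ((pls.filterMap id).map fun p => (M.draws P r i c (2 ^ m) t).E (tl p))
      (2 ^ m / 2 ^ (4 * P.kg)) fun v hv => by
        obtain ⟨q, hq, rfl⟩ := List.mem_map.1 hv
        obtain ⟨hu, s', -, hok⟩ := hp q ((hmem q).1 hq)
        exact draws_tail h hr hrH ht hm hj hσ hu (hσ ▸ hok)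
    have h2 : (((pls.filterMap id).length : ℕ) : ℝ) ≤ 2 ^ (2 * P.kg + 4) := by
      exact_mod_cast ((List.length_filterMap_le _ _).trans hl).trans (hc.length_om hP)
    rw [List.length_map, nsmul_eq_mul] at h1
    have h3 := h1.trans (mul_le_mul_of_nonneg_right h2 (by positivity))
    have h4 : (2 : ℝ) * (2 ^ (2 * P.kg + 4) * (2 ^ m / 2 ^ (4 * P.kg))) ≤ tau P * 2 ^ m := by
      rw [tau, ← mul_assoc, mul_div_assoc', one_div_mul_eq_div, div_le_div_iff₀ (by positivity) (by positivity),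
        ← pow_succ', ← pow_add, ← pow_add, ← pow_add]
      exact pow_le_pow_right₀ one_le_two (by omega)
    linarith

end Model

end Crest.Agent.R288
end

-- ▼ part PVb/R288/HintB

/-!
# R288: the loss caused by the inflation
-/

set_option autoImplicit false

namespace Crest.Agent.R288

open RT

namespace Model

variable {M : Model} {P : Par} {r i : ℕ} {s : ℤ × ℤ} {c : Ctx} {j m φ yh : ℕ} {pl : Plan}
  {pls : List (Option Plan)}

theorem hintb_par (hP : Good P) :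
    P.kx = 4 * P.ka ∧ 14 ≤ 2 * P.ka ∧ P.kx + P.L + 2 ≤ P.kg ∧ P.kT ≤ P.kR := by
  obtain ⟨-, h2, h3, -, -, -, h7⟩ := geo_par hP
  have h1 : P.kx = 4 * P.ka := by unfold Par.kx; rfl
  have h4 : P.ka = 10 * P.jj := by unfold Par.ka; rfl
  have := hP.big
  have := hP.kT_add
  have := hP.ll_kR
  omega

theorem hintb_g (hP : Good P) (hm : P.kg ≤ m) : 0 < gsp P (2 ^ m) ∧ 4 * gsp P (2 ^ m) ≤ 2 ^ m := by
  rw [gsp_pow hP hm]
  refine ⟨by positivity, ?_⟩
  calc 4 * 2 ^ (m - P.kg) = 2 ^ (m - P.kg + 2) := by rw [pow_add]; ring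
    _ ≤ 2 ^ m := Nat.pow_le_pow_right (by norm_num) (by have := hintb_par hP; omega)

theorem hintb_hval (h : M.Ok P) (hr : 1 ≤ r) (hrH : r ≤ P.H) {t : ℕ} (ht : P.T0 < t) (hm : P.kg ≤ m)
    (hc : M.Cert P r i c) (hs : s ∈ om c) (hσ : sclC P c j = 2 ^ m) (hp : M.PlsOk P r i c j pls)
    (hpl : some pl ∈ pls) :
    (M.hintj P r i c j pls t).All fun oh => ∃ g, oh = some g ∧ hval s g ≤ 2 * 2 ^ m + 8 * cw c := by
  refine (hintj_valid h hr (vs h (by omega) ht) hp).mono fun oh ⟨h1, h2⟩ => ?_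
  obtain ⟨g, rfl⟩ := Option.ne_none_iff_exists'.1 (h1 ⟨pl, hpl⟩)
  obtain ⟨-, pl', hpl', e1, e2⟩ := h2 g rfl
  obtain ⟨-, s', hs', hok⟩ := hp pl' hpl'
  rw [hσ] at hok e2
  obtain ⟨g0, g1⟩ := hintb_g h.good hm
  have a1 := hok.cjunc_le h.good g0 s
  have a2 := dist1_om hc.two_dvd hs hs'
  have a4 : 2 ^ 2 ≤ 2 ^ P.kx := Nat.pow_le_pow_right (by norm_num) (plana_kx h.good)
  have a5 := le_trans (Nat.mul_le_mul_left _ a4) (hok.sum_cw h.good)
  refine ⟨g, rfl, ?_⟩
  unfold hval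
  rw [e1]
  omega

theorem hintb_max {X J H y : ℕ} {z : ℝ} (h1 : (X : ℝ) + J ≤ z) (h2 : (H : ℝ) - y ≤ z) :
    ((max (X + J) (H - y) : ℕ) : ℝ) ≤ z := by
  rcases le_total (X + J) (H - y) with h | h
  · rw [max_eq_right h]
    rcases le_total H y with h' | h'
    · rw [Nat.sub_eq_zero_of_le h', Nat.cast_zero]
      exact le_trans (by positivity) h1
    · rw [Nat.cast_sub h']; exact h2
  · rw [max_eq_left h, Nat.cast_add]; exact h1

theorem hintb_lo (h : M.SB P r i s m φ pl) {t : ℕ} (ht : P.T0 < t) {A B : ℕ → ℝ} {a d : ℝ} (ha : 0 ≤ a)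
    (hw : ∀ j < P.b, ∀ s' ∈ om (pc pl j), A j ≤ M.W (r - 1) (i * P.b + j) s' (some (pc pl j)) t +
      (B j / d + a * cw (pc pl j) + 1)) :
    ((List.range P.b).map A).sum ≤ (M.sroot P r i pl t).mean + ((List.range P.b).map B).sum / d +
      (a + 1) * (2 ^ m / 2 ^ P.kx) := by
  have hP := h.ok.good
  have hr' : r - 1 ≤ P.H := by have := h.rH; omega
  have a1 := (sn_range h.ok h.r1 h.rH h.plan ht
    (lo := fun j => A j - (B j / d + a * cw (pc pl j) + 1)) (hi := fun j => cap P (pc pl j))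
    (fun j hj s' hs' => ⟨by linarith [hw j hj s' hs'],
      (W_some_bounds h.ok hr' (h.plan.cert j hj) hs' ht).2⟩) (h.plan.nodeOk_root hP)).1
  rw [blk_top, ← hP.b_eq] at a1
  have e : ∀ n, ((List.range n).map fun j => A j - (B j / d + a * cw (pc pl j) + 1)).sum =
      ((List.range n).map A).sum - (((List.range n).map B).sum / d +
        a * (((List.range n).map fun j => cw (pc pl j)).sum : ℕ) + n) := by
    intro n
    induction n with
    | zero => simp
    | succ n ih =>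
      simp only [List.range_succ, List.map_append, List.sum_append, ih, List.map_cons, List.map_nil,
        List.sum_cons, List.sum_nil]
      push_cast
      ring
  rw [e] at a1
  have a2 : ((((List.range P.b).map fun j => cw (pc pl j)).sum : ℕ) : ℝ) ≤ 2 ^ m / 2 ^ P.kx := by
    rw [le_div_iff₀ (by positivity)]
    exact_mod_cast h.plan.sum_cw hP
  have a3 : (P.b : ℝ) ≤ 2 ^ m / 2 ^ P.kx := by
    rw [le_div_iff₀ (by positivity), hP.b_eq]
    push_cast
    rw [← pow_add]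
    exact pow_le_pow_right₀ (by norm_num) (by have := hintb_par hP; have := h.lo; omega)
  have a4 := mul_le_mul_of_nonneg_left a2 ha
  unfold sroot
  linarith

theorem hintb_sum {e : ℕ → ℝ} {E : ℝ} {p : ℕ → Prop} [DecidablePred p] {n : ℕ} (hE : 0 ≤ E)
    (h1 : ∀ k < n, e k ≤ E) (h2 : ∀ k, k + 1 < n → ¬ p k → e (k + 1) ≤ 0) :
    ∑ k ∈ Finset.range n, e k ≤ (1 + ((Finset.range (n - 1)).filter p).card) * E := by
  rcases n with _ | n
  · simp only [Finset.range_zero, Finset.sum_empty]; positivity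
  rw [Finset.sum_range_succ', Nat.add_sub_cancel]
  have a1 : ∑ k ∈ Finset.range n, e (k + 1) ≤ ∑ k ∈ Finset.range n, if p k then E else 0 :=
    Finset.sum_le_sum fun k hk => by
      have := Finset.mem_range.1 hk
      split_ifs with hp
      · exact h1 _ (by omega)
      · exact h2 _ (by omega) hp
  rw [← Finset.sum_filter, Finset.sum_const, nsmul_eq_mul] at a1
  have := h1 0 (by omega)
  linarith

theorem hintb_e1 {D τ σ x mb S Z w y U μ : ℝ} (hD : 16384 ≤ D) (hτ : 0 ≤ τ) (hx : 8 ≤ x)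
    (hτx : τ * σ ≤ x / 2) (hmb : 0 ≤ mb) (h2 : mb ≤ σ) (hZ : S - mb ≤ Z) (hw : 0 ≤ w)
    (hy : (1 - τ) * mb / D - 3 + 16 * w ≤ y) (hU : U ≤ μ + S / D + 25 * x) :
    U - μ + 8 * w + 7 * x + 1 - y ≤ Z / D + 33 * x := by
  have a1 : (S - mb) / D ≤ Z / D := div_le_div_of_nonneg_right hZ (by linarith)
  have a2 : τ * mb / D ≤ τ * mb := div_le_self (by positivity) (by linarith)
  have a3 : τ * mb ≤ τ * σ := mul_le_mul_of_nonneg_left h2 hτ
  have a4 : S / D - (1 - τ) * mb / D = (S - mb) / D + τ * mb / D := by ring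
  linarith

theorem hintb_e2 {D τ σ x mb w y U μ μ' : ℝ} (hD : 16384 ≤ D) (hτ : 0 ≤ τ) (hτ2 : τ ≤ 1 / 2)
    (hx : 8 ≤ x) (hx' : x = σ / D / D) (h1 : σ ≤ 128 * (mb + 8 * w + 1)) (hw : 0 ≤ w)
    (hy : (1 - τ) * mb / D - 3 + 16 * w ≤ y) (hU : U ≤ μ + 9 * x) (hμ : μ - μ' ≤ σ / D / 512) :
    U - μ' + 8 * w + 7 * x + 1 - y ≤ 0 := by
  have hD0 : 0 < D := by linarith
  have a0 : σ / D = x * D := by rw [hx']; field_simp
  have a1 : x * 16384 ≤ σ / D := by rw [a0]; exact mul_le_mul_of_nonneg_left hD (by linarith)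
  have a2 : (1 - τ) * (σ / 128 - (8 * w + 1)) / D ≤ (1 - τ) * mb / D :=
    div_le_div_of_nonneg_right (mul_le_mul_of_nonneg_left (by linarith) (by linarith)) hD0.le
  have a3 : (1 - τ) * (σ / 128 - (8 * w + 1)) / D =
      (1 - τ) * (σ / D) / 128 - (1 - τ) * (8 * w + 1) / D := by ring
  have a4 : (1 - τ) * (8 * w + 1) / D ≤ (1 - τ) * (8 * w + 1) :=
    div_le_self (mul_nonneg (by linarith) (by linarith)) (by linarith)
  have a5 : (1 - τ) * (8 * w + 1) ≤ 1 * (8 * w + 1) :=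
    mul_le_mul_of_nonneg_right (by linarith) (by linarith)
  have a6 : 1 / 2 * (σ / D) ≤ (1 - τ) * (σ / D) :=
    mul_le_mul_of_nonneg_right (by linarith) (by linarith)
  linarith

theorem hintb_e3 {D σ Z N : ℝ} (hD : 16384 ≤ D) (hσ : 0 < σ) (hZ : 0 ≤ Z) (hN0 : 0 ≤ N)
    (hN : N * (σ / D / 512) ≤ 2 * σ) :
    (1 + N) * (Z / D + 33 * (σ / D / D)) ≤ 1025 * Z + 40000 * σ / D := by
  have hD0 : 0 < D := by linarith
  have a1 : N ≤ 1024 * D := by
    have : N * (σ / D / 512) ≤ 1024 * D * (σ / D / 512) := by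
      rw [show 1024 * D * (σ / D / 512) = 2 * σ by field_simp; ring]; exact hN
    exact le_of_mul_le_mul_right this (by positivity)
  have a2 : (1 + N) * (Z / D + 33 * (σ / D / D)) ≤ 1025 * D * (Z / D + 33 * (σ / D / D)) :=
    mul_le_mul_of_nonneg_right (by linarith) (by positivity)
  have a3 : 1025 * D * (Z / D + 33 * (σ / D / D)) = 1025 * Z + 33825 * (σ / D) := by
    field_simp; ring
  have a4 : 0 ≤ σ / D := by positivity
  rw [mul_div_assoc]
  linarith

/-- Crude bound: `X + junc ≤ σ + 2g` and `hval - yh ≤ σ + 2g + 2xσ` by `hintj_valid`, `cjunc_le`, `dist1_om`. -/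
theorem infl_le (h : M.Ok P) (hr : 1 ≤ r) (hrH : r ≤ P.H) {t : ℕ} (ht : P.T0 < t) (hm : P.kg ≤ m)
    (hc : M.Cert P r i c) (hs : s ∈ om c) (hσ : sclC P c j = 2 ^ m) (hp : M.PlsOk P r i c j pls)
    (hpl : some pl ∈ pls) (hown : M.PlanOk P r i s (2 ^ m) pl) (hy : 16 * cw c ≤ yh) :
    M.infl P r i s c j yh pls pl t ≤ 2 * 2 ^ m := by
  unfold infl
  refine E_le ((hintb_hval h hr hrH ht hm hc hs hσ hp hpl).mono ?_)
  rintro _ ⟨g, rfl, hg⟩
  refine E_le ((All_avg_le ((sroot_valid h hr hrH ht (vs h (by omega) ht) hown).mono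
    fun v hv => hv.1) _).mono fun X hX => ?_)
  obtain ⟨g0, g1⟩ := hintb_g h.good hm
  have hJ := hown.junc_le g0
  have : max (X + junc P pl s.1 s.2) (hval s g - yh) ≤ 2 * 2 ^ m := by omega
  simp only [Option.elim]
  exact_mod_cast this

/-- Small scales: `σ ≤ w`, so the static hint is below `yh`. -/
theorem infl_static (h : M.Ok P) (hr : 1 ≤ r) (hrH : r ≤ P.H) {t : ℕ} (ht : P.T0 < t) (hm : P.kg ≤ m)
    (hc : M.Cert P r i c) (hs : s ∈ om c) (hj : j < P.kg) (hσ : sclC P c j = 2 ^ m)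
    (hp : M.PlsOk P r i c j pls) (hpl : some pl ∈ pls) (hown : M.PlanOk P r i s (2 ^ m) pl)
    (hy : 16 * cw c ≤ yh) :
    M.infl P r i s c j yh pls pl t ≤ (M.sroot P r i pl t).mean + 2 * gsp P (2 ^ m) := by
  unfold infl
  refine E_le ((hintb_hval h hr hrH ht hm hc hs hσ hp hpl).mono ?_)
  rintro _ ⟨g, rfl, hg⟩
  obtain ⟨g0, -⟩ := hintb_g h.good hm
  have hJ := hown.junc_le g0
  have hw := sclC_le h.good c hj.le
  rw [hσ] at hw
  calc _ ≤ ((M.sroot P r i pl t).avg P.kK).E fun X => (X : ℝ) + 2 * gsp P (2 ^ m) := by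
        refine E_mono' _ fun X => ?_
        have : max (X + junc P pl s.1 s.2) (hval s g - yh) ≤ X + 2 * gsp P (2 ^ m) := by omega
        simp only [Option.elim]
        exact_mod_cast this
    _ ≤ _ := by
        rw [E_add, E_const]
        have : (((M.sroot P r i pl t).avg P.kK).E fun X => (X : ℝ)) ≤ (M.sroot P r i pl t).mean :=
          mean_avg_le _ _
        linarith

/-- `max (X + J) (H - yh) ≤ X + J + (H - U - 8w - 6xσ)⁺ + (μ - X - xσ - 1)⁺ + (U - μ + 8w + 7xσ + 1 - yh)⁺`. -/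
theorem infl_dyn (h : M.Ok P) (hr : 1 ≤ r) (hrH : r ≤ P.H) {t : ℕ} (ht : P.T0 < t) (hm : P.kg ≤ m)
    (hc : M.Cert P r i c) (hs : s ∈ om c) (hj : P.kg ≤ j) (hσ : sclC P c j = 2 ^ m)
    (hl : pls.length ≤ (om c).length) (hp : M.PlsOk P r i c j pls) (hpl : some pl ∈ pls)
    (hown : M.PlanOk P r i s (2 ^ m) pl) :
    M.infl P r i s c j yh pls pl t ≤ (M.sroot P r i pl t).mean + 2 * gsp P (2 ^ m) +
      3 * tau P * 2 ^ m + max ((M.cent P r i pl t).mean - (M.sroot P r i pl t).mean + 8 * cw c +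
        7 * (2 ^ m / 2 ^ P.kx) + 1 - yh) 0 := by
  have hT := hint_tail h hr hrH ht hm hc hs hj hσ hl hp hpl
  have hA := (avgK_tail h.good (M.sroot P r i pl t) (m := m)
    ((sroot_valid h hr hrH ht (vs h (by omega) ht) hown).mono fun v hv => hv.1)).2
  have hX : (((M.sroot P r i pl t).avg P.kK).E fun X => (X : ℝ)) ≤ (M.sroot P r i pl t).mean :=
    mean_avg_le _ _
  have hv := hintb_hval h hr hrH ht hm hc hs hσ hp hpl
  obtain ⟨g0, -⟩ := hintb_g h.good hm
  have hJ : (junc P pl s.1 s.2 : ℝ) ≤ 2 * gsp P (2 ^ m) := by exact_mod_cast hown.junc_le g0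
  have e : M.hintj P r i c j pls t = M.hint P r i c (2 ^ m) pls t := by
    unfold hintj; rw [if_neg (by omega), hσ]
  unfold infl
  rw [e] at hv ⊢
  generalize (M.sroot P r i pl t).mean = μ at *
  generalize (M.cent P r i pl t).mean = U at *
  generalize (2 : ℝ) ^ m / 2 ^ P.kx = x at *
  have hC := le_max_left (U - μ + 8 * cw c + 7 * x + 1 - yh) 0
  have hC0 := le_max_right (U - μ + 8 * cw c + 7 * x + 1 - yh) 0
  generalize max (U - μ + 8 * cw c + 7 * x + 1 - yh) 0 = C at *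
  calc _ ≤ (M.hint P r i c (2 ^ m) pls t).E fun oh => (oh.elim 0 fun g =>
          max ((hval s g : ℝ) - U - 8 * cw c - 6 * x) 0) +
          (μ + 2 * gsp P (2 ^ m) + tau P * 2 ^ m + C) := by
        refine E_mono (hv.mono ?_)
        rintro _ ⟨g, rfl, -⟩
        simp only [Option.elim]
        have hD := le_max_left ((hval s g : ℝ) - U - 8 * cw c - 6 * x) 0
        have hD0 := le_max_right ((hval s g : ℝ) - U - 8 * cw c - 6 * x) 0
        generalize max ((hval s g : ℝ) - U - 8 * cw c - 6 * x) 0 = D at *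
        calc _ ≤ ((M.sroot P r i pl t).avg P.kK).E fun X =>
              ((X : ℝ) + max (μ - X - (x + 1)) 0) + (2 * gsp P (2 ^ m) + D + C) := by
              refine E_mono' _ fun X => ?_
              have b1 := le_max_left (μ - X - (x + 1)) 0
              have b2 := le_max_right (μ - X - (x + 1)) 0
              exact hintb_max (by linarith) (by linarith)
          _ ≤ _ := by rw [E_add, E_add, E_const]; linarith
    _ ≤ _ := by rw [E_add, E_const]; linarith

/-- `sn_range` with `lo j = W(centre j) - (mbar j / 2^(2ka) + 24 w j + 1)` (`W_some_lip`). -/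
theorem SB.cent_le (h : M.SB P r i s m φ pl) {k : ℕ} (hk : k < P.T0) :
    (M.cent P r i pl (rd0 P φ k)).mean ≤ (M.sroot P r i pl (rd0 P φ k)).mean +
      ((List.range P.b).map fun j => M.mbar P (r - 1) (i * P.b + j) (pc pl j) φ).sum / 2 ^ (2 * P.ka) +
      25 * (2 ^ m / 2 ^ P.kx) := by
  have ht := T0_lt_rd0 (P := P) h.φ1 k
  have hr' : r - 1 ≤ P.H := by have := h.rH; omega
  have := hintb_lo h ht (a := 24) (d := 2 ^ (2 * P.ka)) (by norm_num)
    (A := fun j => M.W (r - 1) (i * P.b + j) ((pc pl j).1, (pc pl j).2.1) (some (pc pl j)) (rd0 P φ k))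
    (B := fun j => M.mbar P (r - 1) (i * P.b + j) (pc pl j) φ) fun j hj s' hs' => by
      have := W_some_lip h.ok hr' (h.plan.cert j hj) (center_mem_om _) hs' ht
      rwa [phs_rd0 φ hk] at this
  rw [mean_cent]
  linarith

/-- `sn_range` with `lo j = W(centre j, k + 1) - (8 w j + 1)` (`W_some_le_some`). -/
theorem SB.cent_succ_le (h : M.SB P r i s m φ pl) {k : ℕ} (hk : k + 1 < P.T0) :
    (M.cent P r i pl (rd0 P φ (k + 1))).mean ≤ (M.sroot P r i pl (rd0 P φ k)).mean +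
      9 * (2 ^ m / 2 ^ P.kx) := by
  have ht := T0_lt_rd0 (P := P) h.φ1 k
  have hr' : r - 1 ≤ P.H := by have := h.rH; omega
  have := hintb_lo h ht (a := 8) (d := 1) (by norm_num)
    (A := fun j => M.W (r - 1) (i * P.b + j) ((pc pl j).1, (pc pl j).2.1) (some (pc pl j))
      (rd0 P φ (k + 1)))
    (B := fun _ => 0) fun j hj s' hs' => by
      have a1 := W_some_le_some h.ok hr' (h.plan.cert j hj) (center_mem_om _) hs' h.φ1 hk
      have a2 : (dist1 ((pc pl j).1, (pc pl j).2.1) s' : ℝ) ≤ 8 * cw (pc pl j) := by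
        exact_mod_cast dist1_om (h.plan.cert j hj).two_dvd (center_mem_om _) hs'
      simp only [zero_div]
      linarith
  rw [mean_cent]
  simp only [List.map_const', List.sum_replicate, smul_zero, zero_div] at this
  linarith

/-- An almost decreasing sequence has few large drops. -/
theorem card_drops {μ : ℕ → ℝ} {B a y : ℝ} {n : ℕ} (ha : 0 ≤ a) (hy : 0 < y) (hB : 0 ≤ B)
    (h0 : ∀ k < n, 0 ≤ μ k ∧ μ k ≤ B) (h : ∀ k, k + 1 < n → μ (k + 1) ≤ μ k + a) :
    (((Finset.range (n - 1)).filter fun k => y < μ k - μ (k + 1)).card : ℝ) * y ≤ B + n * a := by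
  rcases n with _ | n
  · simpa using hB
  have e : ∑ k ∈ Finset.range n, (μ k - μ (k + 1) + a) = μ 0 - μ n + n * a := by
    rw [Finset.sum_add_distrib, Finset.sum_range_sub', Finset.sum_const, Finset.card_range, nsmul_eq_mul]
  have a1 := (h0 0 (by omega)).2
  have a2 := (h0 n (by omega)).1
  simp only [Nat.add_sub_cancel]
  calc _ = ∑ _k ∈ (Finset.range n).filter fun k => y < μ k - μ (k + 1), y := by
        rw [Finset.sum_const, nsmul_eq_mul]
    _ ≤ ∑ k ∈ (Finset.range n).filter fun k => y < μ k - μ (k + 1), (μ k - μ (k + 1) + a) :=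
        Finset.sum_le_sum fun k hk => by have := (Finset.mem_filter.1 hk).2; linarith
    _ ≤ ∑ k ∈ Finset.range n, (μ k - μ (k + 1) + a) :=
        Finset.sum_le_sum_of_subset_of_nonneg (Finset.filter_subset _ _) fun k hk _ => by
          have := h k (by have := Finset.mem_range.1 hk; omega); linarith
    _ ≤ _ := by rw [e]; push_cast; linarith

/-- Static case by `infl_static`.  Dynamic case: the excess of every round is at most
`E1 = (∑ m_j - mbar)⁺ / 2^(2ka) + 33 xσ` (`cent_le`), and the excess of round `k + 1` vanishes unless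
`μ k - μ (k+1) > y' = σ / (512 · 2^(2ka))` (`cent_succ_le`); this happens at most `1024 · 2^(2ka)` times
(`card_drops`, `SB.mono`, `T0 ≤ 2^kR`). -/
theorem SB.infl_sum (h : M.SB P r i s m φ pl) (hc : M.Cert P r i c) (hs : s ∈ om c)
    (hσ : sclC P c j = 2 ^ m) (hl : pls.length ≤ (om c).length) (hp : M.PlsOk P r i c j pls)
    (hpl : some pl ∈ pls) (hy : 16 * cw c ≤ yh)
    (hy' : (1 - tau P) * M.mbar P r i c φ / 2 ^ (2 * P.ka) - 3 + 16 * cw c ≤ yh)
    (h1 : (2 : ℝ) ^ m ≤ 128 * (M.mbar P r i c φ + 8 * cw c + 1)) (h2 : M.mbar P r i c φ ≤ 2 ^ m) :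
    ∑ k ∈ Finset.range P.T0, M.infl P r i s c j yh pls pl (rd0 P φ k) ≤
      ∑ k ∈ Finset.range P.T0, (M.sroot P r i pl (rd0 P φ k)).mean +
        P.T0 * (2 * gsp P (2 ^ m) + 3 * tau P * 2 ^ m) +
        1025 * max (((List.range P.b).map fun j => M.mbar P (r - 1) (i * P.b + j) (pc pl j) φ).sum -
          M.mbar P r i c φ) 0 + 40000 * 2 ^ m / 2 ^ (2 * P.ka) := by
  have hP := h.ok.good
  have hm : P.kg ≤ m := by have := h.lo; omega
  have hτ0 : 0 ≤ tau P := by unfold tau; positivity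
  have hcst : ∀ z : ℝ, ∑ _k ∈ Finset.range P.T0, z = P.T0 * z := fun z => by
    rw [Finset.sum_const, Finset.card_range, nsmul_eq_mul]
  generalize hS : ((List.range P.b).map fun j => M.mbar P (r - 1) (i * P.b + j) (pc pl j) φ).sum = S
  have hZ := le_max_left (S - M.mbar P r i c φ) 0
  have hZ0 := le_max_right (S - M.mbar P r i c φ) 0
  generalize max (S - M.mbar P r i c φ) 0 = Z at *
  rw [← hcst, ← Finset.sum_add_distrib]
  rcases lt_or_ge j P.kg with hj | hj
  · have a1 : (0 : ℝ) ≤ 40000 * 2 ^ m / 2 ^ (2 * P.ka) := by positivity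
    have a2 : (0 : ℝ) ≤ 3 * tau P * 2 ^ m := by positivity
    have : ∑ k ∈ Finset.range P.T0, M.infl P r i s c j yh pls pl (rd0 P φ k) ≤
        ∑ k ∈ Finset.range P.T0, ((M.sroot P r i pl (rd0 P φ k)).mean +
          (2 * gsp P (2 ^ m) + 3 * tau P * 2 ^ m)) := Finset.sum_le_sum fun k _ => by
      have := infl_static h.ok h.r1 h.rH (T0_lt_rd0 h.φ1 k) hm hc hs hj hσ hp hpl h.plan hy
      linarith
    linarith
  obtain ⟨p1, p2, p3, p4⟩ := hintb_par hP
  have hmb0 := mbar_nonneg (M := M) (P := P) r i c φ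
  generalize M.mbar P r i c φ = mb at *
  -- the numbers
  have hD : (16384 : ℝ) ≤ 2 ^ (2 * P.ka) := by
    calc (16384 : ℝ) = 2 ^ 14 := by norm_num
      _ ≤ _ := pow_le_pow_right₀ (by norm_num) p2
  have hx : (2 : ℝ) ^ m / 2 ^ P.kx = 2 ^ m / 2 ^ (2 * P.ka) / 2 ^ (2 * P.ka) := by
    rw [div_div, ← pow_add]; congr 2; omega
  have hx8 : (8 : ℝ) ≤ 2 ^ m / 2 ^ P.kx := by
    rw [le_div_iff₀ (by positivity)]
    calc (8 : ℝ) * 2 ^ P.kx = 2 ^ (P.kx + 3) := by rw [pow_add]; ring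
      _ ≤ _ := pow_le_pow_right₀ (by norm_num) (by have := h.lo; omega)
  have hτx : tau P * 2 ^ m ≤ 2 ^ m / 2 ^ P.kx / 2 := by
    unfold tau
    rw [div_div, ← pow_succ, one_div_mul_eq_div]
    exact div_le_div_of_nonneg_left (by positivity) (by positivity)
      (pow_le_pow_right₀ (by norm_num) (by omega))
  have hτ2 : tau P ≤ 1 / 2 := by
    unfold tau
    exact div_le_div_of_nonneg_left (by positivity) (by positivity)
      (by simpa using pow_le_pow_right₀ (a := (2 : ℝ)) (by norm_num) (show 1 ≤ P.kg by omega))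
  -- the drops
  have hT : (P.T0 : ℝ) * (omg P pl P.L 0 / 2 ^ P.kR) ≤ 2 ^ m := by
    have a1 : omg P pl P.L 0 ≤ 2 ^ m :=
      le_trans (Nat.le_mul_of_pos_right _ (by positivity)) (h.plan.omg_le hP le_rfl (by positivity))
    have a2 : P.T0 ≤ 2 ^ P.kR := by rw [hP.T0_eq]; exact Nat.pow_le_pow_right (by norm_num) p4
    have a3 : (P.T0 : ℝ) * omg P pl P.L 0 ≤ 2 ^ P.kR * 2 ^ m := by exact_mod_cast Nat.mul_le_mul a2 a1
    rw [← mul_div_assoc, div_le_iff₀ (by positivity)]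
    linarith
  have hcard := card_drops (μ := fun k => (M.sroot P r i pl (rd0 P φ k)).mean) (B := 2 ^ m)
    (a := omg P pl P.L 0 / 2 ^ P.kR) (y := 2 ^ m / 2 ^ (2 * P.ka) / 512) (n := P.T0)
    (by positivity) (by positivity) (by positivity)
    (fun k _ => ⟨mean_nonneg _, E_le ((sroot_valid h.ok h.r1 h.rH (T0_lt_rd0 h.φ1 k)
      (vs h.ok (by have := h.rH; omega) (T0_lt_rd0 h.φ1 k)) h.plan).mono fun v hv => by
        exact_mod_cast hv.1)⟩)
    (fun k hk => h.mono hk (h.plan.nodeOk_root hP))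
  have hE := hintb_sum (n := P.T0)
    (e := fun k => max ((M.cent P r i pl (rd0 P φ k)).mean - (M.sroot P r i pl (rd0 P φ k)).mean +
      8 * cw c + 7 * (2 ^ m / 2 ^ P.kx) + 1 - yh) 0)
    (E := Z / 2 ^ (2 * P.ka) + 33 * (2 ^ m / 2 ^ P.kx))
    (p := fun k => (2 : ℝ) ^ m / 2 ^ (2 * P.ka) / 512 < (M.sroot P r i pl (rd0 P φ k)).mean -
      (M.sroot P r i pl (rd0 P φ (k + 1))).mean)
    (by positivity)
    (fun k hk => by
      have a1 := h.cent_le hk
      rw [hS] at a1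
      refine max_le ?_ (by positivity)
      exact hintb_e1 hD hτ0 hx8 hτx hmb0 h2 hZ (Nat.cast_nonneg _) hy' a1)
    (fun k hk hp' => by
      have a1 := h.cent_succ_le hk
      refine max_le ?_ le_rfl
      exact hintb_e2 hD hτ0 hτ2 hx8 hx h1 (Nat.cast_nonneg _) hy' a1 (not_lt.1 hp'))
  have hfin := hintb_e3 (σ := 2 ^ m) hD (by positivity) hZ0 (Nat.cast_nonneg _)
    (le_trans hcard (by linarith))
  rw [← hx] at hfin
  have : ∑ k ∈ Finset.range P.T0, M.infl P r i s c j yh pls pl (rd0 P φ k) ≤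
      ∑ k ∈ Finset.range P.T0, (((M.sroot P r i pl (rd0 P φ k)).mean +
        (2 * gsp P (2 ^ m) + 3 * tau P * 2 ^ m)) +
        max ((M.cent P r i pl (rd0 P φ k)).mean - (M.sroot P r i pl (rd0 P φ k)).mean +
          8 * cw c + 7 * (2 ^ m / 2 ^ P.kx) + 1 - yh) 0) := Finset.sum_le_sum fun k _ => by
    have := infl_dyn (yh := yh) h.ok h.r1 h.rH (T0_lt_rd0 h.φ1 k) hm hc hs hj hσ hl hp hpl h.plan
    linarith
  rw [Finset.sum_add_distrib] at this
  linarith

end Model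

end Crest.Agent.R288
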