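import Crest.Agent.PVb.R288.IndA
import Crest.Agent.PVb.R288.HintB_Mg
import Crest.Agent.PVb.R288.IndX

-- ▼ part PVb/R288/IndS
section

/-!
# R288: the main induction, regular blocks
-/

set_option autoImplicit false

namespace Crest.Agent.R288

open RT

namespace Model

variable {M : Model} {P : Par} {r i : ℕ} {s : ℤ × ℤ} {m φ : ℕ} {Λ : ℝ} {z : ℕ → ℤ}

theorem inds_cast (n : ℕ) (f : ℕ → ℕ) :
    ((((List.range n).map f).sum : ℕ) : ℝ) = ∑ k ∈ Finset.range n, (f k : ℝ) := by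
  rw [Nat.cast_list_sum, List.map_map, hinta_range]
  rfl

theorem inds_cE (P : Par) : 0 ≤ cE P := by unfold cE; positivity

theorem inds_tau (P : Par) : 0 ≤ tau P := by unfold tau; positivity

theorem inds_sum_le {n : ℕ} {f : ℕ → ℝ} {B : ℝ} (h : ∀ k < n, f k ≤ B) :
    ∑ k ∈ Finset.range n, f k ≤ n * B := by
  have := Finset.sum_le_card_nsmul (Finset.range n) f B fun k hk => h k (Finset.mem_range.1 hk)
  rwa [Finset.card_range, nsmul_eq_mul] at this

theorem Blk.inds_event (h : M.Blk P r i s m φ Λ z) {c : Option Ctx} (hc : M.Adm P r i s c) {α : Type}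
    {t : RT α} {f : α → ℝ} {p : α → Prop}
    (hf : t.All fun a => (p a → f a ≤ M.Bnd P φ Λ r i s c -
      64 * (P.T0 * (tau P * (2 ^ P.kR * M.Fr P r i s)))) ∧ f a ≤ P.T0 * (64 * (2 ^ P.kR * M.Fr P r i s)))
    (hp : (t.P fun a => ¬ p a) ≤ tau P) : t.E f ≤ M.Bnd P φ Λ r i s c := by
  have hη : 0 ≤ eta P := by unfold eta; positivity
  have hτ := inds_tau P
  have h1 := le_Bnd h.ok h.rH (by linarith [h.Λ1]) h.ratio hc
  have h2 := h.tiny
  have h3 : rho P ≤ 1 := by
    unfold rho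
    rw [div_le_one (by positivity)]
    exact one_le_pow₀ (by norm_num)
  have h4 : 1 ≤ lam0 P Λ := le_trans (by linarith) (le_max_right _ _)
  have p0 : (0 : ℝ) ≤ P.T0 * M.Fr P r i s := by positivity
  have p1 := mul_le_mul_of_nonneg_right h3 p0
  have p2 := mul_le_mul_of_nonneg_right h4 p0
  have p3 : (0 : ℝ) ≤ P.T0 * (tau P * (c.elim 0 cw : ℕ)) := by positivity
  have p4 : (0 : ℝ) ≤ P.T0 * (tau P * 2 ^ m) := by positivity
  have p5 : (0 : ℝ) ≤ P.T0 * (tau P * (2 ^ P.kR * M.Fr P r i s)) := by positivity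
  have p6 : (0 : ℝ) ≤ cE P * gsp P (2 ^ m) := by have := inds_cE P; positivity
  have hB : (0 : ℝ) ≤ P.T0 * (64 * (2 ^ P.kR * M.Fr P r i s)) := by positivity
  have h5 := E_le_of_event hB (All_of_forall t fun _ => (by linarith :
    0 ≤ M.Bnd P φ Λ r i s c - 64 * (P.T0 * (tau P * (2 ^ P.kR * M.Fr P r i s))))) hf
  rw [E_const] at h5
  have h6 := mul_le_mul_of_nonneg_left hp hB
  linarith

theorem Blk.sb (h : M.Blk P r i s m φ Λ z) {pl : Plan} (hg : M.GoodPlan P r i s (2 ^ m) φ z (some pl)) :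
    M.SB P r i s m φ pl := by
  obtain ⟨pl', e, hpl, -, hmb⟩ := hg
  obtain rfl := Option.some.inj e
  exact ⟨h.ok, h.r1, h.rH, h.φ1, h.kg_le, h.m4, hpl, hmb⟩

/-- `SB.regret`, `ih` (contexts are admissible: `PlanOk.nice`, `PlanOk.reach_mem`), `Bnd_child`,
`TreeOk.psi_le`, `PlanOk.sum_cw`. -/
theorem Blk.sum_sroot (h : M.Blk P r i s m φ Λ z)
    (ih : ∀ i' s' c', M.Adm P (r - 1) i' s' c' → M.Sum P φ (r - 1) i' s' c' ≤ M.Bnd P φ Λ (r - 1) i' s' c')
    {pl : Plan} (hg : M.GoodPlan P r i s (2 ^ m) φ z (some pl)) :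
    ∑ k ∈ Finset.range P.T0, (M.sroot P r i pl (rd0 P φ k)).mean ≤
      Kc P Λ (r - 1) * (((List.range P.b).map (M.fch P r i z)).sum : ℕ) + P.T0 * (tau P * 2 ^ m) -
        cE P * psiR (M.Gs P r i s m φ z P.L 0) (dsp z P.L 0) -
        1025 * ((List.range P.b).map fun j => M.mbar P (r - 1) (i * P.b + j) (pc pl j) φ).sum +
        64 * P.L * P.mb * 2 ^ m / 2 ^ P.ka := by
  have hsb := h.sb hg
  obtain ⟨pl', e, hpl, hz, -⟩ := hg
  obtain rfl := Option.some.inj e
  have hP := h.ok.good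
  have hm : P.kg ≤ m := by have := h.kg_le; omega
  have h1 := hsb.regret hz h.comp.dvd (h.comp.z0.trans hpl.z0.symm)
    (by rw [hpl.zb, hP.b_eq]; exact h.comp.zb)
  have h2 : ∀ j ∈ Finset.range P.b, M.Sum P φ (r - 1) (i * P.b + j) (z j, z (j + 1)) (some (pc pl j)) ≤
      Kc P Λ (r - 1) * M.fch P r i z j + P.T0 * tau P * (cw (pc pl j) : ℕ) -
        cE P * psiR (M.Gs P r i s m φ z 0 j) (dsp z 0 j) -
        1025 * M.mbar P (r - 1) (i * P.b + j) (pc pl j) φ := by
    intro j hj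
    have hj' := Finset.mem_range.1 hj
    refine (ih _ _ _ ?_).trans (h.Bnd_child hj' (some (pc pl j)))
    intro c' hc'
    obtain rfl := Option.some.inj hc'
    exact ⟨hpl.nice hP hm hj', hpl.reach_mem hP hz h.comp.dvd hj'⟩
  have h3 := Finset.sum_le_sum h2
  simp only [Finset.sum_sub_distrib, Finset.sum_add_distrib, ← Finset.mul_sum] at h3
  have h4 := h.treeOk.psi_le (hb := P.L) (p := 0) le_rfl (by simp)
  have e4 : blk P.L 0 = List.range P.b := by
    rw [blk, hP.b_eq, zero_mul, List.range_eq_range']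
  rw [e4, hinta_range] at h4
  have h5 : (∑ j ∈ Finset.range P.b, (cw (pc pl j) : ℝ)) ≤ 2 ^ m := by
    rw [← inds_cast]
    have := hpl.sum_cw hP
    have h6 : ((List.range P.b).map fun j => cw (pc pl j)).sum ≤ 2 ^ m :=
      (Nat.le_mul_of_pos_right _ (by positivity)).trans this
    exact_mod_cast h6
  rw [hinta_range] at h1
  rw [inds_cast, hinta_range]
  have h7 := mul_le_mul_of_nonneg_left h4 (inds_cE P)
  have h8 := mul_le_mul_of_nonneg_left h5 (mul_nonneg (Nat.cast_nonneg P.T0) (inds_tau P))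
  linarith

/-- `W_none_le_plan`, `E_sum`, `E_le_of_event` (the integrand is at most `T0 · 64 R F` by `plan_valid`,
`sroot_valid`; on the good event it is at most the constant `Bnd - T0 · 64 τ R F ≥ 0`, see `le_Bnd`),
`plan_good`, `psi_root`, `slack`, `tiny`, `c1_pays`. -/
theorem Blk.case_reg_none (h : M.Blk P r i s m φ Λ z)
    (ih : ∀ i' s' c', M.Adm P (r - 1) i' s' c' → M.Sum P φ (r - 1) i' s' c' ≤ M.Bnd P φ Λ (r - 1) i' s' c')
    (hreg : Regular P (2 ^ m) (M.Gs P r i s m φ z) z) :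
    M.Sum P φ r i s none ≤ M.Bnd P φ Λ r i s none := by
  have hP := h.ok.good
  have hm : P.kg ≤ m := by have := h.kg_le; omega
  obtain ⟨hg0, hg4⟩ := hintb_g hP hm
  have hr' : r - 1 ≤ P.H := (Nat.sub_le _ _).trans h.rH
  have hσ : (2 : ℝ) ^ m ≤ 32 * (2 ^ P.kR * M.Fr P r i s) := by
    have := h.scale.2
    rw [mul_assoc] at this
    exact_mod_cast this
  have h1 : M.Sum P φ r i s none ≤ (M.plan P r i s (2 ^ m) φ).E fun o => ∑ k ∈ Finset.range P.T0,
      o.elim (2 ^ P.kR * M.Fr P r i s) fun pl =>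
        (M.sroot P r i pl (rd0 P φ k)).mean + junc P pl s.1 s.2 := by
    rw [E_sum]
    refine Finset.sum_le_sum fun k hk => ?_
    have := W_none_le_plan h.ok h.r1 h.rH h.big h.scale.1 h.scale.2 (T0_lt_rd0 h.φ1 k)
    rwa [phs_rd0 φ (Finset.mem_range.1 hk)] at this
  refine h1.trans (h.inds_event (c := none) (fun c' hc' => by simp at hc')
    (p := fun o => M.GoodPlan P r i s (2 ^ m) φ z o) ?_
    ((h.plan_good hreg).trans (by linarith [inds_tau P])))
  refine (plan_valid h.ok (fun k _ => vn h.ok hr' _) i s (2 ^ m)).mono fun o ho => ⟨fun hg => ?_, ?_⟩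
  · obtain ⟨pl, rfl⟩ : ∃ pl, o = some pl := ⟨_, hg.choose_spec.1⟩
    have h2 := h.sum_sroot ih hg
    have h3 : (junc P pl s.1 s.2 : ℝ) ≤ 2 * (gsp P (2 ^ m) : ℝ) := by
      exact_mod_cast (ho pl rfl).junc_le hg0
    have h4 := mul_le_mul_of_nonneg_left h3 (Nat.cast_nonneg (α := ℝ) P.T0)
    have h5 : 0 ≤ ((List.range P.b).map fun j => M.mbar P (r - 1) (i * P.b + j) (pc pl j) φ).sum := by
      rw [hinta_range]
      exact Finset.sum_nonneg fun j _ => mbar_nonneg _ _ _ _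
    have h6 := mul_le_mul_of_nonneg_left h.psi_root (inds_cE P)
    have h7 := h.slack
    have h8 := h.tiny
    have h9 := h.c1_pays
    have e1 := h.g_small.1
    have p1 : (0 : ℝ) ≤ 2 ^ m / (16 * P.T0) := by positivity
    have p2 : (0 : ℝ) ≤ 2 ^ m / 2 ^ P.kx := by positivity
    have p3 : (0 : ℝ) ≤ 40000 * 2 ^ m / 2 ^ (2 * P.ka) := by positivity
    have p4 : (0 : ℝ) ≤ P.T0 * (tau P * 2 ^ m) := by have := inds_tau P; positivity
    have p5 : (0 : ℝ) ≤ P.T0 * (tau P * (2 ^ P.kR * M.Fr P r i s)) := by have := inds_tau P; positivity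
    simp only [Option.elim_some, Finset.sum_add_distrib, Finset.sum_const, Finset.card_range, nsmul_eq_mul]
    rw [Bnd_eq]
    simp only [Option.elim_none, Nat.cast_zero, mul_zero]
    rw [e1] at h4 h6 h8
    linarith
  · refine inds_sum_le fun k hk => ?_
    cases o with
    | none =>
      simp only [Option.elim_none]
      have : (0 : ℝ) ≤ 2 ^ P.kR * M.Fr P r i s := by positivity
      linarith
    | some pl =>
      simp only [Option.elim_some]
      have ht := T0_lt_rd0 (P := P) h.φ1 k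
      have h2 : (M.sroot P r i pl (rd0 P φ k)).mean ≤ 2 ^ m :=
        E_le ((sroot_valid h.ok h.r1 h.rH ht (vs h.ok hr' ht) (ho pl rfl)).mono fun v hv => by
          exact_mod_cast hv.1)
      have h3 : (junc P pl s.1 s.2 : ℝ) ≤ 2 ^ m := by
        have := (ho pl rfl).junc_le hg0
        exact_mod_cast (by omega : junc P pl s.1 s.2 ≤ 2 ^ m)
      linarith

/-- The own plan of a state is a plan of this state. -/
theorem fix_own (h : M.Ok P) (hrH : r ≤ P.H) (i : ℕ) {c : Ctx} (hs : s ∈ om c) (φ : ℕ) {j : ℕ}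
    (hj : j < P.nC) :
    (M.fix P r i c φ).All fun f => ∀ pl, (f.2.getD j []).getD ((om c).idxOf s) none = some pl →
      some pl ∈ f.2.getD j [] ∧ M.PlanOk P r i s (sclC P c j) pl := by
  have hr' : r - 1 ≤ P.H := (Nat.sub_le _ _).trans hrH
  unfold fix
  rw [All_bind]
  refine All_of_forall _ fun rows => ?_
  rw [All_map]
  refine (All_seq_map _ _ (fun j row => List.Forall₂ (fun s o => ∀ pl, o = some pl →
    M.PlanOk P r i s (sclC P c j) pl) (om c) row) fun j _ =>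
      All_seq_map _ _ _ fun s _ => plan_valid h (fun k _ => vn h hr' _) i s _).mono fun pls hpls pl hpl => ?_
  refine ⟨monob_mem hpl, ?_⟩
  have e : (fixOut P c rows pls).2.getD j [] = (pls.getD j []).map fun o =>
      o.bind fun pl => if usable P c j pl = true then some pl else none := by
    simp [fixOut, List.getD_eq_getElem?_getD, hj]
  have e2 := List.getD_map (l := pls.getD j []) (d := none) (n := (om c).idxOf s)
    fun o : Option Plan => o.bind fun pl => if usable P c j pl = true then some pl else none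
  rw [e] at hpl
  simp only [Option.bind_none] at e2
  rw [e2] at hpl
  have hk := List.idxOf_lt_length_iff.2 hs
  have h1 := valid_getD (valida_getD hpls hj []) hk none
  rw [List.getElem_idxOf hk] at h1
  cases ho : (pls.getD j []).getD ((om c).idxOf s) none with
  | none => rw [ho] at hpl; simp at hpl
  | some pl' =>
    rw [ho] at hpl
    simp only [Option.bind_some] at hpl
    split_ifs at hpl with hu
    obtain rfl := Option.some.inj hpl
    exact h1 _ ho

/-- `sclC_cover`, `W_some_le_fix`, `fix_good`, `fix_valid`, `fix_own`, `fix_length`, `infl_le`, `SB.infl_sum`;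
`-1025 ∑ m_j + 1025 (∑ m_j - mbar)⁺ ≤ -1025 mbar + 1025 (σ / (16 T0) + 8 x σ)` by `Wt_le_mbar`. -/
theorem Blk.case_reg_some (h : M.Blk P r i s m φ Λ z)
    (ih : ∀ i' s' c', M.Adm P (r - 1) i' s' c' → M.Sum P φ (r - 1) i' s' c' ≤ M.Bnd P φ Λ (r - 1) i' s' c')
    (hreg : Regular P (2 ^ m) (M.Gs P r i s m φ z) z) {c : Ctx} (hc : M.Adm P r i s (some c))
    (h0 : ¬ (2 ^ m * 2 ^ P.kg < cw c ∨ 128 * cap P c < 2 ^ m ∨
      128 * (M.mbar P r i c φ + 8 * cw c + 1) < 2 ^ m)) :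
    M.Sum P φ r i s (some c) ≤ M.Bnd P φ Λ r i s (some c) := by
  have hP := h.ok.good
  have hm : P.kg ≤ m := by have := h.kg_le; omega
  have hr' : r - 1 ≤ P.H := (Nat.sub_le _ _).trans h.rH
  obtain ⟨hn, hs⟩ := hc c rfl
  simp only [not_or, not_lt] at h0
  obtain ⟨h01, h02, h03⟩ := h0
  obtain ⟨a, ha⟩ := hn.cw_pow
  obtain ⟨j, hj, hj'⟩ := sclC_cover hP ha h01 h02
  have hσ : (2 : ℝ) ^ m ≤ 32 * (2 ^ P.kR * M.Fr P r i s) := by
    have := h.scale.2
    rw [mul_assoc] at this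
    exact_mod_cast this
  have h1 : M.Sum P φ r i s (some c) ≤ (M.fix P r i c φ).E fun f => ∑ k ∈ Finset.range P.T0,
      ((f.2.getD j []).getD ((om c).idxOf s) none).elim (2 ^ P.kR * M.Fr P r i s) fun pl =>
        M.infl P r i s c j f.1 (f.2.getD j []) pl (rd0 P φ k) := by
    rw [E_sum]
    refine Finset.sum_le_sum fun k hk => ?_
    have := W_some_le_fix h.ok h.r1 h.rH h.big hn.1 hs hj (T0_lt_rd0 h.φ1 k)
    rwa [phs_rd0 φ (Finset.mem_range.1 hk)] at this
  refine h1.trans (h.inds_event hc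
    (p := fun f => M.GoodPlan P r i s (2 ^ m) φ z ((f.2.getD j []).getD ((om c).idxOf s) none) ∧
        (1 - tau P) * M.mbar P r i c φ / 2 ^ (2 * P.ka) - 3 + 16 * cw c ≤ f.1) ?_
    (h.fix_good hreg hn.1 hs hj hj'))
  refine (((fix_valid h.ok (fun k _ => vn h.ok hr' _) i c).and (fix_own h.ok h.rH i hs φ hj)).and
    (fix_length M P r i c φ)).mono fun f ⟨⟨hf, hown⟩, hlen⟩ => ⟨fun ⟨hg, hy⟩ => ?_, ?_⟩
  · obtain ⟨pl, hpl⟩ : ∃ pl, (f.2.getD j []).getD ((om c).idxOf s) none = some pl := ⟨_, hg.choose_spec.1⟩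
    rw [hpl] at hg ⊢
    obtain ⟨hmem, hok⟩ := hown pl hpl
    rw [hj'] at hok
    have hmb : M.mbar P r i c φ ≤ 2 ^ m := by
      have a1 : M.mbar P r i c φ ≤ Λ * M.Fr P r i s := h.mbar_le hc
      have a2 := h.lo
      have a3 := mbar_nonneg (M := M) (P := P) r i c φ
      linarith
    have h2 := h.sum_sroot ih hg
    have h3 := (h.sb hg).infl_sum hn.1 hs hj' (hlen j) (hf.2 j hj) hmem hf.1 hy h03 hmb
    have h4 := h.Wt_le_mbar hok
    have h5 := Model.mbar_le (M := M) (P := P) (r := r) (i := i) hs φ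
    have h6 := mul_le_mul_of_nonneg_left h.psi_root (inds_cE P)
    have h7 := h.slack
    have h8 := h.tiny
    have h9 := h.c1_pays
    have e1 := h.g_small.1
    have p1 : (0 : ℝ) ≤ 2 ^ m / (16 * P.T0) := by positivity
    have p2 : (0 : ℝ) ≤ 2 ^ m / 2 ^ P.kx := by positivity
    have p4 : (0 : ℝ) ≤ P.T0 * (tau P * 2 ^ m) := by have := inds_tau P; positivity
    have p5 : (0 : ℝ) ≤ P.T0 * (tau P * (2 ^ P.kR * M.Fr P r i s)) := by have := inds_tau P; positivity
    have p6 : (0 : ℝ) ≤ P.T0 * tau P * (cw c : ℕ) := by have := inds_tau P; positivity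
    have h10 : max (((List.range P.b).map fun j => M.mbar P (r - 1) (i * P.b + j) (pc pl j) φ).sum -
        M.mbar P r i c φ) 0 ≤
        ((List.range P.b).map fun j => M.mbar P (r - 1) (i * P.b + j) (pc pl j) φ).sum -
          M.mbar P r i c φ + (2 ^ m / (16 * P.T0) + 8 * (2 ^ m / 2 ^ P.kx)) :=
      max_le (by linarith) (by linarith)
    simp only [Option.elim_some]
    rw [Bnd_eq]
    simp only [Option.elim_some]
    rw [e1] at h3 h6 h8
    linarith
  · refine inds_sum_le fun k hk => ?_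
    cases hpl : (f.2.getD j []).getD ((om c).idxOf s) none with
    | none =>
      simp only [Option.elim_none]
      have : (0 : ℝ) ≤ 2 ^ P.kR * M.Fr P r i s := by positivity
      linarith
    | some pl =>
      simp only [Option.elim_some]
      obtain ⟨hmem, hok⟩ := hown pl hpl
      rw [hj'] at hok
      have := infl_le h.ok h.r1 h.rH (T0_lt_rd0 h.φ1 k) hm hn.1 hs hj' (hf.2 j hj) hmem hok hf.1
      linarith

end Model

end Crest.Agent.R288
end

-- ▼ part PVb/R288/Phase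

/-!
# R288: the main induction and the phases
-/

set_option autoImplicit false

namespace Crest.Agent.R288

open RT

namespace Model

variable {M : Model} {P : Par}

theorem phase_eta_pos (P : Par) : 0 < eta P := by unfold eta; positivity

theorem phase_eta_le (hP : Good P) : eta P ≤ 1 / 8 := by
  have h1 : (2 : ℝ) ^ 3 ≤ 2 ^ P.jj := pow_le_pow_right₀ one_le_two (by have := hP.big; omega)
  unfold eta
  exact one_div_le_one_div_of_le (by norm_num) (by norm_num at h1 ⊢; exact h1)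

theorem phase_adm_none (r i : ℕ) (s : ℤ × ℤ) : M.Adm P r i s none := fun _ hc => by cases hc

/-- Induction on `r`: `terminal_easy`, `exists_blk`, then `case_dev`, `case_solved` if the block is not regular,
`case_reg_none`, `terminal_ctx`, `case_reg_some` otherwise. -/
theorem sum_le_bnd (h : M.Ok P) {φ : ℕ} (hφ : 1 ≤ φ) {Λ : ℝ} (hΛ : 1 + eta P ≤ Λ) (hΛ' : Λ ≤ 2 ^ P.kR)
    (hR : M.Ratio P ((φ - 1) * P.T0) Λ) :
    ∀ r ≤ P.H, ∀ i s c, M.Adm P r i s c → M.Sum P φ r i s c ≤ M.Bnd P φ Λ r i s c := by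
  have hη := phase_eta_pos P
  have hΛ1 : 1 ≤ Λ := by linarith
  intro r
  induction r with
  | zero =>
    intro hr i s c hc
    exact terminal_easy h hr hφ hΛ1 hR hc (Or.inr (Or.inl rfl))
  | succ r ih =>
    intro hr i s c hc
    have ih' : ∀ i' s' c', M.Adm P (r + 1 - 1) i' s' c' →
        M.Sum P φ (r + 1 - 1) i' s' c' ≤ M.Bnd P φ Λ (r + 1 - 1) i' s' c' := ih (by omega)
    by_cases h0 : M.Fr P (r + 1) i s ≤ P.F0 ∨ r + 1 = 0 ∨ 2 ^ ((r + 1) * P.L + P.jj) ≤ (s.2 - s.1).natAbs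
    · exact terminal_easy h hr hφ hΛ1 hR hc h0
    obtain ⟨m, z, hb⟩ := exists_blk h hr hφ hΛ hΛ' hR h0
    by_cases hreg : Regular P (2 ^ m) (M.Gs P (r + 1) i s m φ z) z
    · rcases c with _ | c
      · exact hb.case_reg_none ih' hreg
      · by_cases h1 : 2 ^ m * 2 ^ P.kg < cw c ∨ 128 * cap P c < 2 ^ m ∨
            128 * (M.mbar P (r + 1) i c φ + 8 * cw c + 1) < 2 ^ m
        · exact hb.terminal_ctx hc h1
        · exact hb.case_reg_some ih' hreg hc h1
    · unfold Regular at hreg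
      push Not at hreg
      obtain ⟨e, he, p, hp, hl, hd⟩ := hreg
      rw [Nat.cast_pow, Nat.cast_ofNat] at hl hd
      by_cases h1 : (1 + eta P) * |dsp z (e + 1) p| ≤
          M.Gs P (r + 1) i s m φ z e (2 * p) + M.Gs P (r + 1) i s m φ z e (2 * p + 1)
      · exact hb.case_dev hc (fun j _ => ih' _ _ _ (phase_adm_none _ _ _)) he hp hl (hd h1)
      · exact hb.case_solved hc (fun j _ => ih' _ _ _ (phase_adm_none _ _ _)) he hp hl (not_le.1 h1)

theorem phase_rho (hP : Good P) {r : ℕ} (hr : r ≤ P.H) : (1 + rho P) ^ r ≤ 1 + eta P := by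
  have hη := phase_eta_pos P
  have hη' := phase_eta_le hP
  have hρ : 0 < rho P := by unfold rho; positivity
  have h1 : (r : ℝ) ≤ 2 ^ (P.ll + 1) := by exact_mod_cast hr.trans (hP.H_le.trans hP.hh_hi)
  have h2 : (r : ℝ) * rho P ≤ eta P / 2 := by
    refine (mul_le_mul_of_nonneg_right h1 hρ.le).trans (le_of_eq ?_)
    unfold rho eta
    field_simp
    ring
  have h3 : (1 + rho P) ^ r ≤ Real.exp (r * rho P) := by
    rw [Real.exp_nat_mul]
    exact pow_le_pow_left₀ (by linarith) (by linarith [Real.add_one_le_exp (rho P)]) r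
  have h4 : |Real.exp (eta P / 2) - 1| ≤ 2 * |eta P / 2| :=
    Real.abs_exp_sub_one_le (by rw [abs_of_pos (by linarith)]; linarith)
  rw [abs_of_pos (show 0 < eta P / 2 by linarith)] at h4
  have h5 := (abs_le.1 h4).2
  have h6 := Real.exp_le_exp.2 h2
  linarith

theorem phase_c (hP : Good P) {r : ℕ} (hr : r ≤ P.H) : r * c1 P + c2 P ≤ P.T0 * eta P / 16 := by
  have s1 := hP.small_ll
  have s2 := hP.kT_add
  have s3 := hP.big
  have s4 := hP.mb_add
  have s5 := hP.kR_lt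
  have s6 : P.kg = 2 * P.kR := Par.kg.eq_1 P
  have s7 : P.ka = 10 * P.jj := Par.ka.eq_1 P
  obtain ⟨u, hu⟩ : ∃ u, P.kT = u + P.jj + 6 := ⟨P.kT - P.jj - 6, by omega⟩
  have hT : (P.T0 : ℝ) = 2 ^ P.kT := by rw [hP.T0_eq]; push_cast; rfl
  have hr1 : r ≤ 2 ^ (P.ll + 1) := hr.trans (hP.H_le.trans hP.hh_hi)
  have hrL : r * P.L ≤ 2 ^ (P.ll + 2) := by
    have h1 := hP.HL_le
    have h2 := hP.hh_hi
    have h3 := Nat.mul_le_mul_right P.L hr
    rw [pow_succ 2 (P.ll + 1)]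
    omega
  have hmb : P.mb ≤ 2 ^ (2 * P.jj + 4) := by rw [pow_succ 2 (2 * P.jj + 3)]; omega
  have t1 : (r : ℝ) * (4096 * P.L * P.mb / 2 ^ P.ka) ≤ 2 ^ u := by
    have h1 : r * (4096 * P.L * P.mb) ≤ 2 ^ u * 2 ^ P.ka :=
      calc r * (4096 * P.L * P.mb) = 2 ^ 12 * (r * P.L * P.mb) := by ring
        _ ≤ 2 ^ 12 * (2 ^ (P.ll + 2) * 2 ^ (2 * P.jj + 4)) :=
          Nat.mul_le_mul_left _ (Nat.mul_le_mul hrL hmb)
        _ = 2 ^ (12 + (P.ll + 2 + (2 * P.jj + 4))) := by rw [← pow_add, ← pow_add]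
        _ ≤ 2 ^ (u + P.ka) := Nat.pow_le_pow_right (by norm_num) (by omega)
        _ = _ := pow_add _ _ _
    rw [← mul_div_assoc, div_le_iff₀ (by positivity)]
    exact_mod_cast h1
  have t2 : (r : ℝ) * (64 * cE P / P.T0) ≤ 2 ^ u := by
    have h1 : r * (64 * 2 ^ (2 * P.kθ + 9)) ≤ 2 ^ u * 2 ^ P.kT :=
      calc r * (64 * 2 ^ (2 * P.kθ + 9)) ≤ 2 ^ (P.ll + 1) * (2 ^ 6 * 2 ^ (2 * P.kθ + 9)) :=
          Nat.mul_le_mul_right _ hr1
        _ = 2 ^ (P.ll + 1 + (6 + (2 * P.kθ + 9))) := by rw [← pow_add, ← pow_add]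
        _ ≤ 2 ^ (u + P.kT) := Nat.pow_le_pow_right (by norm_num) (by omega)
        _ = _ := pow_add _ _ _
    rw [← mul_div_assoc, hT, div_le_iff₀ (by positivity)]
    unfold cE
    exact_mod_cast h1
  have t3 : 4 * cE P ≤ 2 ^ u := by
    have h1 : (2 : ℝ) ^ (2 + (2 * P.kθ + 9)) ≤ 2 ^ u := pow_le_pow_right₀ one_le_two (by omega)
    rw [pow_add] at h1
    unfold cE
    linarith
  have t4 : (2 : ℝ) ^ (P.kd + 16) ≤ 2 ^ u := pow_le_pow_right₀ one_le_two (by omega)
  have t5 : (P.T0 : ℝ) * eta P / 16 = 4 * 2 ^ u := by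
    rw [hT, hu]
    unfold eta
    field_simp
    ring
  rw [t5]
  unfold c1 c2
  rw [mul_add]
  linarith

theorem phase_lam0 (P : Par) (Λ : ℝ) : 0 ≤ lam0 P Λ :=
  le_trans (by linarith [phase_eta_pos P]) (le_max_right _ _)

/-- `(1 + ρ)^H ≤ exp (H ρ) ≤ 1 + η` (`H ≤ 2^(ll+1)`), `H c1 / T0 + c2 / T0 ≤ η / 16`
(`H ≤ hh / L + 1`, so `H L ≤ 2 hh ≤ 2^(ll+2)`, `T0 = 2^(ll - 6jj)`, `mb ≤ kg + 1 ≤ 2^(2jj+5)`, `small_ll`). -/
theorem Kc_le (hP : Good P) {Λ : ℝ} (hΛ : 0 ≤ Λ) {r : ℕ} (hr : r ≤ P.H) :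
    Kc P Λ r ≤ P.T0 * ((1 + eta P) * (lam0 P Λ + eta P * Λ / 16)) := by
  have h1 := phase_rho hP hr
  have h2 := phase_c hP hr
  have h3 := phase_lam0 P Λ
  have hη := phase_eta_pos P
  have hρ : 0 < rho P := by unfold rho; positivity
  have h4 : P.T0 * lam0 P Λ + r * c1 P * Λ + c2 P * Λ ≤ P.T0 * (lam0 P Λ + eta P * Λ / 16) := by
    have := mul_le_mul_of_nonneg_right h2 hΛ
    linarith
  unfold Kc
  calc _ ≤ P.T0 * (lam0 P Λ + eta P * Λ / 16) * (1 + eta P) :=
        mul_le_mul h4 h1 (by positivity) (by positivity)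
    _ = _ := by ring

theorem phase (h : M.Ok P) {φ : ℕ} (hφ : 1 ≤ φ) {Λ : ℝ} (hΛ : 1 + eta P ≤ Λ) (hΛ' : Λ ≤ 2 ^ P.kR)
    (hR : M.Ratio P ((φ - 1) * P.T0) Λ) :
    M.Ratio P ((φ + 1) * P.T0) ((1 + eta P) * (lam0 P Λ + eta P * Λ / 16)) := by
  intro r hr i s
  have hη := phase_eta_pos P
  have hT : (0 : ℝ) < P.T0 := by
    have := h.good.two_le_T0
    exact_mod_cast (by omega : 0 < P.T0)
  have h1 := sum_le_bnd h hφ hΛ hΛ' hR r hr i s none (phase_adm_none _ _ _)
  have h2 : P.T0 * M.W r i s none ((φ + 1) * P.T0) ≤ M.Sum P φ r i s none := by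
    have := Finset.card_nsmul_le_sum (Finset.range P.T0) (fun k => M.W r i s none (rd0 P φ k))
      (M.W r i s none ((φ + 1) * P.T0)) fun k hk => W_none_anti h hr i s (by
        have := Finset.mem_range.1 hk
        unfold rd0
        rw [add_mul]
        omega)
    rwa [Finset.card_range, nsmul_eq_mul] at this
  have h3 : 0 ≤ M.Wt P r i s φ := le_trans (Nat.cast_nonneg _) (Wt_bounds h hr i s hR).1
  have h4 : 0 ≤ cE P * psiR (M.Wt P r i s φ) ((s.2 - s.1 : ℤ) : ℝ) := by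
    unfold cE psiR
    positivity
  have h5 := mul_le_mul_of_nonneg_right (Kc_le h.good (Λ := Λ) (by linarith) hr)
    (Nat.cast_nonneg (α := ℝ) (M.Fr P r i s))
  rw [Bnd_eq] at h1
  simp only [Option.elim, Nat.cast_zero, mul_zero, add_zero, sub_zero] at h1
  refine le_of_mul_le_mul_left ?_ hT
  rw [← mul_assoc]
  linarith

/-- Induction on `n` with `φ = 2n + 1`; distinguish `Λ ≥ 4 (1+η)` (then `Λ = R / 2^n` is halved) and
`Λ < 4 (1+η)` (then the new ratio is `≤ (1+η)² (1 + η/4) ≤ 1 + 3η`). -/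
theorem ratio_iter (h : M.Ok P) (n : ℕ) :
    M.Ratio P (2 * n * P.T0) (max (2 ^ P.kR / 2 ^ n) (1 + 3 * eta P)) := by
  have hη := phase_eta_pos P
  have hη' := phase_eta_le h.good
  have hR4 : (4 : ℝ) ≤ 2 ^ P.kR := by
    have s1 := h.good.small_ll
    have s2 := h.good.ll_kR
    have h1 : (2 : ℝ) ^ 2 ≤ 2 ^ P.kR := pow_le_pow_right₀ one_le_two (by omega)
    linarith
  induction n with
  | zero =>
    refine (ratio_zero h).mono h (Nat.zero_le _) (le_trans ?_ (le_max_left _ _))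
    simp
  | succ n ih =>
    have e1 : (2 * n + 1 - 1) * P.T0 = 2 * n * P.T0 := by rw [Nat.add_sub_cancel]
    have hdiv : (2 : ℝ) ^ P.kR / 2 ^ n ≤ 2 ^ P.kR := div_le_self (by positivity) (one_le_pow₀ one_le_two)
    have h1 := phase h (φ := 2 * n + 1) (Λ := max (2 ^ P.kR / 2 ^ n) (1 + 3 * eta P)) (by omega)
      (le_trans (by linarith) (le_max_right _ _)) (max_le hdiv (by linarith)) (by rw [e1]; exact ih)
    refine h1.mono h (le_of_eq (by ring)) ?_
    set Λ := max ((2 : ℝ) ^ P.kR / 2 ^ n) (1 + 3 * eta P) with hΛ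
    unfold lam0
    rcases le_total (1 + eta P) (Λ / 4) with h2 | h2
    · have h3 : Λ = 2 ^ P.kR / 2 ^ n := by
        rcases max_choice ((2 : ℝ) ^ P.kR / 2 ^ n) (1 + 3 * eta P) with h4 | h4
        · exact h4
        · rw [← hΛ] at h4
          linarith
      refine le_trans ?_ (le_max_left _ _)
      rw [max_eq_left h2, pow_succ, ← div_div, ← h3]
      have h5 : (1 + eta P) * (1 / 4 + eta P / 16) ≤ 1 / 2 := by nlinarith
      have h6 := mul_le_mul_of_nonneg_right h5 (show 0 ≤ Λ by linarith)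
      linarith
    · refine le_trans ?_ (le_max_right _ _)
      rw [max_eq_right h2]
      have h5 : eta P * Λ / 16 ≤ eta P * (1 + eta P) / 4 := by nlinarith
      have h6 : eta P * eta P ≤ eta P / 8 := by nlinarith
      have h7 : eta P * (eta P * eta P) ≤ eta P / 64 := by nlinarith
      have h8 := mul_le_mul_of_nonneg_left h5 (show 0 ≤ 1 + eta P by linarith)
      nlinarith

theorem final (h : M.Ok P) (i : ℕ) (s : ℤ × ℤ) :
    ((M.top P.H i s none P.T).All fun v => M.Fr P P.H i s ≤ v) ∧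
      (M.top P.H i s none P.T).mean ≤ (1 + 3 * eta P) * M.Fr P P.H i s := by
  refine ⟨(vn h le_rfl P.T i s).mono fun v hv => hv.1, ?_⟩
  have hη := phase_eta_pos P
  have h1 := ratio_iter h (P.kR + 2)
  have h2 : (2 : ℝ) ^ P.kR / 2 ^ (P.kR + 2) ≤ 1 + 3 * eta P := by
    have : (2 : ℝ) ^ P.kR / 2 ^ (P.kR + 2) ≤ 1 :=
      (div_le_one (by positivity)).2 (pow_le_pow_right₀ one_le_two (by omega))
    linarith
  rw [max_eq_right h2, ← Par.T.eq_1] at h1
  exact h1 P.H le_rfl i s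

end Model

end Crest.Agent.R288
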