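import Crest.Agent.PVb.R288.Alg
import Crest.Agent.PVb.R288.Model
import Crest.Agent.PVb.R288.CstA
import Crest.Agent.PVb.R288.Fdef
import Crest.Agent.PVb.R288.CstB
import Crest.Agent.PVb.R288.ParA
import Crest.Agent.PVb.R288.RTa
import Crest.Agent.PVb.R288.RTb
import Crest.Agent.PVb.R288.FB

-- ▼ part PVb/R288/SemD
section

/-!
# R288: semantics of the scheme (definitions)
-/

set_option autoImplicit false

namespace Crest.Agent.R288

open Crest.Agent.Lib.PT RT

/-- The memory holds the two strings. -/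
structure MemOk (P : Par) (mem : ℕ → ℕ) (x y : List ℕ) : Prop where
  hx : P.1 = x.length
  hy : P.2.1 = y.length
  mx : ∀ (i : ℕ) (h : i < x.length), mem (2 + i) = x[i]
  my : ∀ (i : ℕ) (h : i < y.length), mem (2 + x.length + i) = y[i]

/-- Primitives that agree with the real ones except for the oracle. -/
def PrOk (P : Par) (mem : ℕ → ℕ) (pr : Call → Option (RT V)) : Prop :=
  ∀ k : Call, k.1 ≠ 8 → pr k = realPrim P mem k

/-- The decoded meaning of a call. -/
noncomputable def evd (β : Type) [Enc β] [Dec β] (P : Par) (pr : Call → Option (RT V)) (k : Call) :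
    RT β := (alg.ev P pr k).map dec

/-- One draw of a raw gap test. -/
def gdrawT (P : Par) (G : ℕ → ℕ → ℤ → ℤ → ℕ → RT Bool) (e i : ℕ) (α : ℤ) (κ eb l : ℕ) : RT Bool :=
  (rnd P.kb).bind fun j => (seq ((gstates P α κ eb).map fun s =>
    G (e - P.kb) (i * 2 ^ P.kb + j) s.1 s.2 (gg P κ eb * (2 ^ P.kγ + l + 2)))).map fun r => !r.any id

/-- A raw gap test. -/
def grawT (P : Par) (G : ℕ → ℕ → ℤ → ℤ → ℕ → RT Bool) (e i : ℕ) (α : ℤ) (κ : ℕ) : RT Bool :=
  (seq ((gdraws P).map fun q => gdrawT P G e i α κ q.1 q.2)).map fun r => graw P κ (r.countP id)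

/-- The equation of the gap test. -/
def GapOk (P : Par) (F : ℕ → ℕ → ℤ → ℤ → ℕ) (G : ℕ → ℕ → ℤ → ℤ → ℕ → RT Bool) : Prop :=
  ∀ e i α γ κ, G e i α γ κ =
    if κ < (γ - α).natAbs then .pure false
    else if κ ≤ P.F1 then .pure (decide (F e i α γ ≤ κ))
    else if e ≤ P.kb then .pure true
    else (seq (List.replicate (2 * (4 * P.hh)) (grawT P G e i α κ))).map fun r =>
      decide (4 * P.hh < r.countP id)

/-- The oracle in terms of gap tests. -/
def orcT (P : Par) (G : ℕ → ℕ → ℤ → ℤ → ℕ → RT Bool) (e i : ℕ) (α γ : ℤ) : RT ℕ :=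
  if 2 ^ e ≤ (γ - α).natAbs then .pure (2 ^ e + (γ - α).natAbs) else
    (seq ((List.range (e + 2)).map fun k => G e i α γ (2 ^ k))).map fun r =>
      min (2 ^ e + (γ - α).natAbs) (2 ^ (P.kR - 1) * 2 ^ r.findIdx id)

/-- Repair of a wrong answer of the oracle. -/
def clampO (P : Par) (x y : List ℕ) (a : AOrc) (v : V) : V :=
  if 1 ≤ FF x y a.1.n a.2.1 a.2.2.1 a.2.2.2 ∧ a.1.n ≤ 2 * P.hh ∧
      ¬ (FF x y a.1.n a.2.1 a.2.2.1 a.2.2.2 ≤ (dec v : ℕ) ∧
        (dec v : ℕ) ≤ 2 ^ P.kR * FF x y a.1.n a.2.1 a.2.2.1 a.2.2.2)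
  then enc (FF x y a.1.n a.2.1 a.2.2.1 a.2.2.2) else v

/-- The primitives with the ideal oracle. -/
noncomputable def idealPrim (P : Par) (mem : ℕ → ℕ) (x y : List ℕ) (k : Call) : Option (RT V) :=
  if k.1 = 8 then some ((alg.ev P (realPrim P mem) k).map (clampO P x y (dec k.2)))
  else realPrim P mem k

/-- The model given by the algorithm with the ideal oracle. -/
noncomputable def theModel (P : Par) (mem : ℕ → ℕ) (x y : List ℕ) : Model where
  F := FF x y
  orc r i s := evd ℕ P (idealPrim P mem x y) (cOrc (r * P.L) i s.1 s.2)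
  top r i s c t := evd ℕ P (idealPrim P mem x y) (cTop r i s c t)
  sn r i pl hb p s k0 q t := evd ℕ P (idealPrim P mem x y) (cSN r i pl hb p s k0 q t)

end Crest.Agent.R288
end

-- ▼ part PVb/R288/SemA
section

/-!
# R288: meaning of the generic calls

Use `Scheme.ev_unfold`, `Scheme.ev_prim`, `Scheme.Tm.s1`, `RT.seq_map`.
-/

set_option autoImplicit false

namespace Crest.Agent.R288

open Crest.Agent.Lib.PT RT

variable {P : Par} {mem : ℕ → ℕ} {pr : Call → Option (RT V)}

theorem prOk_real (P : Par) (mem : ℕ → ℕ) : PrOk P mem (realPrim P mem) := fun _ _ => rfl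

theorem prOk_ideal (P : Par) (mem : ℕ → ℕ) (x y : List ℕ) : PrOk P mem (idealPrim P mem x y) := by
  intro k hk
  rw [idealPrim, if_neg hk]
theorem PrOk.ne_none (h : PrOk P mem pr) (k : Call) (hk : k.1 ≤ 1) : pr k ≠ none := by
  rw [h k (by omega)]
  exact realPrim_ne_none P mem k hk
theorem PrOk.eq_none (h : PrOk P mem pr) (k : Call) (hk : 1 < k.1) (hk' : k.1 ≠ 8) : pr k = none := by
  rw [h k hk', realPrim, if_neg (by omega), if_neg (by omega)]
/-- One unfolding of a terminating call that is neither primitive nor the oracle. -/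
theorem PrOk.unfold (h : PrOk P mem pr) {k : Call} (hk : alg.Tm P k) (h1 : 1 < k.1) (h8 : k.1 ≠ 8) :
    alg.ev P pr k = (seq ((algS1 P k).map (alg.ev P pr))).bind fun r1 =>
      (seq ((algS2 P k r1).map (alg.ev P pr))).bind fun r2 => .pure (algOut P k r1 r2) := by
  exact Scheme.ev_unfold h.ne_none hk (h.eq_none k h1 h8)
theorem semA_toList (r : List V) : (enc r).toList = r := by
  induction r with
  | nil => rfl
  | cons a l ih => rw [enc_cons, V.toList, ih]; rfl

theorem semA_tm_prim {k : Call} (hk : k.1 ≤ 1) : alg.Tm P k :=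
  ⟨1, 1, Scheme.Cst.prim hk le_rfl⟩

theorem semA_unif {ks : List Call} (hk : ∀ k ∈ ks, alg.Tm P k) :
    ∃ n c, ∀ k ∈ ks, alg.Cst P n c k := by
  induction ks with
  | nil => exact ⟨0, 0, by simp⟩
  | cons k ks ih =>
    obtain ⟨n, c, h1⟩ := ih fun k' hk' => hk k' (List.mem_cons_of_mem _ hk')
    obtain ⟨n', c', h2⟩ := hk k List.mem_cons_self
    refine ⟨max n n', max c c', fun k' hk' => ?_⟩
    rcases List.mem_cons.1 hk' with rfl | hk'
    · exact h2.mono (le_max_right _ _) (le_max_right _ _)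
    · exact (h1 k' hk').mono (le_max_left _ _) (le_max_left _ _)

theorem semA_seq (β : Type) [Enc β] [Dec β] (ks : List Call) :
    seq (ks.map (evd β P pr)) = (seq (ks.map (alg.ev P pr))).map (List.map dec) := by
  rw [← seq_map, List.map_map]
  rfl


/-- Decoding a list of trees as a list. -/
theorem dec_enc_list {β : Type} [Enc β] [Dec β] (r : List V) : (dec (enc r) : List β) = r.map dec := by
  exact congrArg (List.map dec) (semA_toList r)
theorem ev_read (h : PrOk P mem pr) (a : ℕ) :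
    alg.ev P pr (cRead a) = .pure (enc (mem (min a (P.1 + P.2.1 + 2)))) := by
  refine Scheme.ev_prim (semA_tm_prim le_rfl) ?_
  rw [h _ (by simp [cRead])]
  simp [realPrim, cRead]
theorem ev_rnd (h : PrOk P mem pr) (e : ℕ) : alg.ev P pr (cRnd e) = (rnd e).map enc := by
  have hc : alg.ev P pr cCoin = (RT.coin (.pure false) (.pure true)).map enc := by
    refine Scheme.ev_prim (semA_tm_prim (Nat.zero_le 1)) ?_
    rw [h _ (by simp [cCoin])]
    rfl
  rw [h.unfold ⟨_, _, cst_rnd e⟩ (by simp [cRnd]) (by simp [cRnd])]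
  have e1 : algS1 P (cRnd e) = List.replicate e cCoin := by simp [algS1, cRnd]
  have e2 : ∀ r1, algS2 P (cRnd e) r1 = [] := fun r1 => by simp [algS2, cRnd]
  have e3 : ∀ r1 r2, algOut P (cRnd e) r1 r2 = enc (ofBits (rds r1)) := fun r1 r2 => by
    simp [algOut, cRnd]
  simp only [e1, e2, e3, List.map_nil, seq_nil, pure_bind, List.map_replicate, hc]
  rw [← List.map_replicate, seq_map, bind_map, rnd, RT.map_map]
  simp only [rds, List.map_map, Function.comp_def, dec_enc, List.map_id']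
  rfl
theorem tm_avg {k : Call} (hk : alg.Tm P k) (e : ℕ) : alg.Tm P (cAvg k e) := by
  obtain ⟨n, c, h⟩ := hk
  exact ⟨_, _, cst_avg h e⟩

theorem tm_vec {ks : List Call} (hk : ∀ k ∈ ks, alg.Tm P k) : alg.Tm P (cVec ks) := by
  obtain ⟨n, c, h⟩ := semA_unif hk
  exact ⟨_, _, cst_vec h le_rfl⟩

theorem tm_sum {ks : List Call} (hk : ∀ k ∈ ks, alg.Tm P k) : alg.Tm P (cSum ks) := by
  obtain ⟨n, c, h⟩ := semA_unif hk
  exact ⟨_, _, cst_sum h le_rfl⟩


theorem ev_avg (h : PrOk P mem pr) (hP : Good P) {k : Call} (hk : alg.Tm P k) {e : ℕ} (he : e ≤ P.kP) :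
    alg.ev P pr (cAvg k e) = ((evd ℕ P pr k).avg e).map enc := by
  rw [h.unfold (tm_avg hk e) (by simp [cAvg]) (by simp [cAvg])]
  have e1 : algS1 P (cAvg k e) = List.replicate (2 ^ e) k := by simp [algS1, cAvg, hP.p2_eq he]
  have e2 : ∀ r1, algS2 P (cAvg k e) r1 = [] := fun r1 => by simp [algS2, cAvg]
  have e3 : ∀ r1 r2, algOut P (cAvg k e) r1 r2 = enc ((rds r1 : List ℕ).sum / 2 ^ e) :=
    fun r1 r2 => by simp [algOut, cAvg, hP.p2_eq he]
  simp only [e1, e2, e3, List.map_nil, seq_nil, pure_bind]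
  rw [avg, ← List.map_replicate (f := evd ℕ P pr), semA_seq, RT.map_map, RT.map_map]
  rfl
theorem ev_vec (h : PrOk P mem pr) {ks : List Call} (hk : ∀ k ∈ ks, alg.Tm P k) :
    alg.ev P pr (cVec ks) = (seq (ks.map (alg.ev P pr))).map enc := by
  rw [h.unfold (tm_vec hk) (by simp [cVec]) (by simp [cVec])]
  have e1 : algS1 P (cVec ks) = ks := by simp [algS1, cVec]
  have e2 : ∀ r1, algS2 P (cVec ks) r1 = [] := fun r1 => by simp [algS2, cVec]
  have e3 : ∀ r1 r2, algOut P (cVec ks) r1 r2 = enc r1 := fun r1 r2 => by simp [algOut, cVec]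
  simp only [e1, e2, e3, List.map_nil, seq_nil, pure_bind]
  rfl
theorem ev_sum (h : PrOk P mem pr) {ks : List Call} (hk : ∀ k ∈ ks, alg.Tm P k) :
    alg.ev P pr (cSum ks) = (seq (ks.map (evd ℕ P pr))).map fun l => enc l.sum := by
  rw [h.unfold (tm_sum hk) (by simp [cSum]) (by simp [cSum])]
  have e1 : algS1 P (cSum ks) = ks := by simp [algS1, cSum]
  have e2 : ∀ r1, algS2 P (cSum ks) r1 = [] := fun r1 => by simp [algS2, cSum]
  have e3 : ∀ r1 r2, algOut P (cSum ks) r1 r2 = enc (rds r1 : List ℕ).sum :=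
    fun r1 r2 => by simp [algOut, cSum]
  simp only [e1, e2, e3, List.map_nil, seq_nil, pure_bind]
  rw [semA_seq, RT.map_map]
  rfl
theorem evd_rnd (h : PrOk P mem pr) (e : ℕ) : evd ℕ P pr (cRnd e) = rnd e := by
  rw [evd, ev_rnd h, RT.map_map]
  simp only [dec_enc, map_id']
theorem evd_avg (h : PrOk P mem pr) (hP : Good P) {k : Call} (hk : alg.Tm P k) {e : ℕ}
    (he : e ≤ P.kP) : evd ℕ P pr (cAvg k e) = (evd ℕ P pr k).avg e := by
  rw [evd, ev_avg h hP hk he, RT.map_map]
  simp only [dec_enc, map_id']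
theorem evd_vec (β : Type) [Enc β] [Dec β] (h : PrOk P mem pr) {ks : List Call}
    (hk : ∀ k ∈ ks, alg.Tm P k) : evd (List β) P pr (cVec ks) = seq (ks.map (evd β P pr)) := by
  rw [evd, ev_vec h hk, RT.map_map, semA_seq]
  simp only [dec_enc_list]
theorem evd_sum (h : PrOk P mem pr) {ks : List Call} (hk : ∀ k ∈ ks, alg.Tm P k) :
    evd ℕ P pr (cSum ks) = (seq (ks.map (evd ℕ P pr))).map List.sum := by
  rw [evd, ev_sum h hk, RT.map_map]
  simp only [dec_enc]
end Crest.Agent.R288
end

-- ▼ part PVb/R288/FA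
section

/-!
# R288: the edit distance satisfies `FOk`
-/

set_option autoImplicit false

namespace Crest.Agent.R288

open Crest.GraphRAM

section Ed

variable {β : Type} [DecidableEq β]

theorem fa_nil_left (v : List β) : editDist [] v = v.length := rfl

theorem fa_nil_right (u : List β) : editDist u [] = u.length := by cases u <;> rfl

theorem fa_cons_cons (a b : β) (u v : List β) : editDist (a :: u) (b :: v) =
    min (editDist u v + if a = b then 0 else 1) (min (editDist (a :: u) v + 1) (editDist u (b :: v) + 1)) := rfl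

theorem fa_ins (b : β) (u v : List β) : editDist u (b :: v) ≤ editDist u v + 1 := by
  cases u with
  | nil => exact le_rfl
  | cons a u => rw [fa_cons_cons]; omega

theorem fa_del (a : β) (u v : List β) : editDist (a :: u) v ≤ editDist u v + 1 := by
  cases v with
  | nil => simp [fa_nil_right]
  | cons b v => rw [fa_cons_cons]; omega

theorem fa_append (u u' v v' : List β) : editDist (u ++ u') (v ++ v') ≤ editDist u v + editDist u' v' := by
  induction u generalizing v with
  | nil =>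
    induction v with
    | nil => simp [fa_nil_left]
    | cons b v ih =>
      have := fa_ins b u' (v ++ v')
      simp only [List.nil_append, List.cons_append, fa_nil_left, List.length_cons] at ih ⊢
      omega
  | cons a u ihu =>
    induction v with
    | nil =>
      have h1 := fa_del a (u ++ u') v'
      have h2 := ihu []
      simp only [List.nil_append, List.cons_append, fa_nil_right, List.length_cons] at h2 ⊢
      omega
    | cons b v ih =>
      have h1 := ihu v
      have h2 := ihu (b :: v)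
      simp only [List.cons_append, fa_cons_cons] at ih h2 ⊢
      omega

theorem fa_split (u u' v : List β) :
    ∃ v₁ v₂, v = v₁ ++ v₂ ∧ editDist u v₁ + editDist u' v₂ ≤ editDist (u ++ u') v := by
  induction u generalizing v with
  | nil => exact ⟨[], v, rfl, by simp [fa_nil_left]⟩
  | cons a u ihu =>
    induction v with
    | nil => exact ⟨[], [], rfl, by simp only [fa_nil_right, List.length_append]; rfl⟩
    | cons b v ih =>
      rw [List.cons_append, fa_cons_cons]
      rcases min_choice (editDist (u ++ u') v + if a = b then 0 else 1)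
        (min (editDist (a :: (u ++ u')) v + 1) (editDist (u ++ u') (b :: v) + 1)) with h | h
      · obtain ⟨v₁, v₂, rfl, h1⟩ := ihu v
        exact ⟨b :: v₁, v₂, rfl, by rw [h, fa_cons_cons]; omega⟩
      · rcases min_choice (editDist (a :: (u ++ u')) v + 1) (editDist (u ++ u') (b :: v) + 1) with h' | h'
        · obtain ⟨v₁, v₂, rfl, h1⟩ := ih
          have := fa_ins b (a :: u) v₁
          rw [List.cons_append] at h1
          exact ⟨b :: v₁, v₂, rfl, by rw [h, h']; omega⟩
        · obtain ⟨v₁, v₂, h0, h1⟩ := ihu (b :: v)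
          have := fa_del a u v₁
          exact ⟨v₁, v₂, h0, by rw [h, h']; omega⟩

theorem fa_uncons (b : β) (u v : List β) : editDist u v ≤ editDist u (b :: v) + 1 := by
  induction u with
  | nil => simp only [fa_nil_left, List.length_cons]; omega
  | cons a u ih =>
    have := fa_del a u v
    rw [fa_cons_cons]
    omega

theorem fa_pre (u w v : List β) : editDist u v ≤ editDist u (w ++ v) + w.length := by
  induction w with
  | nil => simp
  | cons b w ih =>
    have := fa_uncons b u (w ++ v)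
    simp only [List.cons_append, List.length_cons]
    omega

theorem fa_len1 (u v : List β) : u.length ≤ editDist u v + v.length := by
  simpa [fa_nil_right] using fa_pre u v []

theorem fa_post (u v w : List β) : editDist u v ≤ editDist u (v ++ w) + w.length := by
  induction u generalizing v with
  | nil => simp only [fa_nil_left, List.length_append]; omega
  | cons a u ihu =>
    induction v with
    | nil => simpa [fa_nil_right] using fa_len1 (a :: u) w
    | cons b v ih =>
      have h1 := ihu v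
      have h2 := ihu (b :: v)
      simp only [List.cons_append, fa_cons_cons] at ih h2 ⊢
      omega

theorem fa_len2 (u v : List β) : v.length ≤ editDist u v + u.length := by
  induction u generalizing v with
  | nil => simp [fa_nil_left]
  | cons a u ihu =>
    induction v with
    | nil => simp
    | cons b v ih =>
      have h1 := ihu v
      have h2 := ihu (b :: v)
      simp only [fa_cons_cons, List.length_cons] at ih h2 ⊢
      omega

theorem fa_max (u v : List β) : editDist u v ≤ max u.length v.length := by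
  induction u generalizing v with
  | nil => simp [fa_nil_left]
  | cons a u ihu =>
    cases v with
    | nil => simp [fa_nil_right]
    | cons b v =>
      have h1 := ihu v
      simp only [fa_cons_cons, List.length_cons]
      split_ifs <;> omega

theorem fa_single (s b : β) (v : List β) : editDist [s] (b :: v) = v.length + if s ∈ b :: v then 0 else 1 := by
  induction v generalizing b with
  | nil =>
    simp only [fa_cons_cons, fa_nil_left, fa_nil_right, List.length_cons, List.length_nil, List.mem_singleton]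
    split_ifs <;> omega
  | cons c v ih =>
    rw [fa_cons_cons, ih]
    simp only [fa_nil_left, List.length_cons, List.mem_cons (b := b)]
    by_cases h1 : s = b <;> by_cases h2 : s ∈ c :: v <;> simp only [h1, h2, if_true, if_false, true_or, or_true,
      or_self] <;> (try split_ifs) <;> omega

theorem fa_map (u v : List β) : editDist (u.map some) (v.map some) = editDist u v := by
  induction u generalizing v with
  | nil => simp [fa_nil_left]
  | cons a u ihu =>
    induction v with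
    | nil => simp [fa_nil_right]
    | cons b v ih =>
      have h1 := ihu v
      have h2 := ihu (b :: v)
      simp only [List.map_cons, fa_cons_cons, Option.some.injEq] at ih h2 ⊢
      rw [h1, h2, ih]

end Ed

theorem fa_ylen (y : List ℕ) (a c : ℤ) : (ysub y a c).length = (c - a).toNat := by simp [ysub]

theorem fa_yapp (y : List ℕ) {a b c : ℤ} (h1 : a ≤ b) (h2 : b ≤ c) : ysub y a c = ysub y a b ++ ysub y b c := by
  rw [ysub, show (c - a).toNat = (b - a).toNat + (c - b).toNat by omega, List.range_add, List.map_append,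
    List.map_map]
  congr 1
  refine List.map_congr_left fun j _ => ?_
  simp only [Function.comp]
  congr 1
  omega

/-- `Fx` as a function of the substring -/
def faG (y : List ℕ) (u : List (Option ℕ)) (a c : ℤ) : ℕ :=
  if a ≤ c then editDist u (ysub y a c) else u.length + (a - c).toNat

theorem fa_lipc (y : List ℕ) (u : List (Option ℕ)) (a : ℤ) {c c' : ℤ} (h : c ≤ c') :
    faG y u a c' ≤ faG y u a c + (c' - c).toNat ∧ faG y u a c ≤ faG y u a c' + (c' - c).toNat := by
  unfold faG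
  split_ifs with h1 h2 h2
  · have a1 := fa_append u [] (ysub y a c) (ysub y c c')
    have a2 := fa_post u (ysub y a c) (ysub y c c')
    rw [List.append_nil, fa_nil_left] at a1
    rw [← fa_yapp y h2 h, fa_ylen] at a1 a2
    exact ⟨a1, a2⟩
  · have a1 := fa_max u (ysub y a c')
    have a2 := fa_len1 u (ysub y a c')
    rw [fa_ylen] at a1 a2
    omega
  · omega
  · omega

theorem fa_lipa (y : List ℕ) (u : List (Option ℕ)) (c : ℤ) {a a' : ℤ} (h : a ≤ a') :
    faG y u a' c ≤ faG y u a c + (a' - a).toNat ∧ faG y u a c ≤ faG y u a' c + (a' - a).toNat := by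
  unfold faG
  split_ifs with h1 h2 h2
  · have a1 := fa_append [] u (ysub y a a') (ysub y a' c)
    have a2 := fa_pre u (ysub y a a') (ysub y a' c)
    rw [List.nil_append, fa_nil_left] at a1
    rw [← fa_yapp y h h1, fa_ylen] at a1 a2
    omega
  · omega
  · have a1 := fa_max u (ysub y a c)
    have a2 := fa_len1 u (ysub y a c)
    rw [fa_ylen] at a1 a2
    omega
  · omega

theorem fa_lip (y : List ℕ) (u : List (Option ℕ)) (a c a' c' : ℤ) :
    faG y u a c ≤ faG y u a' c' + (a - a').natAbs + (c - c').natAbs := by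
  have h1 : faG y u a c ≤ faG y u a' c + (a - a').natAbs := by
    rcases le_total a a' with h | h
    · have := (fa_lipa y u c h).2; omega
    · have := (fa_lipa y u c h).1; omega
  have h2 : faG y u a' c ≤ faG y u a' c' + (c - c').natAbs := by
    rcases le_total c c' with h | h
    · have := (fa_lipc y u a' h).2; omega
    · have := (fa_lipc y u a' h).1; omega
  omega

theorem fa_sub (y : List ℕ) (u u' : List (Option ℕ)) (a b c : ℤ) :
    faG y (u ++ u') a c ≤ faG y u a b + faG y u' b c := by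
  have k1 : faG y (u ++ u') a c ≤ u.length + faG y u' a c := by
    unfold faG
    split_ifs
    · simpa [fa_nil_right] using fa_append u u' [] (ysub y a c)
    · rw [List.length_append]; omega
  have k2 : faG y (u ++ u') a c ≤ faG y u a c + u'.length := by
    unfold faG
    split_ifs
    · simpa [fa_nil_right] using fa_append u u' (ysub y a c) []
    · rw [List.length_append]; omega
  by_cases h1 : a ≤ b
  · by_cases h2 : b ≤ c
    · simp only [faG, h1, h2, h1.trans h2, if_true, fa_yapp y h1 h2]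
      exact fa_append _ _ _ _
    · have := fa_lip y u a c a b
      have e : faG y u' b c = u'.length + (b - c).toNat := if_neg h2
      omega
  · have := fa_lip y u' a c b c
    have e : faG y u a b = u.length + (a - b).toNat := if_neg h1
    omega

theorem fa_spl (y : List ℕ) (u u' : List (Option ℕ)) (a c : ℤ) :
    ∃ b, faG y u a b + faG y u' b c ≤ faG y (u ++ u') a c := by
  by_cases h : a ≤ c
  · obtain ⟨v₁, v₂, h1, h2⟩ := fa_split u u' (ysub y a c)
    have h3 := congrArg List.length h1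
    rw [fa_ylen, List.length_append] at h3
    have h4 : a ≤ a + v₁.length := by omega
    have h5 : a + v₁.length ≤ c := by omega
    obtain ⟨h6, h7⟩ := List.append_inj ((fa_yapp y h4 h5).symm.trans h1) (by rw [fa_ylen]; omega)
    refine ⟨a + v₁.length, ?_⟩
    simp only [faG, h, h4, h5, if_true, h6, h7]
    exact h2
  · refine ⟨a, ?_⟩
    simp only [faG, h, le_refl, if_true, if_false, ysub, sub_self, Int.toNat_zero, List.range_zero, List.map_nil,
      fa_nil_right, List.length_append]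
    omega

theorem fa_xlen (x : List ℕ) {l r : ℕ} (h : r ≤ x.length) : (xsub x l r).length = r - l := by
  simp only [xsub, List.length_map, List.length_take, List.length_drop]
  omega

theorem fa_xapp (x : List ℕ) {l m r : ℕ} (h1 : l ≤ m) (h2 : m ≤ r) : xsub x l r = xsub x l m ++ xsub x m r := by
  rw [xsub, show r - l = (m - l) + (r - m) by omega, List.take_add, List.map_append, List.drop_drop,
    show l + (m - l) = m by omega]
  rfl

theorem fa_FF (x y : List ℕ) (e i : ℕ) (α γ : ℤ) : FF x y e i α γ =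
    faG y (xsub x (pos x.length e i) (pos x.length e (i + 1))) (pos x.length e i + α) (pos x.length e (i + 1) + γ) := by
  rw [FF, Fx, faG, fa_xlen x (r := pos x.length e (i + 1)) (min_le_right _ _)]

theorem fa_pos (n e i : ℕ) : pos n e i ≤ pos n e (i + 1) ∧ pos n e (i + 1) ≤ pos n e i + 2 ^ e ∧
    pos n e (i + 1) ≤ n ∧ pos n (e + 1) i = pos n e (2 * i) := by
  simp only [pos, add_mul, one_mul, show i * 2 ^ (e + 1) = 2 * i * 2 ^ e by ring]
  generalize 2 ^ e = t
  exact ⟨by omega, by omega, by omega, trivial⟩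

/-- First prove the usual facts on `editDist` (recurrence, `editDist (u ++ u') (v ++ v') ≤ …`, every
`editDist (u ++ u') v` splits `v`, adding or deleting one symbol at either end of `v` changes the distance
by at most one, `| |u| - |v| | ≤ editDist u v ≤ max |u| |v|`), then treat the reversed case `c < a`.
Note `pos nx (e+1) i = pos nx e (2 i)` and `pos nx e (i+1) - pos nx e i ≤ 2^e`. -/
theorem FF_ok (x y : List ℕ) : FOk (FF x y) := by
  have key : ∀ e i α γ, FF x y (e + 1) i α γ =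
      faG y (xsub x (pos x.length e (2 * i)) (pos x.length e (2 * i + 1)) ++
        xsub x (pos x.length e (2 * i + 1)) (pos x.length e (2 * i + 1 + 1))) (pos x.length e (2 * i) + α)
        (pos x.length e (2 * i + 1 + 1) + γ) := fun e i α γ => by
    rw [fa_FF, (fa_pos _ e i).2.2.2, (fa_pos _ e (i + 1)).2.2.2, ← fa_xapp x (fa_pos _ _ _).1 (fa_pos _ _ _).1]
    rfl
  refine ⟨fun e i α γ α' γ' => ?_, fun e i α γ m => ?_, fun e i α γ => ?_, fun e i α γ => ?_, fun e i α γ => ?_⟩
  · rw [fa_FF, fa_FF]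
    simpa using fa_lip y _ (pos x.length e i + α) (pos x.length e (i + 1) + γ) (pos x.length e i + α')
      (pos x.length e (i + 1) + γ')
  · rw [key, fa_FF, fa_FF]
    exact fa_sub _ _ _ _ _ _
  · rw [key]
    obtain ⟨b, hb⟩ := fa_spl y _ _ (pos x.length e (2 * i) + α) (pos x.length e (2 * i + 1 + 1) + γ)
    refine ⟨b - pos x.length e (2 * i + 1), ?_⟩
    rw [fa_FF, fa_FF, add_sub_cancel]
    exact hb
  · obtain ⟨h1, h2, h3, -⟩ := fa_pos x.length e i
    rw [FF, Fx]
    split_ifs
    · have a1 := fa_len1 (xsub x (pos x.length e i) (pos x.length e (i + 1)))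
        (ysub y (pos x.length e i + α) (pos x.length e (i + 1) + γ))
      have a2 := fa_len2 (xsub x (pos x.length e i) (pos x.length e (i + 1)))
        (ysub y (pos x.length e i + α) (pos x.length e (i + 1) + γ))
      rw [fa_xlen x h3, fa_ylen] at a1 a2
      omega
    · omega
  · obtain ⟨h1, h2, h3, -⟩ := fa_pos x.length e i
    rw [FF, Fx]
    split_ifs
    · have a1 := fa_max (xsub x (pos x.length e i) (pos x.length e (i + 1)))
        (ysub y (pos x.length e i + α) (pos x.length e (i + 1) + γ))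
      rw [fa_xlen x h3, fa_ylen] at a1
      omega
    · omega

theorem FF_root (x y : List ℕ) {e : ℕ} (he : x.length ≤ 2 ^ e) :
    FF x y e 0 0 ((y.length : ℤ) - x.length) = editDist x y := by
  have h1 : pos x.length e 0 = 0 := by simp [pos]
  have h2 : pos x.length e (0 + 1) = x.length := by simp [pos, he]
  have h3 : xsub x 0 x.length = x.map some := by simp [xsub]
  have h4 : ysub y 0 y.length = y.map some := by
    refine List.ext_getElem (by simp [ysub]) fun j a b => ?_
    simp only [List.length_map] at b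
    simp [ysub, ysym, b]
  rw [FF, h1, h2, add_sub_cancel, Fx, Nat.cast_zero, add_zero, if_pos (Int.natCast_nonneg _), h3, h4, fa_map]

open Classical in
/-- The cost of a leaf. -/
theorem FF_leaf (x y : List ℕ) (i : ℕ) (α γ : ℤ) :
    FF x y 0 i α γ = if x.length ≤ i then (γ - α).natAbs else
      if α ≤ γ then (γ - α).natAbs +
        (if ∃ z : ℤ, α ≤ z ∧ z ≤ γ ∧ ysym y (i + z) = x[i]? then 0 else 1)
      else (γ - α).natAbs := by
  rw [FF, Fx]
  simp only [pos, pow_zero, mul_one]
  by_cases h : x.length ≤ i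
  · rw [if_pos h, min_eq_right h, min_eq_right (by omega), show xsub x x.length x.length = [] by simp [xsub],
      fa_nil_left, fa_ylen]
    split_ifs <;> omega
  · have h0 : i < x.length := not_le.1 h
    have h1 : xsub x i (i + 1) = [x[i]?] := by
      rw [xsub, Nat.add_sub_cancel_left, List.drop_eq_getElem_cons h0, List.getElem?_eq_getElem h0]
      rfl
    rw [if_neg h, min_eq_left h0.le, min_eq_left h0, h1]
    by_cases h2 : α ≤ γ
    · have h3 := fa_ylen y (i + α) ((i + 1 : ℕ) + γ)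
      have h4 : x[i]? ∈ ysub y (i + α) ((i + 1 : ℕ) + γ) ↔ ∃ z : ℤ, α ≤ z ∧ z ≤ γ ∧ ysym y (i + z) = x[i]? := by
        simp only [ysub, List.mem_map, List.mem_range]
        constructor
        · rintro ⟨j, a1, a2⟩
          exact ⟨α + j, by omega, by omega, by rw [← add_assoc, a2]⟩
        · rintro ⟨z, a1, a2, a3⟩
          exact ⟨(z - α).toNat, by omega, by rw [← a3]; congr 1; omega⟩
      rw [if_pos (by omega), if_pos h2]
      rcases hv : ysub y (i + α) ((i + 1 : ℕ) + γ) with _ | ⟨b, v⟩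
      · rw [hv, List.length_nil] at h3
        exact absurd h3 (by omega)
      · rw [hv] at h3 h4
        rw [List.length_cons] at h3
        rw [fa_single, show v.length = (γ - α).natAbs by omega]
        simp only [h4]
    · rw [if_neg h2]
      split_ifs
      · have h3 := fa_ylen y (i + α) ((i + 1 : ℕ) + γ)
        rw [List.eq_nil_of_length_eq_zero (h3.trans (by omega)), fa_nil_right, List.length_singleton]
        omega
      · omega

theorem editDist_self (x : List ℕ) : editDist x x = 0 := by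
  induction x with
  | nil => rfl
  | cons a x ih => simp [fa_cons_cons, ih]


end Crest.Agent.R288
end

-- ▼ part PVb/R288/Band
section

/-!
# R288: the banded dynamic programme is exact
-/

set_option autoImplicit false

namespace Crest.Agent.R288

open Crest.Agent.Lib.PT RT

variable {P : Par} {mem : ℕ → ℕ} {pr : Call → Option (RT V)} {x y : List ℕ}

theorem band_seq {β γ : Type} (l : List β) (f : β → γ) :
    seq (l.map fun a => (RT.pure (f a) : RT γ)) = .pure (l.map f) := by
  induction l with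
  | nil => rfl
  | cons a l ih => rw [List.map_cons, seq_cons, ih]; rfl

theorem band_mn {l : List ℕ} (h : l ≠ []) : mn l ∈ l ∧ ∀ a ∈ l, mn l ≤ a := by
  unfold mn
  rcases hm : l.argmin id with _ | b
  · exact absurd (List.argmin_eq_none.1 hm) h
  · exact ⟨List.argmin_mem hm, fun a ha => List.le_of_mem_argmin (f := id) ha hm⟩

theorem band_getD {β : Type} (f : ℕ → β) (d : β) {n a : ℕ} (h : a < n) : ((List.range n).map f).getD a d = f a := by
  simp [List.getD_eq_getElem?_getD, h]

theorem band_any (f : ℕ → Bool) {n a a' : ℕ} (h : a ≤ a') (h' : a' < n) :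
    ((((List.range n).map f).drop a).take (a' - a + 1)).any id = true ↔ ∃ b, a ≤ b ∧ b ≤ a' ∧ f b = true := by
  rw [List.any_eq_true]
  constructor
  · rintro ⟨v, hv, hv'⟩
    obtain ⟨j, hj, rfl⟩ := List.getElem_of_mem hv
    simp only [List.length_take, List.length_drop, List.length_map, List.length_range] at hj
    simp only [List.getElem_take, List.getElem_drop, List.getElem_map, List.getElem_range, id] at hv'
    exact ⟨a + j, by omega, by omega, hv'⟩
  · rintro ⟨b, h1, h2, h3⟩
    refine ⟨true, ?_, rfl⟩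
    rw [List.mem_iff_getElem]
    refine ⟨b - a, by simp only [List.length_take, List.length_drop, List.length_map, List.length_range]; omega, ?_⟩
    simp only [List.getElem_take, List.getElem_drop, List.getElem_map, List.getElem_range]
    rw [show a + (b - a) = b by omega, h3]

theorem band_leaf (hm : MemOk P mem x y) (i : ℕ) (α : ℤ) (κ : Un) {a a' : ℕ} (ha' : a' ≤ 2 * κ.n) :
    leafC (decide (P.1 ≤ i)) (matchL P i α κ (mem (min (2 + i) (P.1 + P.2.1 + 2)) ::
      (List.range (2 * κ.n + 1)).map fun k => mem (min (2 + P.1 + (ypos i α κ k).toNat) (P.1 + P.2.1 + 2)))) a a' =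
      FF x y 0 i (α - κ.n + a) (α - κ.n + a') := by
  rw [FF_leaf, leafC, hm.hx]
  by_cases h : x.length ≤ i
  · rw [if_pos (decide_eq_true h), if_pos h]
    omega
  · rw [if_neg (by simpa using h), if_neg h]
    by_cases h2 : a ≤ a'
    · rw [if_pos h2, if_pos (show α - κ.n + a ≤ α - κ.n + a' by omega)]
      have h0 : i < x.length := not_le.1 h
      have key : ∀ b ≤ 2 * κ.n, (0 ≤ ypos i α κ b ∧ ypos i α κ b < P.2.1 ∧
          (mem (min (2 + i) (x.length + P.2.1 + 2)) :: (List.range (2 * κ.n + 1)).map fun k =>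
            mem (min (2 + x.length + (ypos i α κ k).toNat) (x.length + P.2.1 + 2))).getD (b + 1) 0 =
          (mem (min (2 + i) (x.length + P.2.1 + 2)) :: (List.range (2 * κ.n + 1)).map fun k =>
            mem (min (2 + x.length + (ypos i α κ k).toNat) (x.length + P.2.1 + 2))).getD 0 0) ↔
          ysym y (i + (α - κ.n + b)) = x[i]? := fun b hb => by
        rw [List.getD_cons_succ, List.getD_cons_zero, band_getD _ _ (by omega), hm.hy,
          show (i : ℤ) + (α - κ.n + b) = ypos i α κ b by unfold ypos; ring, min_eq_left (show 2 + i ≤ _ by omega),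
          hm.mx i h0, List.getElem?_eq_getElem h0, ysym]
        generalize ypos i α κ b = z
        constructor
        · rintro ⟨h1, h2, h3⟩
          have h4 : z.toNat < y.length := by omega
          rw [min_eq_left (by omega), hm.my _ h4] at h3
          rw [if_pos h1, List.getElem?_eq_getElem h4, h3]
        · intro h1
          split_ifs at h1 with h2
          obtain ⟨h4, h5⟩ := List.getElem?_eq_some_iff.1 h1
          exact ⟨h2, by omega, by rw [min_eq_left (by omega), hm.my _ h4, h5]⟩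
      congr 1
      · omega
      · refine @if_congr _ _ _ _ (Classical.propDecidable _) _ _ _ _ ?_ rfl rfl
        rw [matchL, band_any _ h2 (by omega)]
        constructor
        · rintro ⟨b, h3, h4, h5⟩
          exact ⟨α - κ.n + b, by omega, by omega, (key b (by omega)).1 (of_decide_eq_true h5)⟩
        · rintro ⟨z, h3, h4, h5⟩
          obtain ⟨b, rfl⟩ : ∃ b : ℕ, z = α - κ.n + b := ⟨(z - (α - κ.n)).toNat, by omega⟩
          exact ⟨b, by omega, by omega, decide_eq_true ((key b (by omega)).2 h5)⟩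
    · rw [if_neg h2, if_neg (show ¬ α - κ.n + a ≤ α - κ.n + a' by omega)]
      omega

theorem band_unf (h : PrOk P mem pr) (e i : ℕ) (α : ℤ) (κ : Un) (row : List ℕ) :
    alg.ev P pr (cRow e i α κ row) =
      (seq ((rowS1 P (⟨e⟩, i, α, κ, row)).map (alg.ev P pr))).bind fun r1 =>
        (seq ((rowS2 (⟨e⟩, i, α, κ, row) r1).map (alg.ev P pr))).bind fun r2 =>
          .pure (rowOut P (⟨e⟩, i, α, κ, row) r1 r2) := by
  rw [h.unfold ⟨_, _, cst_row e i α κ row⟩ (by simp [cRow]) (by simp [cRow])]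
  simp [algS1, algS2, algOut, cRow, Dec.dec_enc]

/-- Band index `a ≤ 2κ` stands for the offset `α - κ + a`.  Induction on `e`; leaves by `FF_leaf`, the step by
`FOk.sub` (lower bound) and `FOk.split`, `FOk.disp` (upper bound: the optimal midpoint stays in the band). -/
theorem ev_row (h : PrOk P mem pr) (hm : MemOk P mem x y) (e i : ℕ) (α : ℤ) (κ : Un) (row : List ℕ) :
    ∃ out : List ℕ, alg.ev P pr (cRow e i α κ row) = .pure (enc out) ∧ ∀ a' ≤ 2 * κ.n,
      (out.getD a' (κ.n + 1) = κ.n + 1 ∨ ∃ a ≤ 2 * κ.n, row.getD a (κ.n + 1) +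
        FF x y e i (α - κ.n + a) (α - κ.n + a') ≤ out.getD a' (κ.n + 1)) ∧
      out.getD a' (κ.n + 1) ≤ κ.n + 1 ∧
      ∀ a ≤ 2 * κ.n, ((a : ℤ) - κ.n).natAbs + FF x y e i (α - κ.n + a) (α - κ.n + a') ≤ κ.n →
        out.getD a' (κ.n + 1) ≤ row.getD a (κ.n + 1) + FF x y e i (α - κ.n + a) (α - κ.n + a') := by
  induction e generalizing i row with
  | zero =>
    refine ⟨rowLeaf κ (decide (P.1 ≤ i)) (matchL P i α κ (mem (min (2 + i) (P.1 + P.2.1 + 2)) ::
      (List.range (2 * κ.n + 1)).map fun k => mem (min (2 + P.1 + (ypos i α κ k).toNat) (P.1 + P.2.1 + 2)))) row,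
      ?_, fun a' ha' => ?_⟩
    · rw [band_unf h]
      simp only [rowS1, rowS2, rowOut, if_true, List.map_cons, List.map_map, Function.comp_def, ev_read h,
        seq_cons, band_seq, pure_bind, List.map_nil, seq_nil, rds, Dec.dec_enc]
    · rw [rowLeaf, band_getD _ _ (by omega)]
      obtain ⟨h1, h2⟩ := band_mn (l := (List.range (2 * κ.n + 1)).map fun a => row.getD a (κ.n + 1) +
        leafC (decide (P.1 ≤ i)) (matchL P i α κ (mem (min (2 + i) (P.1 + P.2.1 + 2)) ::
          (List.range (2 * κ.n + 1)).map fun k =>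
            mem (min (2 + P.1 + (ypos i α κ k).toNat) (P.1 + P.2.1 + 2)))) a a') (by simp)
      simp only [band_leaf hm i α κ ha'] at h1 h2 ⊢
      refine ⟨?_, min_le_left _ _, fun a ha _ => (min_le_right _ _).trans
        (h2 _ (List.mem_map.2 ⟨a, List.mem_range.2 (by omega), rfl⟩))⟩
      obtain ⟨a, ha, h3⟩ := List.mem_map.1 h1
      rw [List.mem_range] at ha
      rw [← h3]
      rcases le_total (κ.n + 1) (row.getD a (κ.n + 1) + FF x y 0 i (α - κ.n + a) (α - κ.n + a')) with h4 | h4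
      · exact Or.inl (min_eq_left h4)
      · exact Or.inr ⟨a, by omega, (min_eq_right h4).ge⟩
  | succ e ih =>
    obtain ⟨o1, e1, h1⟩ := ih (2 * i) row
    obtain ⟨o2, e2, h2⟩ := ih (2 * i + 1) o1
    have hF := FF_ok x y
    refine ⟨o2, ?_, fun a' ha' => ?_⟩
    · rw [band_unf h]
      simp only [rowS1, rowS2, rowOut, Nat.add_eq_zero_iff, one_ne_zero, and_false, if_false, List.map_cons,
        List.map_nil, seq_cons, seq_nil, Nat.add_sub_cancel, e1, pure_bind, rd, List.getD_cons_zero,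
        Dec.dec_enc, e2]
    · obtain ⟨k1, k2, k3⟩ := h2 a' ha'
      refine ⟨?_, k2, fun a ha hle => ?_⟩
      · rcases k1 with k1 | ⟨b, hb, k1⟩
        · exact Or.inl k1
        · rcases (h1 b hb).1 with k4 | ⟨a, ha, k4⟩
          · exact Or.inl (by omega)
          · have := hF.sub e i (α - κ.n + a) (α - κ.n + a') (α - κ.n + b)
            exact Or.inr ⟨a, ha, by omega⟩
      · obtain ⟨m, hm'⟩ := hF.split e i (α - κ.n + a) (α - κ.n + a')
        have hd := hF.disp e (2 * i) (α - κ.n + a) m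
        obtain ⟨b, rfl⟩ : ∃ b : ℕ, m = α - κ.n + b := ⟨(m - (α - κ.n)).toNat, by omega⟩
        have hb : b ≤ 2 * κ.n := by omega
        have k4 := (h1 b hb).2.2 a ha (by omega)
        have k5 := k3 b hb (by omega)
        omega

theorem ev_small (h : PrOk P mem pr) (hm : MemOk P mem x y) (e i : ℕ) (α γ : ℤ) (κ : ℕ) :
    alg.ev P pr (cSmall e i α γ κ) = .pure (enc (min (FF x y e i α γ) (κ + 1))) := by
  rw [h.unfold (tm_small e i α γ κ) (by simp [cSmall]) (by simp [cSmall])]
  have e0 : ∀ r1 r2, algOut P (cSmall e i α γ κ) r1 r2 = smallOut (⟨e⟩, i, α, γ, ⟨κ⟩) r1 := fun r1 r2 => by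
    simp [algOut, cSmall, Dec.dec_enc]
  have e1 : algS1 P (cSmall e i α γ κ) = smallS1 (⟨e⟩, i, α, γ, ⟨κ⟩) := by simp [algS1, cSmall, Dec.dec_enc]
  have e2 : ∀ r1, algS2 P (cSmall e i α γ κ) r1 = [] := fun r1 => by simp [algS2, cSmall]
  simp only [e0, e1, e2, smallS1, smallOut]
  by_cases hk : (γ - α).natAbs ≤ κ
  · obtain ⟨o, eo, ho⟩ := ev_row h hm e i α ⟨κ⟩ (row0 ⟨κ⟩)
    simp only [hk, if_true, List.map_cons, List.map_nil, seq_cons, seq_nil, eo, pure_bind, rd,
      List.getD_cons_zero, Dec.dec_enc]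
    obtain ⟨k1, k2, k3⟩ := ho (γ - α + κ).toNat (by dsimp only; omega)
    dsimp only at k1 k2 k3
    rw [show α - κ + ((γ - α + κ).toNat : ℕ) = γ by omega] at k1 k3
    have k4 := k3 κ (by omega)
    rw [row0, band_getD _ _ (by dsimp only; omega), if_pos rfl, sub_add_cancel] at k4
    congr 2
    rcases k1 with k1 | ⟨a, ha, k1⟩
    · omega
    · rw [row0, band_getD _ _ (by dsimp only; omega)] at k1
      dsimp only at k1
      split_ifs at k1 with h5
      · rw [h5, sub_add_cancel] at k1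
        omega
      · omega
  · have := (FF_ok x y).disp e i α γ
    simp only [hk, if_false, List.map_nil, seq_nil, pure_bind]
    congr 2
    omega

end Crest.Agent.R288
end

-- ▼ part PVb/R288/SemT
section

/-!
# R288: the scheme satisfies the equations of the model, auxiliary calls

`M = theModel P mem x y`.  Unfold with `PrOk.unfold`, `evd_vec`, `evd_avg`, `evd_sum`, `evd_rnd`; termination of
subcalls from `tm_top`, `tm_sn`, `tm_avg`, `tm_vec` or `Scheme.Tm.s1/s2`.
-/

set_option autoImplicit false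

namespace Crest.Agent.R288

open Crest.Agent.Lib.PT RT

variable {P : Par} {mem : ℕ → ℕ} {x y : List ℕ}

section aux

variable {pr : Call → Option (RT V)}

theorem semt_unfold (β : Type) [Enc β] [Dec β] (h : PrOk P mem pr) {k : Call} (hk : alg.Tm P k) (h1 : 1 < k.1)
    (h8 : k.1 ≠ 8) : evd β P pr k = (seq ((algS1 P k).map (alg.ev P pr))).bind fun r1 =>
      (seq ((algS2 P k r1).map (alg.ev P pr))).map fun r2 => dec (algOut P k r1 r2) := by
  unfold evd
  rw [h.unfold hk h1 h8]
  simp only [RT.map, bind_assoc, pure_bind]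

theorem semt_seq (β : Type) [Enc β] [Dec β] (ks : List Call) :
    seq (ks.map (evd β P pr)) = (seq (ks.map (alg.ev P pr))).map rds := by
  have := seq_map (ks.map (alg.ev P pr)) (dec : V → β)
  rw [List.map_map] at this
  exact this

theorem semt_one {γ : Type} (β : Type) [Enc β] [Dec β] (k : Call) (f : β → RT γ) :
    ((seq ([k].map (alg.ev P pr))).bind fun r => f (rd r 0)) = (evd β P pr k).bind f := by
  simp only [List.map_cons, List.map_nil, seq_single, evd, bind_map]
  rfl

theorem semt_two {γ : Type} (β β' : Type) [Enc β] [Dec β] [Enc β'] [Dec β'] (k k' : Call) (f : β → β' → RT γ) :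
    ((seq ([k, k'].map (alg.ev P pr))).bind fun r => f (rd r 0) (rd r 1)) =
      (evd β P pr k).bind fun a => (evd β' P pr k').bind (f a) := by
  simp only [List.map_cons, List.map_nil, seq_cons, seq_nil, evd, bind_map, bind_assoc, pure_bind]
  rfl

theorem semt_many {γ : Type} (β : Type) [Enc β] [Dec β] (ks : List Call) (f : List β → RT γ) :
    ((seq (ks.map (alg.ev P pr))).bind fun r => f (rds r)) = (seq (ks.map (evd β P pr))).bind f := by
  rw [semt_seq, bind_map]

theorem semt_zip {ι α β : Type} (l : List ι) (t : ι → RT α) (g : ι → α → β) :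
    seq (l.map fun j => (t j).map (g j)) = (seq (l.map t)).map (List.zipWith g l) := by
  induction l with
  | nil => rfl
  | cons a l ih =>
    simp only [List.map_cons, seq_cons, ih]
    simp only [RT.map, bind_assoc, pure_bind, List.zipWith_cons_cons]

theorem semt_range {α β : Type} (n : ℕ) (t : ℕ → RT α) (g : ℕ → α → β) (d : α) :
    ((seq ((List.range n).map t)).map fun r => (List.range n).map fun j => g j (r.getD j d)) =
      seq ((List.range n).map fun j => (t j).map (g j)) := by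
  rw [semt_zip]
  refine bind_congr ((All_seq_length _).mono fun r hr => ?_)
  congr 1
  simp only [List.length_map, List.length_range] at hr
  refine List.ext_getElem (by simp [hr]) fun j h1 h2 => ?_
  simp only [List.length_map, List.length_range] at h1
  simp [List.getD_eq_getElem?_getD, List.getElem?_eq_getElem (hr ▸ h1)]

theorem semt_tm_avg (hP : Good P) {k : Call} {e : ℕ} (h : alg.Tm P (cAvg k e)) : alg.Tm P k := by
  refine h.s1 (by simp [cAvg]) k ?_
  have := hP.p2_pos e
  simp [alg, algS1, cAvg, List.mem_replicate, this.ne']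

theorem semt_tm_vec {ks : List Call} (h : alg.Tm P (cVec ks)) : ∀ k ∈ ks, alg.Tm P k := by
  have := h.s1 (by simp [cVec])
  simpa [alg, algS1, cVec] using this

theorem semt_tm_sum {ks : List Call} (h : alg.Tm P (cSum ks)) : ∀ k ∈ ks, alg.Tm P k := by
  have := h.s1 (by simp [cSum])
  simpa [alg, algS1, cSum] using this

theorem semt_vec {ι : Type} (β : Type) [Enc β] [Dec β] (h : PrOk P mem pr) {l : List ι} {f : ι → Call}
    (hk : alg.Tm P (cVec (l.map f))) {g : ι → RT β} (hg : ∀ j ∈ l, alg.Tm P (f j) → evd β P pr (f j) = g j) :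
    evd (List β) P pr (cVec (l.map f)) = seq (l.map g) := by
  rw [evd_vec β h (semt_tm_vec hk), List.map_map]
  congr 1
  exact List.map_congr_left fun j hj => hg j hj (semt_tm_vec hk _ (List.mem_map_of_mem hj))

theorem semt_kK (hP : Good P) {lv : ℕ} (h : lv < P.nw) : P.kK + lv ≤ P.kP := by
  have h1 := hP.small_ll
  have h2 := hP.ll_kR
  unfold Par.nw at h
  unfold Par.kP
  omega

theorem semt_kK0 (hP : Good P) : P.kK ≤ P.kP := by
  have h1 := hP.small_ll
  have h2 := hP.ll_kR
  unfold Par.kP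
  omega

end aux

theorem semt_est (hP : Good P) {r i : ℕ} {s : ℤ × ℤ} {c : Option Ctx} {t : ℕ}
    (h : alg.Tm P (cAvg (cTop r i s c t) P.kP)) :
    evd ℕ P (idealPrim P mem x y) (cAvg (cTop r i s c t) P.kP) = (theModel P mem x y).est P r i s c t :=
  evd_avg (prOk_ideal P mem x y) hP (semt_tm_avg hP h) le_rfl

theorem evd_tab (hP : Good P) (r i : ℕ) (Zs : List ℤ) (t : ℕ) :
    alg.Tm P (cTab P r i Zs t) ∧
    evd Tab P (idealPrim P mem x y) (cTab P r i Zs t) = (theModel P mem x y).tab P r i Zs t := by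
  have h : alg.Tm P (cTab P r i Zs t) := by
    refine tm_vec fun k hk => ?_
    obtain ⟨j, -, rfl⟩ := List.mem_map.1 hk
    refine tm_vec fun k hk => ?_
    obtain ⟨z1, -, rfl⟩ := List.mem_map.1 hk
    refine tm_vec fun k hk => ?_
    obtain ⟨z2, -, rfl⟩ := List.mem_map.1 hk
    exact tm_avg (tm_top hP _ _ _ _ _ fun h => absurd rfl h) _
  refine ⟨h, semt_vec _ (prOk_ideal P mem x y) h fun j _ h => ?_⟩
  refine semt_vec _ (prOk_ideal P mem x y) h fun z1 _ h => ?_
  exact semt_vec _ (prOk_ideal P mem x y) h fun z2 _ h => semt_est hP h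

theorem evd_gval (hP : Good P) (r i : ℕ) (s : ℤ × ℤ) (σ t : ℕ) (h : alg.Tm P (cGVal r i s σ t)) :
    evd (Option ℕ) P (idealPrim P mem x y) (cGVal r i s σ t) =
      ((theModel P mem x y).gval P r i s σ t).map some := by
  have e1 : algS1 P (cGVal r i s σ t) = [cTab P r i (zgrid P s.1 σ) (t - 1)] := by
    simp [algS1, cGVal, gvalS1]
  have e2 : ∀ r1, algS2 P (cGVal r i s σ t) r1 = [] := fun r1 => by simp [algS2, cGVal]
  have e3 : ∀ r1 r2, (dec (algOut P (cGVal r i s σ t) r1 r2) : Option ℕ) =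
      some (gN (zgrid P s.1 σ) (rd r1 0) (List.range P.b) s.1 s.2) := fun r1 r2 => by
    simp [algOut, cGVal, gvalOut]
  rw [semt_unfold _ (prOk_ideal P mem x y) h (by simp [cGVal]) (by simp [cGVal])]
  simp only [e1, e2, e3, List.map_nil, seq_nil, map_pure]
  rw [semt_one Tab _ fun tb => .pure (some (gN (zgrid P s.1 σ) tb (List.range P.b) s.1 s.2)),
    (evd_tab hP _ _ _ _).2, Model.gval, map_map]
  rfl

theorem evd_plan (hP : Good P) (r i : ℕ) (s : ℤ × ℤ) (σ φ : ℕ) (h : alg.Tm P (cPlan r i s σ φ)) :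
    evd (Option Plan) P (idealPrim P mem x y) (cPlan r i s σ φ) =
      (theModel P mem x y).plan P r i s σ φ := by
  have e1 : algS1 P (cPlan r i s σ φ) =
      (List.range P.T0).map fun k => cTab P r i (zgrid P s.1 σ) (wnd P φ k) := by
    simp [algS1, cPlan, planS1]
  have e2 : ∀ r1, algS2 P (cPlan r i s σ φ) r1 = [] := fun r1 => by simp [algS2, cPlan]
  have e3 : ∀ r1 r2, (dec (algOut P (cPlan r i s σ φ) r1 r2) : Option Plan) =
      planOf P s.1 s.2 σ (rds r1) := fun r1 r2 => by
    simp [algOut, cPlan, planOut]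
  rw [semt_unfold _ (prOk_ideal P mem x y) h (by simp [cPlan]) (by simp [cPlan])]
  simp only [e1, e2, e3, List.map_nil, seq_nil, map_pure]
  rw [semt_many Tab _ fun tbs => .pure (planOf P s.1 s.2 σ tbs), List.map_map]
  simp only [Function.comp_def, (evd_tab hP _ _ _ _).2]
  rfl

theorem evd_sval (hP : Good P) (r i : ℕ) (s : ℤ × ℤ) (σ t : ℕ) (h : alg.Tm P (cSVal r i s σ t)) :
    evd (Option ℕ) P (idealPrim P mem x y) (cSVal r i s σ t) =
      (theModel P mem x y).sval P r i s σ t := by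
  have e1 : algS1 P (cSVal r i s σ t) = [cPlan r i s σ (phs P t)] := by
    simp [algS1, cSVal, svalS1]
  have e2 : ∀ r1, algS2 P (cSVal r i s σ t) r1 =
      (rd r1 0 : Option Plan).elim [] fun pl => [cAvg (cSRoot P r i pl t) P.kK] := fun r1 => by
    simp [algS2, cSVal, svalS2]
  have e3 : ∀ r1 r2, (dec (algOut P (cSVal r i s σ t) r1 r2) : Option ℕ) =
      (rd r1 0 : Option Plan).map fun pl => (rd r2 0 : ℕ) + junc P pl s.1 s.2 := fun r1 r2 => by
    simp [algOut, cSVal, svalOut]
  have t1 : alg.Tm P (cPlan r i s σ (phs P t)) := h.s1 (by simp [cSVal]) _ (by simp [alg, e1])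
  have t2 : ∀ pl, alg.Tm P (cAvg (cSRoot P r i pl t) P.kK) := fun pl =>
    h.s2 (by simp [cSVal]) [enc (some pl)] _ (by simp [alg, e2, rd])
  rw [semt_unfold _ (prOk_ideal P mem x y) h (by simp [cSVal]) (by simp [cSVal])]
  simp only [e1, e2, e3]
  rw [semt_one (Option Plan) _ fun o => (seq ((o.elim [] fun pl => [cAvg (cSRoot P r i pl t) P.kK]).map
    (alg.ev P (idealPrim P mem x y)))).map fun r2 => o.map fun pl => (rd r2 0 : ℕ) + junc P pl s.1 s.2,
    evd_plan hP _ _ _ _ _ t1, Model.sval]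
  congr 1
  funext o
  cases o with
  | none => rfl
  | some pl =>
    simp only [Option.elim_some, Option.map_some, RT.map]
    rw [semt_one ℕ _ fun v => .pure (some (v + junc P pl s.1 s.2)),
      evd_avg (prOk_ideal P mem x y) hP (semt_tm_avg hP (t2 pl)) (semt_kK0 hP)]
    rfl

theorem evd_past (hP : Good P) (r i : ℕ) (c : Ctx) (t : ℕ) (h : alg.Tm P (cPast r i c t)) :
    evd (List ℕ) P (idealPrim P mem x y) (cPast r i c t) = (theModel P mem x y).past P r i c t := by
  have e1 : algS1 P (cPast r i c t) = [cVec ((om c).map fun s => cAvg (cTop r i s none (t - 1)) P.kP),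
      cVec (if nIn P t = 0 then [] else (om c).map fun s => cAvg (cTop r i s (some c) (t - 1)) P.kP)] := by
    simp [algS1, cPast, pastS1]
  have e2 : ∀ r1, algS2 P (cPast r i c t) r1 = [] := fun r1 => by simp [algS2, cPast]
  have e3 : ∀ r1 r2, (dec (algOut P (cPast r i c t) r1 r2) : List ℕ) = pastOut (rd r1 0) (rd r1 1) :=
    fun r1 r2 => by simp [algOut, cPast, pastOut']
  have t1 := h.s1 (by simp [cPast])
  simp only [alg, e1, List.forall_mem_cons] at t1
  rw [semt_unfold _ (prOk_ideal P mem x y) h (by simp [cPast]) (by simp [cPast])]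
  simp only [e1, e2, e3, List.map_nil, seq_nil, map_pure]
  rw [semt_two (List ℕ) (List ℕ) _ _ fun A B => .pure (pastOut A B),
    semt_vec _ (prOk_ideal P mem x y) t1.1 fun s _ h => semt_est hP h, Model.past]
  have t2 := t1.2.1
  split_ifs at t2 ⊢ with h0
  · rw [evd_vec _ (prOk_ideal P mem x y) (by simp)]
    rfl
  · rw [semt_vec _ (prOk_ideal P mem x y) t2 fun s _ h => semt_est hP h]
    rfl

theorem evd_fix (hP : Good P) (r i : ℕ) (c : Ctx) (φ : ℕ) (h : alg.Tm P (cFix r i c φ)) :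
    evd (ℕ × List (List (Option Plan))) P (idealPrim P mem x y) (cFix r i c φ) =
      (theModel P mem x y).fix P r i c φ := by
  have e1 : algS1 P (cFix r i c φ) = [cVec ((List.range P.T0).map fun k => cVec ((om c).map fun s =>
      cAvg (cTop r i s none (wnd P φ k)) P.kP)),
      cVec ((List.range P.nC).map fun j => cVec ((om c).map fun s => cPlan r i s (sclC P c j) φ))] := by
    simp [algS1, cFix, fixS1]
  have e2 : ∀ r1, algS2 P (cFix r i c φ) r1 = [] := fun r1 => by simp [algS2, cFix]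
  have e3 : ∀ r1 r2, (dec (algOut P (cFix r i c φ) r1 r2) : ℕ × List (List (Option Plan))) =
      fixOut P c (rd r1 0) (rd r1 1) := fun r1 r2 => by simp [algOut, cFix, fixOut']
  have t1 := h.s1 (by simp [cFix])
  simp only [alg, e1, List.forall_mem_cons] at t1
  rw [semt_unfold _ (prOk_ideal P mem x y) h (by simp [cFix]) (by simp [cFix])]
  simp only [e1, e2, e3, List.map_nil, seq_nil, map_pure]
  rw [semt_two (List (List ℕ)) (List (List (Option Plan))) _ _ fun A B => .pure (fixOut P c A B),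
    semt_vec _ (prOk_ideal P mem x y) t1.1 fun k _ h =>
      semt_vec _ (prOk_ideal P mem x y) h fun s _ h => semt_est hP h,
    semt_vec _ (prOk_ideal P mem x y) t1.2.1 fun j _ h =>
      semt_vec _ (prOk_ideal P mem x y) h fun s _ h => evd_plan hP _ _ _ _ _ h]
  rfl

theorem evd_draw (hP : Good P) (r i : ℕ) (c : Ctx) (σ lv t : ℕ) (h : alg.Tm P (cDraw r i c σ lv t)) :
    evd Drw P (idealPrim P mem x y) (cDraw r i c σ lv t) =
      (theModel P mem x y).draw P r i c σ lv t := by
  have e1 : algS1 P (cDraw r i c σ lv t) = [cRnd P.L] := by simp [algS1, cDraw]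
  have e2 : ∀ r1, algS2 P (cDraw r i c σ lv t) r1 = (tabKeys P c σ lv).map fun c' =>
      cTop (r - 1) (i * P.b + rd r1 0) (c'.1, c'.2.1) (some c') t := fun r1 => by
    simp [algS2, cDraw, drawS2]
  have e3 : ∀ r1 r2, (dec (algOut P (cDraw r i c σ lv t) r1 r2) : Drw) = (lv, rd r1 0, rds r2) :=
    fun r1 r2 => by simp [algOut, cDraw, drawOut]
  rw [semt_unfold _ (prOk_ideal P mem x y) h (by simp [cDraw]) (by simp [cDraw])]
  simp only [e1, e2, e3]
  rw [semt_one ℕ _ fun j => (seq (((tabKeys P c σ lv).map fun c' =>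
      cTop (r - 1) (i * P.b + j) (c'.1, c'.2.1) (some c') t).map (alg.ev P (idealPrim P mem x y)))).map
      fun r2 => ((lv, j, rds r2) : Drw), evd_rnd (prOk_ideal P mem x y), Model.draw]
  congr 1
  funext j
  simp only [RT.map]
  rw [semt_many ℕ _ fun es => .pure ((lv, j, es) : Drw), List.map_map]
  rfl

theorem evd_hint (hP : Good P) (r i : ℕ) (c : Ctx) (σ : ℕ) (pls : List (Option Plan)) (t : ℕ)
    (h : alg.Tm P (cHint r i c σ pls t)) :
    evd (Option Hnt) P (idealPrim P mem x y) (cHint r i c σ pls t) =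
      (theModel P mem x y).hint P r i c σ pls t := by
  have e1 : algS1 P (cHint r i c σ pls t) = (List.range P.nw).flatMap fun lv =>
      List.replicate (P.p2 (P.kK + lv)) (cDraw r i c σ lv t) := by
    simp [algS1, cHint, hintS1]
  have e2 : ∀ r1, algS2 P (cHint r i c σ pls t) r1 =
      (selP P c σ pls (rds r1)).elim [] fun pl => [cAvg (cCent P r i pl t) P.kK] := fun r1 => by
    simp [algS2, cHint, hintS2]
  have e3 : ∀ r1 r2, (dec (algOut P (cHint r i c σ pls t) r1 r2) : Option Hnt) =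
      (selP P c σ pls (rds r1)).map fun pl => (((rd r2 0 : ℕ) + cjunc P pl, cends P pl) : Hnt) :=
    fun r1 r2 => by simp [algOut, cHint, hintOut]
  have t1 : ∀ lv < P.nw, alg.Tm P (cDraw r i c σ lv t) := fun lv hlv => by
    refine h.s1 (by simp [cHint]) _ ?_
    simp only [alg, e1, List.mem_flatMap, List.mem_range, List.mem_replicate]
    exact ⟨lv, hlv, (hP.p2_pos _).ne', rfl⟩
  have t2 : ∀ (ds : List Drw) pl, selP P c σ pls ds = some pl → alg.Tm P (cAvg (cCent P r i pl t) P.kK) :=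
    fun ds pl e => h.s2 (by simp [cHint]) (ds.map enc) _ (by simp [alg, e2, rds, Function.comp_def, e])
  rw [semt_unfold _ (prOk_ideal P mem x y) h (by simp [cHint]) (by simp [cHint])]
  simp only [e1, e2, e3]
  rw [semt_many Drw _ fun ds => (seq (((selP P c σ pls ds).elim [] fun pl =>
    [cAvg (cCent P r i pl t) P.kK]).map (alg.ev P (idealPrim P mem x y)))).map fun r2 =>
      (selP P c σ pls ds).map fun pl => (((rd r2 0 : ℕ) + cjunc P pl, cends P pl) : Hnt), Model.hint,
    Model.draws, List.map_flatMap]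
  congr 1
  · congr 1
    refine List.flatMap_congr fun lv hlv => ?_
    have hlv' := List.mem_range.1 hlv
    rw [List.map_replicate, hP.p2_eq (semt_kK hP hlv'), evd_draw hP _ _ _ _ _ _ (t1 lv hlv')]
  · funext ds
    cases e : selP P c σ pls ds with
    | none => rfl
    | some pl =>
      have t3 := semt_tm_avg hP (t2 ds pl e)
      simp only [Option.elim_some, Option.map_some, RT.map]
      rw [semt_one ℕ _ fun v => .pure (some ((v + cjunc P pl, cends P pl) : Hnt)),
        evd_avg (prOk_ideal P mem x y) hP t3 (semt_kK0 hP), cCent,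
        evd_sum (prOk_ideal P mem x y) (semt_tm_sum t3), List.map_map]
      rfl

theorem evd_com (hP : Good P) (r i : ℕ) (c : Ctx) (t : ℕ) (h : alg.Tm P (cCom r i c t)) :
    evd Com P (idealPrim P mem x y) (cCom r i c t) = (theModel P mem x y).com P r i c t := by
  have e1 : algS1 P (cCom r i c t) = [cPast r i c t, cFix r i c (phs P t)] := by
    simp [algS1, cCom, comS1]
  have e2 : ∀ r1, algS2 P (cCom r i c t) r1 = (List.range P.nC).map fun j => if j < P.kg then cSum [] else
      cHint r i c (sclC P c j) ((rd r1 1 : ℕ × List (List (Option Plan))).2.getD j []) t := fun r1 => by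
    simp [algS2, cCom, comS2]
  have e3 : ∀ r1 r2, (dec (algOut P (cCom r i c t) r1 r2) : Com) =
      ((rd r1 0 : List ℕ), (rd r1 1 : ℕ × List (List (Option Plan))).1,
        (rd r1 1 : ℕ × List (List (Option Plan))).2, (List.range P.nC).map fun j => if j < P.kg then
          statH P ((rd r1 1 : ℕ × List (List (Option Plan))).2.getD j []) else rd r2 j) := fun r1 r2 => by
    simp [algOut, cCom, comOut]
  have t1 := h.s1 (by simp [cCom])
  simp only [alg, e1, List.forall_mem_cons] at t1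
  have t2 : ∀ (f : ℕ × List (List (Option Plan))), ∀ j < P.nC, ¬ j < P.kg →
      alg.Tm P (cHint r i c (sclC P c j) (f.2.getD j []) t) := fun f j hj hj' => by
    refine h.s2 (by simp [cCom]) [.nil, enc f] _ ?_
    simp only [alg, e2, List.mem_map, List.mem_range]
    exact ⟨j, hj, by simp [hj', rd]⟩
  rw [semt_unfold _ (prOk_ideal P mem x y) h (by simp [cCom]) (by simp [cCom])]
  simp only [e1, e2, e3]
  rw [semt_two (List ℕ) (ℕ × List (List (Option Plan))) _ _ fun zs f =>
    (seq (((List.range P.nC).map fun j => if j < P.kg then cSum [] else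
      cHint r i c (sclC P c j) (f.2.getD j []) t).map (alg.ev P (idealPrim P mem x y)))).map fun r2 =>
      ((zs, f.1, f.2, (List.range P.nC).map fun j => if j < P.kg then statH P (f.2.getD j []) else rd r2 j) : Com),
    evd_past hP _ _ _ _ t1.1, evd_fix hP _ _ _ _ t1.2.1, Model.com]
  congr 1
  funext zs
  congr 1
  funext f
  have key := semt_range P.nC (fun j => alg.ev P (idealPrim P mem x y) (if j < P.kg then cSum [] else
      cHint r i c (sclC P c j) (f.2.getD j []) t))
    (fun j v => if j < P.kg then statH P (f.2.getD j []) else (dec v : Option Hnt)) V.nil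
  have k2 : ((List.range P.nC).map fun j => (alg.ev P (idealPrim P mem x y) (if j < P.kg then cSum [] else
      cHint r i c (sclC P c j) (f.2.getD j []) t)).map
      fun v => if j < P.kg then statH P (f.2.getD j []) else (dec v : Option Hnt)) =
      (List.range P.nC).map fun j => (theModel P mem x y).hintj P r i c j (f.2.getD j []) t := by
    refine List.map_congr_left fun j hj => ?_
    unfold Model.hintj
    split_ifs with hj'
    · rw [ev_sum (prOk_ideal P mem x y) (by simp)]
      rfl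
    · exact evd_hint hP _ _ _ _ _ _ (t2 f j (List.mem_range.1 hj) hj')
  rw [← k2, ← key, map_map, List.map_map]
  rfl

end Crest.Agent.R288
end

-- ▼ part PVb/R288/GapC
section

/-!
# R288: completeness of a raw gap test
-/

set_option autoImplicit false

namespace Crest.Agent.R288

open RT

open Crest.Agent.R309 (ind ind_pos ind_neg ind_nonneg ind_le_one ind_mono ind_eq)

theorem gapc_any {ι : Type} (l : List ι) (t : ι → RT Bool) {s : ι} (hs : s ∈ l) :
    ((seq (l.map t)).P fun r => (!r.any id) = true) ≤ (t s).P fun v => v = false := by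
  induction l with
  | nil => simp at hs
  | cons a l ih =>
    unfold RT.P at ih ⊢
    rw [List.map_cons, E_seq_cons]
    rcases List.mem_cons.1 hs with rfl | hs
    · refine E_mono' _ fun v => E_le (All_of_forall _ fun r => ind_mono ?_)
      cases v <;> simp
    · refine E_le (All_of_forall _ fun v => le_trans (E_mono' _ fun r => ind_mono ?_) (ih hs))
      cases v <;> simp

theorem gapc_div {g : ℕ} (hg : 0 < g) {x y : ℤ} {n : ℕ} (h : (x - y).natAbs ≤ g * n) :
    ∃ a : ℕ, a < 2 * (n + 1) + 1 ∧ rdn g x = rdn g y + (g : ℤ) * ((a : ℤ) - (n + 1 : ℕ)) := by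
  have hg' : (0 : ℤ) < g := by exact_mod_cast hg
  have h' : |x - y| ≤ (g : ℤ) * n := by
    rw [← Int.natCast_natAbs]; exact_mod_cast h
  obtain ⟨h1, h2⟩ := abs_le.1 h'
  have a1 : x / g ≤ y / g + n := by
    have : x / g ≤ (y + g * n) / g := Int.ediv_le_ediv hg' (by linarith)
    rwa [Int.add_mul_ediv_left _ _ hg'.ne'] at this
  have a2 : y / g ≤ x / g + n := by
    have : y / g ≤ (x + g * n) / g := Int.ediv_le_ediv hg' (by linarith)
    rwa [Int.add_mul_ediv_left _ _ hg'.ne'] at this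
  refine ⟨(x / g - y / g + (n + 1)).toNat, by omega, ?_⟩
  rw [Int.toNat_of_nonneg (by omega)]
  unfold rdn
  push_cast
  ring

theorem gapc_inner (g Γ f m : ℕ) :
    (∑ l ∈ Finset.range m, if g * (Γ + l) < f then g else 0) ≤ g * m ∧
      ((∑ l ∈ Finset.range m, if g * (Γ + l) < f then g else 0) = 0 ∨
        (g * Γ + (∑ l ∈ Finset.range m, if g * (Γ + l) < f then g else 0) ≤ f + g ∧ g * Γ < f)) := by
  induction m with
  | zero => simp
  | succ m ih =>
    rw [Finset.sum_range_succ]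
    obtain ⟨h1, h2⟩ := ih
    have e1 : g * (m + 1) = g * m + g := by ring
    have e2 : g * (Γ + m) = g * Γ + g * m := by ring
    split_ifs with hc
    · refine ⟨by omega, Or.inr ⟨by omega, by omega⟩⟩
    · refine ⟨by omega, ?_⟩
      rcases h2 with h2 | h2
      · left; omega
      · right; omega

theorem gapc_outer (u Γ f n : ℕ) :
    (∑ eb ∈ Finset.range n, ∑ l ∈ Finset.range Γ,
        if u * 2 ^ eb * (Γ + l) < f then u * 2 ^ eb else 0) ≤ u * 2 ^ n * Γ ∧
      Γ * (∑ eb ∈ Finset.range n, ∑ l ∈ Finset.range Γ,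
        if u * 2 ^ eb * (Γ + l) < f then u * 2 ^ eb else 0) ≤ (Γ + 1) * f := by
  induction n with
  | zero => simp
  | succ n ih =>
    rw [Finset.sum_range_succ]
    obtain ⟨h1, h2⟩ := ih
    obtain ⟨h3, h4⟩ := gapc_inner (u * 2 ^ n) Γ f Γ
    generalize (∑ eb ∈ Finset.range n, ∑ l ∈ Finset.range Γ,
        if u * 2 ^ eb * (Γ + l) < f then u * 2 ^ eb else 0) = S at h1 h2 ⊢
    generalize (∑ l ∈ Finset.range Γ, if u * 2 ^ n * (Γ + l) < f then u * 2 ^ n else 0) = T
      at h3 h4 ⊢
    have e : u * 2 ^ (n + 1) * Γ = u * 2 ^ n * Γ + u * 2 ^ n * Γ := by ring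
    refine ⟨by omega, ?_⟩
    rcases h4 with h4 | ⟨h4, h5⟩
    · subst h4; simpa using h2
    · have h6 : S + T ≤ f + u * 2 ^ n := by omega
      calc Γ * (S + T) ≤ Γ * (f + u * 2 ^ n) := Nat.mul_le_mul_left _ h6
        _ = Γ * f + u * 2 ^ n * Γ := by ring
        _ ≤ Γ * f + f := by omega
        _ = (Γ + 1) * f := by ring

theorem gapc_flat (n m : ℕ) (c : ℕ → ℕ) (φ : ℕ × ℕ → ℝ) :
    (((List.range n).flatMap fun eb => (List.range m).flatMap fun l =>
      List.replicate (c eb) (eb, l)).map φ).sum =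
      ∑ eb ∈ Finset.range n, ∑ l ∈ Finset.range m, (c eb : ℝ) * φ (eb, l) := by
  have h : ∀ eb, (((List.range m).flatMap fun l => List.replicate (c eb) (eb, l)).map φ).sum =
      ∑ l ∈ Finset.range m, (c eb : ℝ) * φ (eb, l) := by
    intro eb
    induction m with
    | zero => simp
    | succ m ih =>
      rw [List.range_succ, List.flatMap_append, List.map_append, List.sum_append, ih,
        Finset.sum_range_succ]
      simp
  induction n with
  | zero => simp
  | succ n ih =>
    rw [List.range_succ, List.flatMap_append, List.map_append, List.sum_append, ih,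
      Finset.sum_range_succ]
    congr 1
    rw [List.flatMap_singleton]
    exact h n

theorem gapc_count (r : List Bool) :
    (r.map fun v : Bool => ind (v = true)).sum = (r.countP id : ℝ) := by
  induction r with
  | nil => simp
  | cons a r ih =>
    rw [List.map_cons, List.sum_cons, ih, List.countP_cons]
    cases a
    · simp [ind]
    · simp [ind, add_comm]

theorem gapc_sum_list (f : ℕ → ℕ) (n : ℕ) :
    ((List.range n).map f).sum = ∑ j ∈ Finset.range n, f j := by
  induction n with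
  | zero => simp
  | succ n ih => rw [List.range_succ, List.map_append, List.sum_append, ih, Finset.sum_range_succ]; simp

theorem gapc_draw {P : Par} (hP : Good P) {F : ℕ → ℕ → ℤ → ℤ → ℕ} (hF : FOk F)
    {G : ℕ → ℕ → ℤ → ℤ → ℕ → RT Bool} {e i : ℕ} {α : ℤ} {κ : ℕ} {δ : ℝ} (hδ : 0 ≤ δ)
    (ih : ∀ i' α' γ' κ', F e i' α' γ' ≤ κ' → ((G e i' α' γ' κ').P fun v => v = false) ≤ δ)
    (hu : 0 < gu P κ) (hκu : κ ≤ gu P κ * 2 ^ (2 * P.kγ + P.kb + 1))
    {z : ℕ → ℤ} (hz : ∀ j < 2 ^ P.kb, (z j - α).natAbs ≤ κ) {eb l : ℕ}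
    (heb : eb < P.kγ + P.kb + 2) (hl : l < 2 ^ P.kγ) :
    ((gdrawT P G (e + P.kb) i α κ eb l).E fun v => ind (v = true)) ≤
      (∑ j ∈ Finset.range (2 ^ P.kb),
        ind (gu P κ * 2 ^ eb * (2 ^ P.kγ + l) < F e (i * 2 ^ P.kb + j) (z j) (z (j + 1)))) /
          2 ^ P.kb + δ := by
  have hs := hP.small_ll
  have hq := hP.aux_llsq
  have hkP : 2 * P.kγ + P.kb + 8 ≤ P.kP := by
    rw [Par.kP.eq_1, Par.kb.eq_1, Par.kγ.eq_1, Par.kR.eq_1]; omega
  have hkγ : 1 ≤ P.kγ := by rw [Par.kγ.eq_1]; omega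
  have hg : gg P κ eb = gu P κ * 2 ^ eb := by
    unfold gg; rw [hP.p2_eq (by omega)]
  have hgpos : 0 < gg P κ eb := by rw [hg]; positivity
  unfold gdrawT
  rw [E_bind, E_rnd, Nat.add_sub_cancel]
  have hb : (0 : ℝ) < 2 ^ P.kb := by positivity
  rw [div_add' _ _ _ hb.ne']
  refine div_le_div_of_nonneg_right ?_ hb.le
  have : δ * 2 ^ P.kb = ∑ _j ∈ Finset.range (2 ^ P.kb), δ := by
    simp [mul_comm]
  rw [this, ← Finset.sum_add_distrib]
  refine Finset.sum_le_sum fun j hj => ?_
  have hj' := Finset.mem_range.1 hj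
  rw [E_map]
  by_cases hc : gu P κ * 2 ^ eb * (2 ^ P.kγ + l) < F e (i * 2 ^ P.kb + j) (z j) (z (j + 1))
  · rw [ind_pos hc]
    exact (E_le (All_of_forall _ fun _ => ind_le_one _)).trans (by linarith)
  rw [ind_neg hc, zero_add]
  rw [← hg, not_lt] at hc
  have hmem : (rdn (gg P κ eb) (z j), rdn (gg P κ eb) (z (j + 1))) ∈ gstates P α κ eb := by
    have e1 : P.p2 (2 * P.kγ + P.kb + 1 - eb) = 2 ^ (2 * P.kγ + P.kb + 1 - eb) :=
      hP.p2_eq (by omega)
    have e2 : P.p2 P.kγ = 2 ^ P.kγ := hP.p2_eq (by omega)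
    obtain ⟨a, ha, ha'⟩ := gapc_div hgpos (x := z j) (y := α)
      (n := P.p2 (2 * P.kγ + P.kb + 1 - eb)) (by
        refine (hz j hj').trans (hκu.trans (le_of_eq ?_))
        rw [e1, hg, mul_assoc, ← pow_add]
        congr 2
        omega)
    obtain ⟨a', hb, hb'⟩ := gapc_div hgpos (x := z (j + 1)) (y := z j) (n := 2 * P.p2 P.kγ) (by
        refine (hF.disp e (i * 2 ^ P.kb + j) _ _).trans (hc.trans ?_)
        rw [e2]
        exact Nat.mul_le_mul_left _ (by omega))
    unfold gstates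
    simp only [List.mem_flatMap, List.mem_map, List.mem_range]
    refine ⟨a, ha, a', hb, ?_⟩
    rw [← ha', ← hb']
  refine (gapc_any _ (fun s : ℤ × ℤ =>
    G e (i * 2 ^ P.kb + j) s.1 s.2 (gg P κ eb * (2 ^ P.kγ + l + 2))) hmem).trans (ih _ _ _ _ ?_)
  have h1 := hF.lip e (i * 2 ^ P.kb + j) (rdn (gg P κ eb) (z j)) (rdn (gg P κ eb) (z (j + 1)))
    (z j) (z (j + 1))
  have h2 := natAbs_sub_rdn_lt hgpos (z j)
  have h3 := natAbs_sub_rdn_lt hgpos (z (j + 1))
  have h4 : gg P κ eb * (2 ^ P.kγ + l + 2) = gg P κ eb * (2 ^ P.kγ + l) + 2 * gg P κ eb := by ring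
  simp only
  omega

/-- Notation: `b0 = 2^kb`, `γ0 = 2^-kγ`, `u = gu P κ = κ / 2^(2kγ+kb) ≥ 2`, `g = gg P κ eb = u 2^eb`,
`θ(eb,l) = g (2^kγ + l)`, `K = κ / (u b0) ≥ 2^(2kγ)` (real number).  The verdict `graw` is
`64 · 2^kγ + cnt ≤ 64 (1 + 3γ0) K`, and `2^kγ ≤ γ0 K`.
Take an optimal splitting `z` (`FOk.exists_split`), `f j` the cost of child `j`, `∑ f j ≤ κ`.  If
`f j ≤ θ(eb,l)`, then `(rdn g (z j), rdn g (z (j+1))) ∈ gstates` (`|z j - α| ≤ κ ≤ u 2^(2kγ+kb+1)` by
`FOk.natAbs_le_sum`, `|z (j+1) - z j| ≤ f j < 2 · 2^kγ g`) has cost `≤ θ + 2g`, so the draw with child `j` returns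
`true` with probability `≤ δ`.  Thus `P(draw (eb,l) = true) ≤ #{j | θ(eb,l) < f j} / b0 + δ`.  For one child
`∑_{(eb,l) : θ(eb,l) < f} g ≤ (1 + γ0) f` (the thresholds increase by `g ≤ γ0 θ`), so the mean of `cnt` is at
most `64 (1+γ0) K + |gdraws| δ ≤ 64 (1+γ0) K + 1`; Chebyshev (`cheb_seq`, `B = 1`) with `y = 63 γ0 K`. -/
theorem graw_complete {P : Par} (hP : Good P) {F : ℕ → ℕ → ℤ → ℤ → ℕ} (hF : FOk F)
    {G : ℕ → ℕ → ℤ → ℤ → ℕ → RT Bool} {e i : ℕ} {α γ : ℤ} {κ : ℕ}
    (ih : ∀ i' α' γ' κ', F e i' α' γ' ≤ κ' →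
      ((G e i' α' γ' κ').P fun v => v = false) ≤ (1 / 2) ^ (4 * P.hh))
    (hκ : P.F1 < κ) (h : F (e + P.kb) i α γ ≤ κ) :
    ((grawT P G (e + P.kb) i α κ).P fun v => v = false) ≤ 1 / 8 := by
  have hs := hP.small_ll
  have hq := hP.aux_llsq
  have hkP : 2 * P.kγ + P.kb + 8 ≤ P.kP := by
    rw [Par.kP.eq_1, Par.kb.eq_1, Par.kγ.eq_1, Par.kR.eq_1]; omega
  have hhh : 2 * P.kγ + P.kb + 8 ≤ 4 * P.hh := by
    have h1 := hP.quart
    have h2 : P.ll * P.ll ≤ P.ll ^ 4 := by
      rw [← sq]; exact Nat.pow_le_pow_right (by omega) (by norm_num)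
    rw [Par.kb.eq_1, Par.kγ.eq_1]; omega
  have eγ : P.p2 P.kγ = 2 ^ P.kγ := hP.p2_eq (by omega)
  have eb0 : P.p2 P.kb = 2 ^ P.kb := hP.p2_eq (by omega)
  have eu : gu P κ = κ / 2 ^ (2 * P.kγ + P.kb) := by
    unfold gu; rw [hP.p2_eq (by omega)]
  rw [hP.F1_eq] at hκ
  have hD : 0 < 2 ^ (2 * P.kγ + P.kb) := by positivity
  have hu : 0 < gu P κ := by
    rw [eu]
    refine Nat.div_pos (le_trans ?_ hκ.le) hD
    exact Nat.pow_le_pow_right (by norm_num) (by omega)
  have hlo : gu P κ * 2 ^ (2 * P.kγ + P.kb) ≤ κ := by rw [eu]; exact Nat.div_mul_le_self _ _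
  have hκu : κ ≤ gu P κ * 2 ^ (2 * P.kγ + P.kb + 1) := by
    have h1 : κ < (gu P κ + 1) * 2 ^ (2 * P.kγ + P.kb) := by
      rw [eu, mul_comm]; exact Nat.lt_mul_div_succ _ hD
    have h2 : (gu P κ + 1) * 2 ^ (2 * P.kγ + P.kb) ≤ (gu P κ * 2) * 2 ^ (2 * P.kγ + P.kb) :=
      Nat.mul_le_mul_right _ (by omega)
    rw [pow_succ]
    nlinarith
  obtain ⟨z, hz0, -, hzs⟩ := hF.exists_split e P.kb i α γ
  have hzs' := hzs.trans h
  have hz : ∀ j < 2 ^ P.kb, (z j - α).natAbs ≤ κ := by
    intro j hj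
    have := hF.natAbs_le_sum e (i * 2 ^ P.kb) z 0 (2 ^ P.kb) j hj.le
    rw [zero_add, hz0, ← List.range_eq_range'] at this
    exact this.trans hzs'
  rw [gapc_sum_list] at hzs'
  set f : ℕ → ℕ := fun j => F e (i * 2 ^ P.kb + j) (z j) (z (j + 1)) with hf
  set u := gu P κ with hu_def
  set δ : ℝ := (1 / 2) ^ (4 * P.hh) with hδ
  have hδ0 : 0 ≤ δ := by positivity
  set ts := (gdraws P).map fun q => gdrawT P G (e + P.kb) i α κ q.1 q.2 with hts
  set φ : Bool → ℝ := fun v => ind (v = true) with hφ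
  set Γ : ℝ := 2 ^ P.kγ with hΓ
  set B : ℝ := 2 ^ P.kb with hB
  have hΓ1 : 1 ≤ Γ := one_le_pow₀ (by norm_num)
  have hB0 : 0 < B := by positivity
  have hu0 : (0 : ℝ) < u := by exact_mod_cast hu
  set K : ℝ := κ / (u * B) with hK
  have hKκ : (κ : ℝ) = K * (u * B) := by rw [hK]; field_simp
  have hKΓ : Γ ^ 2 ≤ K := by
    rw [hK, le_div_iff₀ (by positivity)]
    have : ((u * 2 ^ (2 * P.kγ + P.kb) : ℕ) : ℝ) ≤ κ := by exact_mod_cast hlo
    push_cast at this
    calc Γ ^ 2 * (u * B) = u * 2 ^ (2 * P.kγ + P.kb) := by rw [hΓ, hB]; ring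
      _ ≤ κ := this
  -- the mean
  have hμ : (ts.map fun t => t.E φ).sum ≤ 64 * (1 + 1 / Γ) * K + 1 := by
    rw [hts, List.map_map]
    unfold gdraws
    rw [gapc_flat, eγ]
    have h1 : ∀ eb ∈ Finset.range (P.kγ + P.kb + 2), ∀ l ∈ Finset.range (2 ^ P.kγ),
        (P.p2 (eb + 6) : ℝ) * ((fun t : RT Bool => t.E φ) ∘
          fun q : ℕ × ℕ => gdrawT P G (e + P.kb) i α κ q.1 q.2) (eb, l) ≤
        64 / (u * B) * (∑ j ∈ Finset.range (2 ^ P.kb),
          ((if u * 2 ^ eb * (2 ^ P.kγ + l) < f j then u * 2 ^ eb else 0 : ℕ) : ℝ)) +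
          2 ^ (eb + 6) * δ := by
      intro eb heb l hl
      have heb' := Finset.mem_range.1 heb
      rw [hP.p2_eq (by omega)]
      have := gapc_draw hP hF (i := i) hδ0 ih hu hκu hz heb' (Finset.mem_range.1 hl)
      simp only [Function.comp]
      push_cast
      refine (mul_le_mul_of_nonneg_left this (by positivity)).trans (le_of_eq ?_)
      rw [mul_add]
      congr 1
      rw [Finset.sum_div, Finset.mul_sum, Finset.mul_sum]
      refine Finset.sum_congr rfl fun j _ => ?_
      rw [ind_eq]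
      simp only [← hu_def, hf]
      split_ifs
      · rw [← hB]; field_simp; ring
      · simp
    refine (Finset.sum_le_sum fun eb heb => Finset.sum_le_sum fun l hl => h1 eb heb l hl).trans ?_
    simp only [Finset.sum_add_distrib, ← Finset.mul_sum]
    refine add_le_add ?_ ?_
    · have h2 : (∑ eb ∈ Finset.range (P.kγ + P.kb + 2), ∑ l ∈ Finset.range (2 ^ P.kγ),
          ∑ j ∈ Finset.range (2 ^ P.kb),
            ((if u * 2 ^ eb * (2 ^ P.kγ + l) < f j then u * 2 ^ eb else 0 : ℕ) : ℝ)) ≤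
          (1 + 1 / Γ) * κ := by
        have h3 : ∀ j, (∑ eb ∈ Finset.range (P.kγ + P.kb + 2), ∑ l ∈ Finset.range (2 ^ P.kγ),
            ((if u * 2 ^ eb * (2 ^ P.kγ + l) < f j then u * 2 ^ eb else 0 : ℕ) : ℝ)) ≤
            (1 + 1 / Γ) * f j := by
          intro j
          have h4 := (gapc_outer u (2 ^ P.kγ) (f j) (P.kγ + P.kb + 2)).2
          have h5 : Γ * (∑ eb ∈ Finset.range (P.kγ + P.kb + 2), ∑ l ∈ Finset.range (2 ^ P.kγ),
              ((if u * 2 ^ eb * (2 ^ P.kγ + l) < f j then u * 2 ^ eb else 0 : ℕ) : ℝ)) ≤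
              (Γ + 1) * f j := by
            rw [hΓ]; exact_mod_cast h4
          have h6 : (1 + 1 / Γ) * f j = (Γ + 1) * f j / Γ := by field_simp
          rw [h6, le_div_iff₀ (by positivity), mul_comm]
          exact h5
        calc _ = ∑ j ∈ Finset.range (2 ^ P.kb), ∑ eb ∈ Finset.range (P.kγ + P.kb + 2),
              ∑ l ∈ Finset.range (2 ^ P.kγ),
                ((if u * 2 ^ eb * (2 ^ P.kγ + l) < f j then u * 2 ^ eb else 0 : ℕ) : ℝ) := by
              rw [Finset.sum_comm (s := Finset.range (2 ^ P.kb))]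
              refine Finset.sum_congr rfl fun eb _ => Finset.sum_comm
          _ ≤ ∑ j ∈ Finset.range (2 ^ P.kb), (1 + 1 / Γ) * f j := Finset.sum_le_sum fun j _ => h3 j
          _ = (1 + 1 / Γ) * ((∑ j ∈ Finset.range (2 ^ P.kb), f j : ℕ) : ℝ) := by
              rw [← Finset.mul_sum]; push_cast; rfl
          _ ≤ (1 + 1 / Γ) * κ := by
              refine mul_le_mul_of_nonneg_left ?_ (by positivity)
              exact_mod_cast hzs'
      calc _ ≤ 64 / (u * B) * ((1 + 1 / Γ) * κ) := mul_le_mul_of_nonneg_left h2 (by positivity)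
        _ = 64 * (1 + 1 / Γ) * K := by rw [hK]; ring
    · have h2 : ∀ n : ℕ, (∑ eb ∈ Finset.range n, (2 : ℝ) ^ (eb + 6)) ≤ 2 ^ (n + 6) := by
        intro n
        induction n with
        | zero => simp
        | succ n ih => rw [Finset.sum_range_succ, show n + 1 + 6 = n + 6 + 1 by ring, pow_succ 2 (n + 6)]; linarith
      simp only [Finset.sum_const, Finset.card_range, nsmul_eq_mul, ← Finset.mul_sum,
        ← Finset.sum_mul]
      have h3 : (2 : ℝ) ^ (2 * P.kγ + P.kb + 8) ≤ 2 ^ (4 * P.hh) :=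
        pow_le_pow_right₀ (by norm_num) hhh
      calc (∑ eb ∈ Finset.range (P.kγ + P.kb + 2), (2 : ℝ) ^ (eb + 6)) * (((2 ^ P.kγ : ℕ) : ℝ) * δ)
          ≤ 2 ^ (P.kγ + P.kb + 2 + 6) * (((2 ^ P.kγ : ℕ) : ℝ) * δ) := by
            gcongr; exact h2 _
        _ = 2 ^ (2 * P.kγ + P.kb + 8) * δ := by push_cast; ring
        _ ≤ 2 ^ (4 * P.hh) * δ := by gcongr
        _ = 1 := by rw [hδ, ← mul_pow]; norm_num
  have hμ0 : 0 ≤ (ts.map fun t => t.E φ).sum :=
    List.sum_nonneg fun x hx => by
      obtain ⟨t, -, rfl⟩ := List.mem_map.1 hx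
      exact E_nonneg _ fun _ => ind_nonneg _
  set μ := (ts.map fun t => t.E φ).sum with hμ_def
  have hΓ0 : 0 < Γ := by positivity
  have hK1 : Γ ≤ K / Γ := by rw [le_div_iff₀ hΓ0, ← sq]; exact hKΓ
  have hKK : K / Γ ≤ K := div_le_self (by positivity) hΓ1
  have hy : 0 < 63 * (K / Γ) := by linarith
  have hch := cheb_seq ts φ 1 (fun t _ => All_of_forall _ fun _ => ⟨ind_nonneg _, ind_le_one _⟩) hy
  unfold grawT
  rw [P_map]
  refine le_trans (P_mono (All_of_forall _ fun r hr => ?_)) (hch.trans ?_)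
  · rw [hφ, gapc_count]
    refine le_trans ?_ (le_abs_self _)
    unfold graw at hr
    rw [decide_eq_false_iff_not, not_le, eγ, eb0, ← hu_def] at hr
    have hr' : 64 * (Γ + 3) * (κ : ℝ) < 64 * Γ * (B * u * Γ) + Γ * (u * B) * (r.countP id : ℕ) := by
      rw [hΓ, hB]; exact_mod_cast hr
    rw [hKκ] at hr'
    have h1 : 64 * (Γ + 3) * K < 64 * Γ * Γ + Γ * (r.countP id : ℕ) := by
      have hpos : 0 < u * B := by positivity
      refine lt_of_mul_lt_mul_right ?_ hpos.le
      linarith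
    have h2 : 64 * K + 192 * (K / Γ) < 64 * Γ + (r.countP id : ℕ) := by
      refine lt_of_mul_lt_mul_left ?_ hΓ0.le
      have : Γ * (K / Γ) = K := by field_simp
      nlinarith
    have h3 : 64 * (1 + 1 / Γ) * K = 64 * K + 64 * (K / Γ) := by ring
    linarith
  · rw [one_mul, div_le_iff₀ (by positivity)]
    have h3 : 64 * (1 + 1 / Γ) * K = 64 * K + 64 * (K / Γ) := by ring
    have h4 : K ≤ (K / Γ) ^ 2 := by
      calc K = Γ * (K / Γ) := by field_simp
        _ ≤ K / Γ * (K / Γ) := mul_le_mul_of_nonneg_right hK1 (by linarith)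
        _ = (K / Γ) ^ 2 := by ring
    nlinarith

end Crest.Agent.R288
end

-- ▼ part PVb/R288/GapS
section

/-!
# R288: soundness of a raw gap test
-/

set_option autoImplicit false

namespace Crest.Agent.R288

open RT

open Crest.Agent.R309 (ind)

theorem gaps_ind (p : Prop) : 0 ≤ ind p ∧ ind p ≤ 1 := by
  unfold ind
  split_ifs <;> norm_num

theorem gaps_sum_flat {β : Type} (n : ℕ) (g : ℕ → List β) (f : β → ℝ) :
    (((List.range n).flatMap g).map f).sum = ∑ i ∈ Finset.range n, ((g i).map f).sum := by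
  induction n with
  | zero => simp
  | succ n ih =>
    rw [List.range_succ, List.flatMap_append, List.map_append, List.sum_append, ih, Finset.sum_range_succ]
    simp

theorem gaps_sum_range (n : ℕ) (f : ℕ → ℝ) : ((List.range n).map f).sum = ∑ i ∈ Finset.range n, f i := by
  induction n with
  | zero => simp
  | succ n ih => rw [List.sum_range_succ, ih, Finset.sum_range_succ]

theorem gaps_count (r : List Bool) : (r.map fun v => ind (v = true)).sum = (r.countP id : ℕ) := by
  induction r with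
  | nil => simp
  | cons a r ih =>
    rw [List.map_cons, List.sum_cons, ih, List.countP_cons]
    cases a <;> simp [ind, add_comm]

theorem gaps_comb (bad : ℕ → ℕ → Prop) (c n : ℕ) :
    (∃ eb < n, ∃ l < c, ¬ bad eb l ∧ (2 : ℝ) ^ eb * (c + l) ≤
      c + ∑ eb ∈ Finset.range n, ∑ l ∈ Finset.range c, 2 ^ eb * ind (bad eb l)) ∨
    (2 : ℝ) ^ n * c ≤ c + ∑ eb ∈ Finset.range n, ∑ l ∈ Finset.range c, 2 ^ eb * ind (bad eb l) := by
  classical
  induction n with
  | zero => right; simp
  | succ n ih =>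
    rw [Finset.sum_range_succ]
    have hrow : ∀ l ≤ c, (∀ l' < l, bad n l') →
        (2 : ℝ) ^ n * l ≤ ∑ l ∈ Finset.range c, 2 ^ n * ind (bad n l) := fun l hl hb =>
      calc (2 : ℝ) ^ n * l = ∑ l' ∈ Finset.range l, 2 ^ n * ind (bad n l') := by
            rw [Finset.sum_congr rfl (g := fun _ => (2 : ℝ) ^ n) fun l' hl' => by
              rw [ind, if_pos (hb l' (Finset.mem_range.1 hl')), mul_one]]
            simp [mul_comm]
        _ ≤ _ := Finset.sum_le_sum_of_subset_of_nonneg (Finset.range_subset_range.2 hl) fun _ _ _ =>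
            mul_nonneg (by positivity) (gaps_ind _).1
    rcases ih with ⟨eb, h1, l, h2, h3, h4⟩ | ih
    · have := hrow 0 (Nat.zero_le _) fun _ h => absurd h (Nat.not_lt_zero _)
      rw [Nat.cast_zero, mul_zero] at this
      exact Or.inl ⟨eb, by omega, l, h2, h3, by linarith⟩
    · by_cases hex : ∃ l, l < c ∧ ¬ bad n l
      · refine Or.inl ⟨n, by omega, Nat.find hex, (Nat.find_spec hex).1, (Nat.find_spec hex).2, ?_⟩
        have := hrow (Nat.find hex) (Nat.find_spec hex).1.le fun l' hl' => by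
          by_contra hb
          exact Nat.find_min hex hl' ⟨hl'.trans (Nat.find_spec hex).1, hb⟩
        linarith
      · have := hrow c le_rfl fun l' hl' => by
          by_contra hb
          exact hex ⟨l', hl', hb⟩
        right
        rw [pow_succ]
        linarith

theorem gaps_path (W : ℕ → ℤ → ℤ → ℝ) (α : ℤ) (X Y : ℤ) (l : List (ℕ × ℤ × ℤ))
    (h : ∀ s ∈ l, |s.2.1 - α| ≤ X ∧ |s.2.2 - α| ≤ Y) (zl zr : ℤ) (hl : |zl - α| ≤ Y) (hr : |zr - α| ≤ X) :
    pathCost W l zl zr ≤ (l.length + 1) * ((X + Y : ℤ) : ℝ) + (l.map fun s => W s.1 s.2.1 s.2.2).sum := by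
  have key : ∀ a b : ℤ, |a - α| ≤ Y → |b - α| ≤ X → |((a - b : ℤ) : ℝ)| ≤ ((X + Y : ℤ) : ℝ) := fun a b ha hb => by
    rw [← Int.cast_abs, Int.cast_le, abs_le]
    rw [abs_le] at ha hb
    omega
  induction l generalizing zl with
  | nil => simpa [pathCost] using key zl zr hl hr
  | cons s t ih =>
    have h1 := h s List.mem_cons_self
    have h2 := ih (fun s hs => h s (List.mem_cons_of_mem _ hs)) s.2.2 h1.2
    have h3 := key zl s.2.1 hl h1.1
    rw [pathCost, List.map_cons, List.sum_cons, List.length_cons, Nat.cast_succ]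
    linarith

theorem gaps_int {g M c κ a a' : ℕ} {α r : ℤ} (ha : a < 2 * (M + 1) + 1) (ha' : a' < 2 * (2 * c + 1) + 1)
    (hr : (α - r).natAbs < g) (h1 : g * M ≤ 2 * κ) (h2 : g * c ≤ 2 * κ) (hc : 4 ≤ c) :
    |r + (g : ℤ) * ((a : ℤ) - (M + 1 : ℕ)) - α| ≤ 3 * κ ∧
      |r + (g : ℤ) * ((a : ℤ) - (M + 1 : ℕ)) + (g : ℤ) * ((a' : ℤ) - (2 * c + 1 : ℕ)) - α| ≤ 8 * κ := by
  have e1 : |(g : ℤ) * ((a : ℤ) - (M + 1 : ℕ))| ≤ g * (M + 1) := by
    rw [abs_mul, Nat.abs_cast]
    exact mul_le_mul_of_nonneg_left (abs_le.2 ⟨by omega, by omega⟩) (by positivity)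
  have e2 : |(g : ℤ) * ((a' : ℤ) - (2 * c + 1 : ℕ))| ≤ g * (2 * c + 1) := by
    rw [abs_mul, Nat.abs_cast]
    exact mul_le_mul_of_nonneg_left (abs_le.2 ⟨by omega, by omega⟩) (by positivity)
  have h3 : g * 4 ≤ g * c := Nat.mul_le_mul_left _ hc
  have h4 : |α - r| < g := by
    rw [← Int.natCast_natAbs]
    exact_mod_cast hr
  zify at h1 h2 h3
  rw [abs_le] at e1 e2
  rw [abs_lt] at h4
  rw [abs_le, abs_le]
  refine ⟨⟨?_, ?_⟩, ?_, ?_⟩ <;> nlinarith

theorem gaps_par {P : Par} (hP : Good P) : 3 ≤ P.kγ ∧ 2 ≤ P.kb ∧ 2 * P.kγ + P.kb + 7 ≤ P.kP ∧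
    5 * P.kγ + 2 * P.kb + 15 ≤ 4 * P.hh := by
  have h1 := hP.small_ll
  have h2 := hP.aux_llsq
  have h3 := hP.quart
  have h4 : P.ll * P.ll ≤ P.ll ^ 4 := by
    rw [← sq]
    exact Nat.pow_le_pow_right (by omega) (by omega)
  rw [Par.kP.eq_1, Par.kb.eq_1, Par.kγ.eq_1, Par.kR.eq_1]
  omega

theorem gaps_u {P : Par} (hP : Good P) {κ : ℕ} (hκ : P.F1 < κ) : 1 ≤ gu P κ ∧
    gu P κ * 2 ^ (2 * P.kγ + P.kb) ≤ κ ∧ κ ≤ 2 * (gu P κ * 2 ^ (2 * P.kγ + P.kb)) := by
  obtain ⟨-, -, h1, -⟩ := gaps_par hP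
  rw [hP.F1_eq, pow_succ, add_comm P.kb] at hκ
  rw [gu, hP.p2_eq (by omega)]
  have h0 : 0 < 2 ^ (2 * P.kγ + P.kb) := by positivity
  generalize 2 ^ (2 * P.kγ + P.kb) = Q at *
  have h2 : 1 ≤ κ / Q := (Nat.le_div_iff_mul_le h0).2 (by omega)
  have h3 := Nat.lt_div_mul_add (a := κ) h0
  have h4 := Nat.mul_le_mul_right Q h2
  exact ⟨h2, Nat.div_mul_le_self _ _, by omega⟩

theorem gaps_mem {P : Par} (hP : Good P) {κ eb : ℕ} (hκ : P.F1 < κ) (heb : eb < P.kγ + P.kb + 2) (α : ℤ) :
    ∀ s ∈ gstates P α κ eb, |s.1 - α| ≤ 3 * κ ∧ |s.2 - α| ≤ 8 * κ := by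
  obtain ⟨h1, -, h2, -⟩ := gaps_par hP
  obtain ⟨u1, u2, -⟩ := gaps_u hP hκ
  intro s hs
  simp only [gstates, List.mem_flatMap, List.mem_map, List.mem_range] at hs
  obtain ⟨a, ha, a', ha', rfl⟩ := hs
  have e : gu P κ * 2 ^ (2 * P.kγ + P.kb + 1) ≤ 2 * κ := by
    rw [pow_succ, ← mul_assoc]
    omega
  refine gaps_int ha ha' (natAbs_sub_rdn_lt (Nat.mul_pos u1 (hP.p2_pos _)) α) ?_ ?_ ?_
  · rw [gg, hP.p2_eq (by omega), hP.p2_eq (by omega), mul_assoc, ← pow_add, Nat.add_sub_cancel' (by omega)]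
    exact e
  · rw [gg, hP.p2_eq (by omega), hP.p2_eq (by omega), mul_assoc, ← pow_add]
    exact (Nat.mul_le_mul_left _ (Nat.pow_le_pow_right two_pos (by omega))).trans e
  · rw [hP.p2_eq (by omega)]
    exact Nat.pow_le_pow_right two_pos (by omega : 2 ≤ P.kγ)

theorem gaps_len {P : Par} (hP : Good P) (κ eb : ℕ) (α : ℤ) :
    (gstates P α κ eb).length ≤ 2 ^ (3 * P.kγ + P.kb + 7) := by
  obtain ⟨-, -, h2, -⟩ := gaps_par hP
  simp only [gstates, List.length_flatMap, List.length_map, List.length_range, List.map_const', List.sum_replicate,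
    smul_eq_mul]
  rw [hP.p2_eq (by omega), hP.p2_eq (by omega),
    show 2 ^ (3 * P.kγ + P.kb + 7) = (8 * 2 ^ (2 * P.kγ + P.kb + 1)) * (8 * 2 ^ P.kγ) by ring]
  have a1 : 2 ^ (2 * P.kγ + P.kb + 1 - eb) ≤ 2 ^ (2 * P.kγ + P.kb + 1) := Nat.pow_le_pow_right two_pos (by omega)
  have a2 : 0 < 2 ^ (2 * P.kγ + P.kb + 1) := by positivity
  have a3 : 0 < 2 ^ P.kγ := by positivity
  exact Nat.mul_le_mul (by omega) (by omega)

theorem gaps_draw {ι : Type} (k : ℕ) (L : List ι) (t : ℕ → ι → RT Bool) (bad : ℕ → Prop) {δ : ℝ} (hδ : 0 ≤ δ)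
    (h : ∀ j, bad j → ∀ s ∈ L, ((t j s).P fun v => v = true) ≤ δ) :
    (∑ j ∈ Finset.range (2 ^ k), ind (bad j)) / 2 ^ k - L.length * δ ≤
      ((rnd k).bind fun j => (seq (L.map (t j))).map fun r => !r.any id).P fun v => v = true := by
  rw [P_bind, E_rnd, sub_le_iff_le_add, div_le_iff₀ (by positivity), add_mul, div_mul_cancel₀ _ (by positivity)]
  have e : (L.length : ℝ) * δ * 2 ^ k = ∑ _j ∈ Finset.range (2 ^ k), (L.length : ℝ) * δ := by
    simp [mul_comm]
  rw [e, ← Finset.sum_add_distrib]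
  refine Finset.sum_le_sum fun j _ => ?_
  unfold ind
  split_ifs with hb
  · have h1 := P_seq_map_not L (t j) (fun _ v => v = false) δ fun s hs => by simpa using h j hb s hs
    have h2 := P_not ((seq (L.map (t j))).map fun r => !r.any id) fun v => v = true
    rw [P_map] at h2
    have h3 := P_mono (t := seq (L.map (t j))) (p := fun r => ¬ (!r.any id) = true)
      (q := fun r => ¬ List.Forall₂ (fun _ v => v = false) L r) (All_of_forall _ fun r hr hf => hr (by
        clear hr h1 h2 h e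
        induction hf with
        | nil => rfl
        | cons a _ ih => simpa [a] using ih))
    linarith
  · exact add_nonneg (P_nonneg _ _) (by positivity)

theorem gaps_num {μ τ k c : ℝ} (hc : 8 ≤ c) (hk : c ≤ k) (hτ : τ = 64 * (c + 3) * k - 64 * c)
    (hμ : 64 * (c + 4) * k - 64 * c - 1 ≤ μ) : 0 < μ - τ ∧ 1 * μ / (μ - τ) ^ 2 ≤ 1 / 8 := by
  have h1 : 63 * k ≤ μ - τ := by nlinarith
  have h2 : 0 < μ - τ := by linarith
  have h3 : τ ≤ 128 * k ^ 2 := by nlinarith
  have h4 : (63 * k) ^ 2 ≤ (μ - τ) ^ 2 := pow_le_pow_left₀ (by linarith) h1 2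
  refine ⟨h2, ?_⟩
  rw [div_le_div_iff₀ (by positivity) (by norm_num)]
  nlinarith

/-- Notation as in `GapC`.  Call child `j` *bad* at `(eb,l)` if every `s ∈ gstates P α κ eb` has cost
`> A (θ(eb,l) + 2g)`; then the draw with child `j` returns `true` with probability `≥ 1 - |gstates| δ`.  Let
`θ*_j` be the least threshold at which `j` is not bad, or `θmax = u 2^(2kγ+kb+2) ≥ 2κ` if there is none; the sum
of `g` over the pairs at which `j` is bad is `≥ θ*_j - θ0`, `θ0 = u 2^kγ`.  If `∑_j θ*_j ≤ (1 + 4γ0) κ`, every child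
has a good state `(a_j, a'_j)` with cost `≤ A (1 + 2γ0) θ*_j`, `|a_j - α| ≤ 3κ`, `|a'_j - a_j| ≤ 3θ*_j ≤ 6κ`, and
`FOk.le_pathCost` gives `F ≤ A (1+2γ0)(1+4γ0) κ + 16 b0 κ`, a contradiction.  So the mean `μ` of `cnt` is at least
`64 (1+4γ0) K - 64 · 2^kγ - 1`, while `graw = true` means `cnt ≤ τ0 = 64 (1+3γ0) K - 64 · 2^kγ`;
Chebyshev: `μ / (μ - τ0)² ≤ (τ0 + y) / y²` with `y = 63 γ0 K`. -/
theorem graw_sound {P : Par} (hP : Good P) {F : ℕ → ℕ → ℤ → ℤ → ℕ} (hF : FOk F)
    {G : ℕ → ℕ → ℤ → ℤ → ℕ → RT Bool} {e i : ℕ} {α γ : ℤ} {κ : ℕ} {A : ℝ} (hA : 1 ≤ A)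
    (ih : ∀ i' α' γ' (κ' : ℕ), A * κ' < F e i' α' γ' →
      ((G e i' α' γ' κ').P fun v => v = true) ≤ (1 / 2) ^ (4 * P.hh))
    (hκ : P.F1 < κ) (hd : (γ - α).natAbs ≤ κ)
    (h : ((1 + 7 / 2 ^ P.kγ) * A + 16 * 2 ^ P.kb) * κ < F (e + P.kb) i α γ) :
    ((grawT P G (e + P.kb) i α κ).P fun v => v = true) ≤ 1 / 8 := by
  obtain ⟨p1, p2, p3, p4⟩ := gaps_par hP
  obtain ⟨u1, u2, u3⟩ := gaps_u hP hκ
  obtain ⟨bad, hbad⟩ : ∃ bad : ℕ → ℕ → ℕ → Prop, ∀ j eb l, bad j eb l ↔ ∀ s ∈ gstates P α κ eb,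
      A * (gg P κ eb * (2 ^ P.kγ + l + 2) : ℕ) < F e (i * 2 ^ P.kb + j) s.1 s.2 := ⟨_, fun _ _ _ => Iff.rfl⟩
  obtain ⟨S, hS⟩ : ∃ S : ℕ → ℝ, ∀ j, S j = ∑ eb ∈ Finset.range (P.kγ + P.kb + 2),
      ∑ l ∈ Finset.range (2 ^ P.kγ), 2 ^ eb * ind (bad j eb l) := ⟨_, fun _ => rfl⟩
  have hS0 : ∀ j, 0 ≤ S j := fun j => hS j ▸ Finset.sum_nonneg fun _ _ => Finset.sum_nonneg fun _ _ =>
    mul_nonneg (by positivity) (gaps_ind _).1
  obtain ⟨c, hc⟩ : ∃ c : ℝ, c = 2 ^ P.kγ := ⟨_, rfl⟩
  obtain ⟨b, hb⟩ : ∃ b : ℝ, b = 2 ^ P.kb := ⟨_, rfl⟩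
  obtain ⟨u, hu⟩ : ∃ u : ℝ, u = gu P κ := ⟨_, rfl⟩
  have c8 : 8 ≤ c := by
    rw [hc, show (8 : ℝ) = 2 ^ 3 by norm_num]
    exact pow_le_pow_right₀ one_le_two p1
  have b4 : 4 ≤ b := by
    rw [hb, show (4 : ℝ) = 2 ^ 2 by norm_num]
    exact pow_le_pow_right₀ one_le_two p2
  have v1 : 1 ≤ u := by rw [hu]; exact_mod_cast u1
  have eQ : (2 : ℝ) ^ (2 * P.kγ + P.kb) = c ^ 2 * b := by rw [hc, hb]; ring
  have v2 : u * (c ^ 2 * b) ≤ κ := by rw [hu, ← eQ]; exact_mod_cast u2
  have v3 : (κ : ℝ) ≤ 2 * (u * (c ^ 2 * b)) := by rw [hu, ← eQ]; exact_mod_cast u3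
  have c0 : 0 < c := by linarith
  have k0 : (0 : ℝ) < κ := lt_of_lt_of_le (by positivity) v2
  -- the sum of the thresholds is large
  have key : (c + 4) * κ ≤ c * ∑ j ∈ Finset.range (2 ^ P.kb), u * (c + S j) := by
    by_contra hcon
    rw [not_le] at hcon
    have hex : ∀ j, j < 2 ^ P.kb → ∃ s : ℤ × ℤ, (|s.1 - α| ≤ 3 * κ ∧ |s.2 - α| ≤ 8 * κ) ∧
        c * F e (i * 2 ^ P.kb + j) s.1 s.2 ≤ A * (c + 2) * (u * (c + S j)) := fun j hj => by
      rcases gaps_comb (bad j) (2 ^ P.kγ) (P.kγ + P.kb + 2) with ⟨eb, h1, l, -, h3, h4⟩ | h1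
      · rw [hbad] at h3
        push Not at h3
        obtain ⟨s, hs, h5⟩ := h3
        refine ⟨s, gaps_mem hP hκ h1 α s hs, ?_⟩
        rw [gg, hP.p2_eq (by omega)] at h5
        rw [← hS] at h4
        push_cast at h4 h5
        rw [← hc] at h4 h5
        rw [← hu] at h5
        have l0 : (0 : ℝ) ≤ l := Nat.cast_nonneg _
        calc _ ≤ c * (A * (u * 2 ^ eb * (c + l + 2))) := by gcongr
          _ = A * (u * 2 ^ eb) * (c * (c + l + 2)) := by ring
          _ ≤ A * (u * 2 ^ eb) * ((c + 2) * (c + l)) := mul_le_mul_of_nonneg_left (by nlinarith) (by positivity)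
          _ = A * (c + 2) * (u * (2 ^ eb * (c + l))) := by ring
          _ ≤ _ := by gcongr
      · exfalso
        rw [← hS] at h1
        push_cast at h1
        rw [← hc, show (2 : ℝ) ^ (P.kγ + P.kb + 2) = 4 * c * b by rw [hc, hb]; ring] at h1
        have h2 := Finset.single_le_sum (f := fun j => u * (c + S j))
          (fun j _ => mul_nonneg (by linarith) (by linarith [hS0 j])) (Finset.mem_range.2 hj)
        have h3 : u * (4 * c * b * c) ≤ u * (c + S j) := by gcongr
        have h4 : 2 * (κ : ℝ) ≤ ∑ j ∈ Finset.range (2 ^ P.kb), u * (c + S j) := by nlinarith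
        nlinarith
    choose! s hs1 hs2 using hex
    have h1 := hF.le_pathCost e P.kb i (hb := P.kb) (p := 0) le_rfl
      ((List.range (2 ^ P.kb)).map fun j => (j, (s j).1, (s j).2)) (by simp [blk_top, Function.comp_def]) α γ
    have h2 := gaps_path (fun j a c => (F e (i * 2 ^ P.kb + j) a c : ℝ)) α (3 * κ) (8 * κ)
      ((List.range (2 ^ P.kb)).map fun j => (j, (s j).1, (s j).2)) (by
        simp only [List.mem_map, List.mem_range]
        rintro _ ⟨j, hj, rfl⟩
        exact hs1 j hj) α γ (by simp) (by rw [← Int.natCast_natAbs]; omega)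
    rw [Nat.sub_self, pow_zero, mul_one, add_zero] at h1
    rw [List.length_map, List.length_range, List.map_map, gaps_sum_range] at h2
    push_cast at h2
    rw [← hb] at h2 h
    rw [← hc] at h
    have h3 := Finset.sum_le_sum fun j hj => hs2 j (Finset.mem_range.1 hj)
    rw [← Finset.mul_sum, ← Finset.mul_sum] at h3
    simp only [Function.comp_def] at h2
    generalize ∑ j ∈ Finset.range (2 ^ P.kb), u * (c + S j) = T at hcon h3
    generalize ∑ j ∈ Finset.range (2 ^ P.kb), (F e (i * 2 ^ P.kb + j) (s j).1 (s j).2 : ℝ) = W at h2 h3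
    have h4 : c * (c * W) ≤ A * (c + 2) * ((c + 4) * κ) :=
      calc _ ≤ c * (A * (c + 2) * T) := by gcongr
        _ = A * (c + 2) * (c * T) := by ring
        _ ≤ _ := by gcongr
    have h5 : A * (c + 2) * ((c + 4) * κ) ≤ c * (c * ((1 + 7 / c) * A * κ)) :=
      calc _ = A * κ * ((c + 2) * (c + 4)) := by ring
        _ ≤ A * κ * (c * (c + 7)) := mul_le_mul_of_nonneg_left (by nlinarith) (by positivity)
        _ = _ := by field_simp
    have h6 := le_of_mul_le_mul_left (le_of_mul_le_mul_left (h4.trans h5) c0) c0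
    nlinarith
  -- the mean
  have hμ : 64 * (c + 4) * (κ / (u * b * c)) - 64 * c - 1 ≤
      (((gdraws P).map fun q => gdrawT P G (e + P.kb) i α κ q.1 q.2).map fun t =>
        t.E fun v => ind (v = true)).sum := by
    rw [List.map_map, gdraws, gaps_sum_flat, hP.p2_eq (by omega)]
    have h1 : ∑ eb ∈ Finset.range (P.kγ + P.kb + 2), ∑ l ∈ Finset.range (2 ^ P.kγ), (2 : ℝ) ^ (eb + 6) *
        ((∑ j ∈ Finset.range (2 ^ P.kb), ind (bad j eb l)) / b - 2 ^ (3 * P.kγ + P.kb + 7) * (1 / 2) ^ (4 * P.hh)) =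
        64 / b * ∑ j ∈ Finset.range (2 ^ P.kb), S j - 64 * c * (2 ^ (3 * P.kγ + P.kb + 7) * (1 / 2) ^ (4 * P.hh)) *
          ∑ eb ∈ Finset.range (P.kγ + P.kb + 2), (2 : ℝ) ^ eb := by
      simp only [hS]
      rw [Finset.sum_comm (s := Finset.range (2 ^ P.kb)), Finset.mul_sum, Finset.mul_sum, ← Finset.sum_sub_distrib]
      refine Finset.sum_congr rfl fun eb _ => ?_
      rw [Finset.sum_comm (s := Finset.range (2 ^ P.kb)), Finset.mul_sum]
      simp only [mul_sub, Finset.sum_sub_distrib, Finset.sum_const, Finset.card_range, nsmul_eq_mul, ← Finset.mul_sum]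
      push_cast
      rw [← hc, ← Finset.sum_div]
      ring
    have h2 : 64 * c * (2 ^ (3 * P.kγ + P.kb + 7) * (1 / 2) ^ (4 * P.hh)) *
        ∑ eb ∈ Finset.range (P.kγ + P.kb + 2), (2 : ℝ) ^ eb ≤ 1 := by
      rw [geom_sum_eq (by norm_num), hc]
      calc _ ≤ 64 * 2 ^ P.kγ * (2 ^ (3 * P.kγ + P.kb + 7) * (1 / 2) ^ (4 * P.hh)) * (2 : ℝ) ^ (P.kγ + P.kb + 2) := by
            gcongr
            norm_num
        _ = 2 ^ (5 * P.kγ + 2 * P.kb + 15) / 2 ^ (4 * P.hh) := by
            rw [one_div, inv_pow]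
            ring
        _ ≤ 1 := (div_le_one (by positivity)).2 (pow_le_pow_right₀ one_le_two p4)
    have h3 : 64 * (c + 4) * (κ / (u * b * c)) - 64 * c ≤ 64 / b * ∑ j ∈ Finset.range (2 ^ P.kb), S j := by
      rw [← Finset.mul_sum, Finset.sum_add_distrib, Finset.sum_const, Finset.card_range, nsmul_eq_mul] at key
      push_cast at key
      rw [← hb] at key
      calc _ = 64 / (u * b * c) * ((c + 4) * κ) - 64 * c := by ring
        _ ≤ 64 / (u * b * c) * (c * (u * (b * c + ∑ j ∈ Finset.range (2 ^ P.kb), S j))) - 64 * c := by gcongr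
        _ = _ := by field_simp; ring
    refine le_trans (by linarith) (h1.ge.trans (Finset.sum_le_sum fun eb heb => ?_))
    rw [gaps_sum_flat]
    refine Finset.sum_le_sum fun l _ => ?_
    rw [List.map_replicate, List.sum_replicate, nsmul_eq_mul,
      hP.p2_eq (by have := Finset.mem_range.1 heb; omega)]
    push_cast
    gcongr
    refine le_trans ?_ (gaps_draw P.kb (gstates P α κ eb) _ (fun j => bad j eb l) (δ := (1 / 2) ^ (4 * P.hh))
      (by positivity) fun j hj s hs => ?_)
    · rw [hb]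
      gcongr
      exact_mod_cast gaps_len hP κ eb α
    · rw [Nat.add_sub_cancel]
      exact ih _ _ _ _ ((hbad j eb l).1 hj s hs)
  obtain ⟨n1, n2⟩ := gaps_num c8 (k := κ / (u * b * c)) (by rw [le_div_iff₀ (by positivity)]; nlinarith) rfl hμ
  refine le_trans ?_ ((cheb_seq _ (fun v => ind (v = true)) 1
    (fun t _ => All_of_forall _ fun _ => gaps_ind _) n1).trans n2)
  rw [grawT, P_map]
  refine P_mono (All_of_forall _ fun r hr => ?_)
  rw [graw, decide_eq_true_eq, hP.p2_eq (by omega), hP.p2_eq (by omega)] at hr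
  have h1 : 64 * c * (b * u * c) + c * (u * b) * (r.countP id : ℕ) ≤ 64 * (c + 3) * κ := by
    rw [hc, hb, hu]
    exact_mod_cast hr
  have h2 : ((r.countP id : ℕ) : ℝ) ≤ 64 * (c + 3) * (κ / (u * b * c)) - 64 * c := by
    rw [le_sub_iff_add_le, ← mul_div_assoc, le_div_iff₀ (by positivity)]
    linarith
  rw [gaps_count, abs_sub_comm]
  exact le_trans (by linarith) (le_abs_self _)

end Crest.Agent.R288
end

-- ▼ part PVb/R288/Gap
section

/-!
# R288: the gap test and the oracle
-/

set_option autoImplicit false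

namespace Crest.Agent.R288

open RT

variable {P : Par} {F : ℕ → ℕ → ℤ → ℤ → ℕ} {G : ℕ → ℕ → ℤ → ℤ → ℕ → RT Bool}

theorem gap_pure {β : Type} (a : β) {p : β → Prop} (h : ¬ p a) {c : ℝ} (hc : 0 ≤ c) :
    (RT.pure a).P p ≤ c := by
  rw [RT.P, E_pure, Crest.Agent.R309.ind_neg h]
  exact hc

theorem gap_kb_pos (hP : Good P) : 0 < P.kb := by
  rw [Par.kb.eq_1]
  exact Nat.mul_pos (Nat.pos_of_ne_zero hP.aux_ll_ne) (Nat.pos_of_ne_zero hP.aux_ll_ne)

theorem gap_maj_false (t : RT Bool) (h : (t.P fun v => v = false) ≤ 1 / 8) (n : ℕ) :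
    (((seq (List.replicate (2 * n) t)).map fun r => decide (n < r.countP id)).P fun v => v = false) ≤
      (1 / 2) ^ n := by
  rw [P_map]
  refine le_trans (P_mono ?_) (majority t (fun a => !a) (by simpa using h) n)
  refine (All_seq_length _).mono fun r hr h1 => ?_
  rw [List.length_replicate] at hr
  have h2 : r.countP id + r.countP (fun a => !a) = r.length := by
    clear hr h1
    induction r with
    | nil => rfl
    | cons a r ih => cases a <;> simp <;> omega
  have h3 : ¬ n < r.countP id := by simpa using h1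
  omega

theorem gap_maj_true (t : RT Bool) (h : (t.P fun v => v = true) ≤ 1 / 8) (n : ℕ) :
    (((seq (List.replicate (2 * n) t)).map fun r => decide (n < r.countP id)).P fun v => v = true) ≤
      (1 / 2) ^ n := by
  rw [P_map]
  refine le_trans (P_mono ?_) (majority t id h n)
  refine All_of_forall _ fun r h1 => ?_
  have h3 : n < r.countP id := by simpa using h1
  omega

theorem gap_A_ge (x b : ℝ) (hx : 0 ≤ x) (hb : 0 ≤ b) (k : ℕ) :
    2 ≤ (1 + x) ^ k * (2 + b * k) := by
  have h1 : 1 ≤ (1 + x) ^ k := one_le_pow₀ (by linarith)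
  have h2 : 0 ≤ b * k := by positivity
  nlinarith [mul_nonneg (sub_nonneg.2 h1) h2]

/-- Strong induction on `e`, `graw_complete`, `majority`. -/
theorem gap_complete (hP : Good P) (hF : FOk F) (hG : GapOk P F G) (e i : ℕ) (α γ : ℤ) (κ : ℕ)
    (h : F e i α γ ≤ κ) : ((G e i α γ κ).P fun v => v = false) ≤ (1 / 2) ^ (4 * P.hh) := by
  induction e using Nat.strong_induction_on generalizing i α γ κ with
  | _ e ih =>
    rw [hG]
    split_ifs with h1 h2 h3
    · have := hF.disp e i α γ
      omega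
    · exact gap_pure _ (by simpa using h) (by positivity)
    · exact gap_pure _ (by simp) (by positivity)
    · have hk := gap_kb_pos hP
      obtain ⟨e', rfl⟩ : ∃ e', e = e' + P.kb := ⟨e - P.kb, by omega⟩
      exact gap_maj_false _ (graw_complete hP hF (γ := γ)
        (fun i' α' γ' κ' h' => ih e' (by omega) i' α' γ' κ' h') (by omega) h) _

/-- Induction on `k`; for `e ≤ kb`, `F ≤ 2^kb + |γ - α| ≤ 2κ`. -/
theorem gap_sound' (hP : Good P) (hF : FOk F) (hG : GapOk P F G) (k e : ℕ) (he : e ≤ (k + 1) * P.kb)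
    (i : ℕ) (α γ : ℤ) (κ : ℕ)
    (h : (1 + 7 / 2 ^ P.kγ : ℝ) ^ k * (2 + 16 * 2 ^ P.kb * k) * κ < F e i α γ) :
    ((G e i α γ κ).P fun v => v = true) ≤ (1 / 2) ^ (4 * P.hh) := by
  induction k generalizing e i α γ κ with
  | zero =>
    have hA := gap_A_ge (7 / 2 ^ P.kγ) (16 * 2 ^ P.kb) (by positivity) (by positivity) 0
    have h2κ : 2 * κ < F e i α γ := by
      have : (2 : ℝ) * κ < F e i α γ :=
        lt_of_le_of_lt (mul_le_mul_of_nonneg_right hA (Nat.cast_nonneg κ)) h
      exact_mod_cast this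
    rw [hG]
    split_ifs with h1 h2 h3
    · exact gap_pure _ (by simp) (by positivity)
    · exact gap_pure _ (by simp; omega) (by positivity)
    · have h4 := hF.up e i α γ
      have h5 : 2 ^ e ≤ P.F1 := by
        rw [hP.F1_eq]
        exact Nat.pow_le_pow_right (by norm_num) (by omega)
      omega
    · omega
  | succ k ih =>
    have hA := gap_A_ge (7 / 2 ^ P.kγ) (16 * 2 ^ P.kb) (by positivity) (by positivity) (k + 1)
    have h2κ : 2 * κ < F e i α γ := by
      have : (2 : ℝ) * κ < F e i α γ :=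
        lt_of_le_of_lt (mul_le_mul_of_nonneg_right hA (Nat.cast_nonneg κ)) h
      exact_mod_cast this
    rw [hG]
    split_ifs with h1 h2 h3
    · exact gap_pure _ (by simp) (by positivity)
    · exact gap_pure _ (by simp; omega) (by positivity)
    · have h4 := hF.up e i α γ
      have h5 : 2 ^ e ≤ P.F1 := by
        rw [hP.F1_eq]
        exact Nat.pow_le_pow_right (by norm_num) (by omega)
      omega
    · obtain ⟨e', rfl⟩ : ∃ e', e = e' + P.kb := ⟨e - P.kb, by omega⟩
      have he' : e' ≤ (k + 1) * P.kb := by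
        rw [Nat.succ_mul (k + 1)] at he
        omega
      have hA' := gap_A_ge (7 / 2 ^ P.kγ) (16 * 2 ^ P.kb) (by positivity) (by positivity) k
      refine gap_maj_true _ (graw_sound hP hF (γ := γ)
        (A := (1 + 7 / 2 ^ P.kγ : ℝ) ^ k * (2 + 16 * 2 ^ P.kb * k)) (by linarith)
        (fun i' α' γ' κ' h' => ih e' he' i' α' γ' κ' h') (by omega) (by omega) ?_) _
      refine lt_of_le_of_lt (mul_le_mul_of_nonneg_right ?_ (Nat.cast_nonneg κ)) h
      have h6 : (1 : ℝ) ≤ (1 + 7 / 2 ^ P.kγ) ^ (k + 1) :=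
        one_le_pow₀ (le_add_of_nonneg_right (by positivity))
      have h7 : (0 : ℝ) ≤ 16 * 2 ^ P.kb := by positivity
      have h8 := mul_le_mul_of_nonneg_right h6 h7
      rw [pow_succ] at h8 ⊢
      push_cast
      nlinarith

/-- `k = 2 hh / kb`: `(1 + 7γ0)^k ≤ exp (7 k γ0) ≤ 3`, `2 + 16 b0 k ≤ 2^(kb + ll + 7)`. -/
theorem gap_sound (hP : Good P) (hF : FOk F) (hG : GapOk P F G) {e : ℕ} (he : e ≤ 2 * P.hh)
    (i : ℕ) (α γ : ℤ) (κ : ℕ) (h : 2 ^ (P.kR - 1) * κ < F e i α γ) :
    ((G e i α γ κ).P fun v => v = true) ≤ (1 / 2) ^ (4 * P.hh) := by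
  have hk := gap_kb_pos hP
  refine gap_sound' hP hF hG (2 * P.hh) e (he.trans ?_) i α γ κ ?_
  · nlinarith
  have h' : (2 : ℝ) ^ (P.kR - 1) * κ < F e i α γ := by exact_mod_cast h
  refine lt_of_le_of_lt (mul_le_mul_of_nonneg_right ?_ (Nat.cast_nonneg κ)) h'
  have hh : ((2 * P.hh : ℕ) : ℝ) ≤ 4 * 2 ^ P.ll := by
    have : 2 * P.hh ≤ 4 * 2 ^ P.ll := by
      have := hP.hh_hi
      rw [pow_succ] at this
      omega
    exact_mod_cast this
  have h1 : (1 + 7 / 2 ^ P.kγ : ℝ) ^ (2 * P.hh) ≤ 4 := by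
    have a1 : (1 + 7 / 2 ^ P.kγ : ℝ) ≤ Real.exp (7 / 2 ^ P.kγ) := by
      linarith [Real.add_one_le_exp (7 / 2 ^ P.kγ : ℝ)]
    have a2 := pow_le_pow_left₀ (by positivity) a1 (2 * P.hh)
    rw [← Real.exp_nat_mul] at a2
    have a3 : ((2 * P.hh : ℕ) : ℝ) * (7 / 2 ^ P.kγ) ≤ 1 := by
      rw [Par.kγ.eq_1, pow_add, ← mul_div_assoc, div_le_one (by positivity)]
      have : (0 : ℝ) < 2 ^ P.ll := by positivity
      norm_num at hh ⊢
      linarith
    have a4 := Real.exp_le_exp.2 a3
    linarith [Real.exp_one_lt_three]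
  have h2 : (2 + 16 * 2 ^ P.kb * ((2 * P.hh : ℕ) : ℝ)) ≤ 128 * (2 ^ P.kb * 2 ^ P.ll) := by
    have a1 : (1 : ℝ) ≤ 2 ^ P.kb := one_le_pow₀ (by norm_num)
    have a2 : (1 : ℝ) ≤ 2 ^ P.ll := one_le_pow₀ (by norm_num)
    have a3 : (1 : ℝ) ≤ 2 ^ P.kb * 2 ^ P.ll := one_le_mul_of_one_le_of_one_le a1 a2
    have a4 := mul_le_mul_of_nonneg_left hh (show (0 : ℝ) ≤ 16 * 2 ^ P.kb by positivity)
    nlinarith
  have h3 : (4 : ℝ) * (128 * (2 ^ P.kb * 2 ^ P.ll)) = 2 ^ (P.kb + P.ll + 9) := by
    rw [pow_add, pow_add]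
    ring
  have h4 : P.kb + P.ll + 9 ≤ P.kR - 1 := by
    have := hP.aux_llsq
    have := hP.aux_ll_ne
    rw [Par.kb.eq_1, Par.kR.eq_1]
    omega
  calc _ ≤ (4 : ℝ) * (128 * (2 ^ P.kb * 2 ^ P.ll)) :=
        mul_le_mul h1 h2 (by positivity) (by norm_num)
    _ = 2 ^ (P.kb + P.ll + 9) := h3
    _ ≤ 2 ^ (P.kR - 1) := pow_le_pow_right₀ (by norm_num) h4

/-- Union bound over the `e + 2` tests (`P_seq_map_not`). -/
theorem orcT_ok (hP : Good P) (hF : FOk F) (hG : GapOk P F G) {e : ℕ} (he : e ≤ 2 * P.hh)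
    (i : ℕ) (α γ : ℤ) (h : 1 ≤ F e i α γ) :
    ((orcT P G e i α γ).P fun v => ¬ (F e i α γ ≤ v ∧ v ≤ 2 ^ P.kR * F e i α γ)) ≤
      (1 / 2) ^ (3 * P.hh) := by
  have hR : 1 ≤ P.kR := by
    have := hP.ll_kR
    have := hP.aux_ll_ne
    omega
  have hR2 : 2 ^ P.kR = 2 * 2 ^ (P.kR - 1) := by
    rw [← pow_succ']
    congr 1
    omega
  have hR3 : 1 ≤ 2 ^ (P.kR - 1) := Nat.one_le_two_pow
  have hup := hF.up e i α γ
  have hdisp := hF.disp e i α γ
  unfold orcT
  split_ifs with h1
  · refine gap_pure _ (not_not.2 ⟨hup, ?_⟩) (by positivity)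
    rw [hR2]
    nlinarith
  rw [P_map]
  have key := P_seq_map_not (List.range (e + 2)) (fun k => G e i α γ (2 ^ k))
    (fun k v => (F e i α γ ≤ 2 ^ k → v = true) ∧ (2 ^ (P.kR - 1) * 2 ^ k < F e i α γ → v = false))
    ((1 / 2) ^ (4 * P.hh)) (by
      intro k _
      by_cases c1 : F e i α γ ≤ 2 ^ k
      · refine le_trans (P_mono (All_of_forall _ fun v hv => ?_))
          (gap_complete hP hF hG e i α γ (2 ^ k) c1)
        cases v with
        | false => rfl
        | true =>
          refine absurd ⟨fun _ => rfl, fun c2 => ?_⟩ hv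
          have := Nat.mul_le_mul_right (2 ^ k) hR3
          omega
      by_cases c2 : 2 ^ (P.kR - 1) * 2 ^ k < F e i α γ
      · refine le_trans (P_mono (All_of_forall _ fun v hv => ?_))
          (gap_sound hP hF hG he i α γ (2 ^ k) c2)
        cases v with
        | true => rfl
        | false => exact absurd ⟨fun c => absurd c c1, fun _ => rfl⟩ hv
      · refine le_trans (P_mono (q := fun _ => False) (All_of_forall _ fun v hv => ?_)) ?_
        · exact hv ⟨fun c => absurd c c1, fun c => absurd c c2⟩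
        · rw [RT.P]
          simp only [Crest.Agent.R309.ind_neg not_false, E_const]
          positivity)
  refine le_trans (le_trans (P_mono (All_of_forall _ fun r hr => ?_)) key) ?_
  · intro h2
    refine hr ?_
    have hlen : r.length = e + 2 := by
      have := h2.length_eq
      rw [List.length_range] at this
      exact this.symm
    have hget : ∀ k (hk : k < r.length), (F e i α γ ≤ 2 ^ k → r[k] = true) ∧
        (2 ^ (P.kR - 1) * 2 ^ k < F e i α γ → r[k] = false) := by
      intro k hk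
      have := (List.forall₂_iff_get.1 h2).2 k (by rw [List.length_range]; omega) hk
      simpa using this
    have hlt : r.findIdx id < r.length := by
      refine List.findIdx_lt_length_of_exists ⟨r[e + 1]'(by omega), List.getElem_mem _, ?_⟩
      refine (hget (e + 1) (by omega)).1 ?_
      rw [pow_succ]
      omega
    have htrue : r[r.findIdx id] = true := List.findIdx_getElem (p := id) (w := hlt)
    constructor
    · refine le_min hup (not_lt.1 fun c => ?_)
      have := (hget _ hlt).2 c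
      rw [htrue] at this
      exact absurd this (by simp)
    · refine (min_le_right _ _).trans ?_
      rcases Nat.eq_zero_or_pos (r.findIdx id) with c | c
      · rw [c, hR2]
        nlinarith
      · obtain ⟨k, hk⟩ : ∃ k, r.findIdx id = k + 1 := ⟨r.findIdx id - 1, by omega⟩
        have hf : r[k]'(by omega) = false :=
          List.not_of_lt_findIdx (p := id) (xs := r) (i := k) (by omega)
        have c3 : ¬ F e i α γ ≤ 2 ^ k := by
          intro c3
          have := (hget k (by omega)).1 c3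
          rw [hf] at this
          exact absurd this (by simp)
        rw [hk, hR2, pow_succ]
        nlinarith [Nat.mul_le_mul_left (2 ^ (P.kR - 1)) (not_le.1 c3).le]
  · rw [List.length_range]
    have a1 : e + 2 ≤ 2 ^ P.hh := by
      have b1 := hP.quart
      have b2 : 1 ≤ P.ll ^ 4 := Nat.one_le_pow _ _ (Nat.pos_of_ne_zero hP.aux_ll_ne)
      have b3 := Good.aux_cube P.hh (by omega)
      have b4 : P.hh ≤ P.hh * P.hh * P.hh := by
        have : 1 ≤ P.hh * P.hh := Nat.mul_pos (by omega) (by omega)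
        nlinarith
      omega
    have a2 : ((e + 2 : ℕ) : ℝ) ≤ 2 ^ P.hh := by exact_mod_cast a1
    have a3 : (2 : ℝ) ^ P.hh * (1 / 2) ^ (4 * P.hh) = (1 / 2) ^ (3 * P.hh) := by
      rw [show 4 * P.hh = P.hh + 3 * P.hh by ring, pow_add, ← mul_assoc, ← mul_pow]
      norm_num
    rw [← a3]
    exact mul_le_mul_of_nonneg_right a2 (by positivity)

theorem orcT_le (P : Par) (G : ℕ → ℕ → ℤ → ℤ → ℕ → RT Bool) (e i : ℕ) (α γ : ℤ) :
    (orcT P G e i α γ).All fun v => v ≤ 2 ^ e + (γ - α).natAbs := by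
  unfold orcT
  split_ifs
  · exact le_rfl
  · rw [All_map]
    exact All_of_forall _ fun _ => min_le_left _ _

end Crest.Agent.R288
end

-- ▼ part PVb/R288/SemG

/-!
# R288: the gap tests and the oracle of the scheme; replacing the oracle by the ideal one
-/

set_option autoImplicit false

namespace Crest.Agent.R288

open Crest.Agent.Lib.PT RT

variable {P : Par} {mem : ℕ → ℕ} {pr : Call → Option (RT V)} {x y : List ℕ}

theorem semg_seq (γ : Type) [Enc γ] [Dec γ] (pr : Call → Option (RT V)) (l : List Call) :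
    seq (l.map (evd γ P pr)) = (seq (l.map (alg.ev P pr))).map rds := by
  have : l.map (evd γ P pr) = (l.map (alg.ev P pr)).map (RT.map dec) := by
    rw [List.map_map]; rfl
  rw [this, seq_map]; rfl

/-- Calls with one stage only. -/
theorem semg_one (β γ : Type) [Enc β] [Dec β] [Enc γ] [Dec γ]
    (hpr : ∀ k : Call, k.1 ≤ 1 → pr k ≠ none) {k : Call} (hk : alg.Tm P k) (hn : pr k = none)
    (l : List Call) (g : List γ → β) (h1 : algS1 P k = l) (h2 : ∀ r1, algS2 P k r1 = [])
    (h3 : ∀ r1, algOut P k r1 [] = enc (g (rds r1))) :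
    evd β P pr k = (seq (l.map (evd γ P pr))).map g := by
  rw [evd, Scheme.ev_unfold hpr hk hn, semg_seq, RT.map_map, Scheme.body, RT.map_bind]
  change RT.bind (seq ((algS1 P k).map _)) _ = _
  rw [h1]
  refine RT.bind_congr (All_of_forall _ fun r1 => ?_)
  change RT.map dec (RT.bind (seq ((algS2 P k r1).map _)) fun r2 => .pure (algOut P k r1 r2)) = _
  rw [h2]
  simp only [List.map_nil, seq_nil, pure_bind, map_pure, h3, dec_enc]

theorem semg_kb (hP : Good P) : P.p2 P.kb = 2 ^ P.kb :=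
  hP.p2_eq (by rw [Par.kP.eq_1, Par.kR.eq_1, Par.kb.eq_1]; omega)

theorem semg_kγ (hP : Good P) : P.p2 P.kγ = 2 ^ P.kγ := by
  have h1 := hP.ll_kR
  have h2 := hP.small_ll
  exact hP.p2_eq (by rw [Par.kP.eq_1, Par.kγ.eq_1]; omega)

theorem semg_kR (hP : Good P) : P.p2 (P.kR - 1) = 2 ^ (P.kR - 1) :=
  hP.p2_eq (by rw [Par.kP.eq_1]; omega)

theorem semg_draw (hP : Good P) (h : PrOk P mem pr) (e i : ℕ) (α : ℤ) (κ eb l : ℕ)
    (hk : alg.Tm P (cGDraw e i α κ eb l)) :
    evd Bool P pr (cGDraw e i α κ eb l) =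
      gdrawT P (fun e i α γ κ => evd Bool P pr (cGap e i α γ κ)) e i α κ eb l := by
  have h1 : algS1 P (cGDraw e i α κ eb l) = [cRnd P.kb] := by simp [algS1, cGDraw]
  have h2 : ∀ j : ℕ, algS2 P (cGDraw e i α κ eb l) [enc j] = (gstates P α κ eb).map fun s =>
      cGap (e - P.kb) (i * 2 ^ P.kb + j) s.1 s.2 (gg P κ eb * (2 ^ P.kγ + l + 2)) := by
    intro j
    simp [algS2, cGDraw, gdrawS2, rd, semg_kb hP, semg_kγ hP]
  have h3 : ∀ r1 r2, algOut P (cGDraw e i α κ eb l) r1 r2 = gdrawOut r2 := by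
    intro r1 r2
    simp [algOut, cGDraw]
  rw [evd, h.unfold hk (by simp [cGDraw]) (by simp [cGDraw]), h1, List.map_singleton, seq_single,
    ev_rnd h, RT.map_map, RT.bind_map, RT.map_bind, gdrawT]
  refine RT.bind_congr (All_of_forall _ fun j => ?_)
  rw [h2]
  have h4 := semg_seq (P := P) Bool pr ((gstates P α κ eb).map fun s =>
      cGap (e - P.kb) (i * 2 ^ P.kb + j) s.1 s.2 (gg P κ eb * (2 ^ P.kγ + l + 2)))
  rw [List.map_map] at h4
  erw [h4]
  rw [RT.map_map, RT.map_bind]
  refine RT.bind_congr (All_of_forall _ fun r2 => ?_)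
  simp only [h3, gdrawOut, map_pure, dec_enc]

theorem semg_raw (hP : Good P) (h : PrOk P mem pr) (e i : ℕ) (α : ℤ) (κ : ℕ)
    (hk : alg.Tm P (cGRaw e i α κ)) :
    evd Bool P pr (cGRaw e i α κ) =
      grawT P (fun e i α γ κ => evd Bool P pr (cGap e i α γ κ)) e i α κ := by
  have h1 : algS1 P (cGRaw e i α κ) = (gdraws P).map fun q => cGDraw e i α κ q.1 q.2 := by
    simp [algS1, cGRaw, grawS1]
  rw [semg_one Bool Bool h.ne_none hk (h.eq_none _ (by simp [cGRaw]) (by simp [cGRaw])) _
    (fun r => graw P κ (r.countP id)) h1 (fun r1 => by simp [algS2, cGRaw])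
    (fun r1 => by simp [algOut, cGRaw, grawOut]), grawT, List.map_map]
  congr 2
  refine List.map_congr_left fun q hq => semg_draw hP h e i α κ q.1 q.2 ?_
  refine Scheme.Tm.s1 hk (by simp [cGRaw]) _ ?_
  rw [show alg.s1 P (cGRaw e i α κ) = _ from h1]
  exact List.mem_map_of_mem hq

theorem gapOk_evd (hP : Good P) (h : PrOk P mem pr) (hm : MemOk P mem x y) :
    GapOk P (FF x y) fun e i α γ κ => evd Bool P pr (cGap e i α γ κ) := by
  intro e i α γ κ
  have hk := tm_gap hP e i α γ κ
  have hn := h.eq_none (cGap e i α γ κ) (by simp [cGap]) (by simp [cGap])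
  have h2 : ∀ r1, algS2 P (cGap e i α γ κ) r1 = [] := fun r1 => by simp [algS2, cGap]
  have h1 : algS1 P (cGap e i α γ κ) = gapS1 P (⟨e⟩, i, α, γ, κ) := by simp [algS1, cGap]
  have h3 : ∀ r1, algOut P (cGap e i α γ κ) r1 [] = gapOut P (⟨e⟩, i, α, γ, κ) r1 := fun r1 => by
    simp [algOut, cGap]
  simp only []
  split_ifs with c1 c2 c3
  · rw [semg_one Bool Bool h.ne_none hk hn [] (fun _ => false) (by rw [h1, gapS1, if_pos c1]) h2
      (fun r1 => by rw [h3, gapOut, if_pos c1])]
    rfl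
  · rw [semg_one Bool ℕ h.ne_none hk hn [cSmall e i α γ κ] (fun r => decide (r.getD 0 (dec V.nil) ≤ κ))
      (by rw [h1, gapS1, if_neg c1, if_pos c2]; simp only [min_eq_left c2]) h2
      (fun r1 => by
        rw [h3, gapOut, if_neg c1, if_pos c2]
        cases r1 <;> rfl)]
    rw [List.map_singleton, seq_single, evd, ev_small h hm]
    simp only [map_pure, dec_enc, List.getD_cons_zero]
    congr 1
    rw [decide_eq_decide]
    omega
  · rw [semg_one Bool Bool h.ne_none hk hn [] (fun _ => true)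
      (by rw [h1, gapS1, if_neg c1, if_neg c2, if_pos c3]) h2
      (fun r1 => by rw [h3, gapOut, if_neg c1, if_neg c2, if_pos c3])]
    rfl
  · have h4 : algS1 P (cGap e i α γ κ) = List.replicate (2 * (4 * P.hh)) (cGRaw e i α κ) := by
      rw [h1, gapS1, if_neg c1, if_neg c2, if_neg c3]
    rw [semg_one Bool Bool h.ne_none hk hn _ (fun r => decide (4 * P.hh < r.countP id)) h4 h2
      (fun r1 => by rw [h3, gapOut, if_neg c1, if_neg c2, if_neg c3]), List.map_replicate,
      semg_raw hP h]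
    refine Scheme.Tm.s1 hk (by simp [cGap]) _ ?_
    rw [show alg.s1 P (cGap e i α γ κ) = _ from h4]
    have := hP.aux_ll_hh
    exact List.mem_replicate.2 ⟨by omega, rfl⟩

theorem evd_orc (hP : Good P) (e i : ℕ) (α γ : ℤ) :
    evd ℕ P (realPrim P mem) (cOrc e i α γ) =
      orcT P (fun e i α γ κ => evd Bool P (realPrim P mem) (cGap e i α γ κ)) e i α γ := by
  have hk := tm_orc hP e i α γ
  have hn : realPrim P mem (cOrc e i α γ) = none := by simp [realPrim, cOrc]
  have h2 : ∀ r1, algS2 P (cOrc e i α γ) r1 = [] := fun r1 => by simp [algS2, cOrc]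
  have h1 : algS1 P (cOrc e i α γ) = orcS1 (⟨e⟩, i, α, γ) := by simp [algS1, cOrc]
  have h3 : ∀ r1, algOut P (cOrc e i α γ) r1 [] = orcOut P (⟨e⟩, i, α, γ) r1 := fun r1 => by
    simp [algOut, cOrc]
  unfold orcT
  split_ifs with c1
  · rw [semg_one ℕ Bool (realPrim_ne_none P mem) hk hn [] (fun _ => 2 ^ e + (γ - α).natAbs)
      (by rw [h1, orcS1, if_pos c1]) h2 (fun r1 => by rw [h3, orcOut, if_pos c1])]
    rfl
  · rw [semg_one ℕ Bool (realPrim_ne_none P mem) hk hn
      ((List.range (e + 2)).map fun k => cGap e i α γ (2 ^ k))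
      (fun r => min (2 ^ e + (γ - α).natAbs) (2 ^ (P.kR - 1) * 2 ^ r.findIdx id))
      (by
        rw [h1, orcS1, if_neg c1]
        exact List.map_congr_left fun k hk => by
          rw [min_eq_left (List.mem_range.1 hk).le]) h2
      (fun r1 => by rw [h3, orcOut, if_neg c1, semg_kR hP]), List.map_map]
    rfl

/-- The ideal oracle is always right. -/
theorem ideal_orc (hP : Good P) (hm : MemOk P mem x y) {e : ℕ} (he : e ≤ 2 * P.hh) (i : ℕ) (α γ : ℤ)
    (h : 1 ≤ FF x y e i α γ) :
    (evd ℕ P (idealPrim P mem x y) (cOrc e i α γ)).All fun v => FF x y e i α γ ≤ v ∧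
      v ≤ 2 ^ P.kR * FF x y e i α γ ∧ v ≤ 2 ^ e + (γ - α).natAbs := by
  have _ := hm
  have hp : idealPrim P mem x y (cOrc e i α γ) = some ((alg.ev P (realPrim P mem)
      (cOrc e i α γ)).map (clampO P x y (⟨e⟩, i, α, γ))) := by
    simp [idealPrim, cOrc]
  have h1 := orcT_le P (fun e i α γ κ => evd Bool P (realPrim P mem) (cGap e i α γ κ)) e i α γ
  rw [← evd_orc hP, evd, All_map] at h1
  rw [evd, Scheme.ev_prim (tm_orc hP e i α γ) hp, All_map, All_map]
  refine h1.mono fun v hv => ?_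
  unfold clampO
  split_ifs with c
  · rw [dec_enc]
    exact ⟨le_rfl, Nat.le_mul_of_pos_left _ (by positivity), (FF_ok x y).up e i α γ⟩
  · have c' : FF x y e i α γ ≤ (dec v : ℕ) ∧ (dec v : ℕ) ≤ 2 ^ P.kR * FF x y e i α γ := by
      by_contra c'
      exact c ⟨h, he, c'⟩
    exact ⟨c'.1, c'.2, hv⟩

theorem semg_ev8 (hP : Good P) {k : Call} (h8 : k.1 = 8) (hk : alg.Tm P k) :
    alg.ev P (realPrim P mem) k = alg.ev P (realPrim P mem)
      (cOrc (dec k.2 : AOrc).1.n (dec k.2 : AOrc).2.1 (dec k.2 : AOrc).2.2.1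
        (dec k.2 : AOrc).2.2.2) := by
  obtain ⟨t, v⟩ := k
  obtain rfl : t = 8 := h8
  rw [Scheme.ev_unfold (realPrim_ne_none P mem) hk (by simp [realPrim]),
    Scheme.ev_unfold (realPrim_ne_none P mem) (tm_orc hP _ _ _ _) (by simp [realPrim, cOrc])]
  simp [Scheme.body, alg, algS1, algS2, algOut, cOrc]

/-- `Scheme.hybrid`; a call `(8, v)` has the same meaning as `cOrc` with the decoded arguments. -/
theorem ideal_hybrid (hP : Good P) (hm : MemOk P mem x y) {n c : ℕ} {k : Call} (hk : alg.Cst P n c k)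
    (f : V → ℝ) (hf : ∀ v, 0 ≤ f v ∧ f v ≤ 1) :
    (alg.ev P (idealPrim P mem x y) k).E f ≤
      (alg.ev P (realPrim P mem) k).E f + c * (1 / 2) ^ (3 * P.hh) := by
  refine Scheme.hybrid (realPrim_ne_none P mem) (by positivity) (fun k => ?_) hk f hf
  by_cases h8 : k.1 = 8
  swap
  · left; rw [idealPrim, if_neg h8]
  right
  refine ⟨by simp [realPrim, h8], _, by rw [idealPrim, if_pos h8], fun hT f hf => ?_⟩
  rw [semg_ev8 hP h8 hT, E_map]
  generalize (dec k.2 : AOrc) = a
  obtain ⟨⟨e⟩, i, α, γ⟩ := a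
  by_cases c : 1 ≤ FF x y e i α γ ∧ e ≤ 2 * P.hh
  · have h1 := orcT_ok hP (FF_ok x y) (gapOk_evd hP (prOk_real P mem) hm) c.2 i α γ c.1
    rw [← evd_orc hP, evd, P_map] at h1
    have h2 := E_le_of_event (t := alg.ev P (realPrim P mem) (cOrc e i α γ))
      (f := fun v => f (clampO P x y (⟨e⟩, i, α, γ) v)) (g := f)
      (p := fun v => FF x y e i α γ ≤ (dec v : ℕ) ∧ (dec v : ℕ) ≤ 2 ^ P.kR * FF x y e i α γ)
      zero_le_one (All_of_forall _ fun v => (hf v).1) (All_of_forall _ fun v => ⟨fun hv => by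
        rw [clampO, if_neg fun c' => c'.2.2 hv], (hf _).2⟩)
    simp only [] at h2 ⊢
    linarith
  · have h2 : ∀ v, clampO P x y (⟨e⟩, i, α, γ) v = v := fun v => by
      rw [clampO, if_neg fun c' => c ⟨c'.1, c'.2.1⟩]
    simp only [h2]
    have : (0 : ℝ) ≤ (1 / 2) ^ (3 * P.hh) := by positivity
    linarith

end Crest.Agent.R288
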